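import Vale.Agent.P225.Control.Sl2

/-!
P225, control: families of `su(2)` representations with nonzero weights on the quadratic elements.

A space of families which is stable under brackets and contains `X`, `Y`, `Z` and the weighted
families `σ (ZX + XZ)`, `σ (ZY + YZ)` contains every traceless family of elements of the algebras
generated by `X`, `Y`, `Z`, degree by degree.
-/

namespace Vale.Agent.P225.Control.LieFam

open TensorProduct Sl2

noncomputable section

variable {A : Type*} [Ring A] [Algebra ℝ A]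

/-- The real part. -/
def re : ℂ ⊗[ℝ] A →ₗ[ℝ] A := (TensorProduct.lid ℝ A).toLinearMap ∘ₗ (Complex.reLm.rTensor A)

/-- The imaginary part. -/
def im : ℂ ⊗[ℝ] A →ₗ[ℝ] A := (TensorProduct.lid ℝ A).toLinearMap ∘ₗ (Complex.imLm.rTensor A)

@[simp] theorem re_tmul (z : ℂ) (a : A) : re (z ⊗ₜ[ℝ] a) = z.re • a := by simp [re]

@[simp] theorem im_tmul (z : ℂ) (a : A) : im (z ⊗ₜ[ℝ] a) = z.im • a := by simp [im]

@[simp] theorem re_one : re (1 : ℂ ⊗[ℝ] A) = 1 := by simp [Algebra.TensorProduct.one_def]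

@[simp] theorem im_one : im (1 : ℂ ⊗[ℝ] A) = 0 := by simp [Algebra.TensorProduct.one_def]

@[simp] theorem re_mul (x y : ℂ ⊗[ℝ] A) : re (x * y) = re x * re y - im x * im y := by
  induction x using TensorProduct.induction_on with
  | zero => simp
  | add u v hu hv => simp only [add_mul, map_add, hu, hv]; abel
  | tmul z a =>
    induction y using TensorProduct.induction_on with
    | zero => simp
    | add u v hu hv => simp only [mul_add, map_add, hu, hv]; abel
    | tmul w b => simp [Algebra.TensorProduct.tmul_mul_tmul, Complex.mul_re, sub_smul, smul_smul, mul_comm]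

@[simp] theorem im_mul (x y : ℂ ⊗[ℝ] A) : im (x * y) = re x * im y + im x * re y := by
  induction x using TensorProduct.induction_on with
  | zero => simp
  | add u v hu hv => simp only [add_mul, map_add, hu, hv]; abel
  | tmul z a =>
    induction y using TensorProduct.induction_on with
    | zero => simp
    | add u v hu hv => simp only [mul_add, map_add, hu, hv]; abel
    | tmul w b => simp [Algebra.TensorProduct.tmul_mul_tmul, Complex.mul_im, add_smul, smul_smul, mul_comm]

@[simp] theorem re_smul (c : ℂ) (x : ℂ ⊗[ℝ] A) : re (c • x) = c.re • re x - c.im • im x := by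
  induction x using TensorProduct.induction_on with
  | zero => simp
  | add u v hu hv => simp only [smul_add, map_add, hu, hv]; abel
  | tmul z a => simp [TensorProduct.smul_tmul', Complex.mul_re, sub_smul, smul_smul]

@[simp] theorem im_smul (c : ℂ) (x : ℂ ⊗[ℝ] A) : im (c • x) = c.re • im x + c.im • re x := by
  induction x using TensorProduct.induction_on with
  | zero => simp
  | add u v hu hv => simp only [smul_add, map_add, hu, hv]; abel
  | tmul z a => simp [TensorProduct.smul_tmul', Complex.mul_im, add_smul, smul_smul]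

theorem eta (x : ℂ ⊗[ℝ] A) : x = (1 : ℂ) ⊗ₜ[ℝ] re x + Complex.I ⊗ₜ[ℝ] im x := by
  induction x using TensorProduct.induction_on with
  | zero => simp
  | add u v hu hv =>
    conv_lhs => rw [hu, hv]
    simp only [map_add, TensorProduct.tmul_add]; abel
  | tmul z a =>
    simp only [re_tmul, im_tmul, TensorProduct.tmul_smul, TensorProduct.smul_tmul', ← TensorProduct.add_tmul]
    congr 1
    simp [Complex.re_add_im]

theorem ext {x y : ℂ ⊗[ℝ] A} (h1 : re x = re y) (h2 : im x = im y) : x = y := by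
  rw [eta x, eta y, h1, h2]

theorem re_br (x y : ℂ ⊗[ℝ] A) : re (br x y) = br (re x) (re y) - br (im x) (im y) := by
  simp only [br, map_sub, re_mul]; abel

theorem im_br (x y : ℂ ⊗[ℝ] A) : im (br x y) = br (re x) (im y) + br (im x) (re y) := by
  simp only [br, map_sub, im_mul]; abel

/-- The element `a + i b`. -/
def cx (a b : A) : ℂ ⊗[ℝ] A := (1 : ℂ) ⊗ₜ[ℝ] a + Complex.I ⊗ₜ[ℝ] b

@[simp] theorem re_cx (a b : A) : re (cx a b) = a := by simp [cx]

@[simp] theorem im_cx (a b : A) : im (cx a b) = b := by simp [cx]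

/-- Relations of three skew fields. -/
structure Su2 (X Y Z : A) (C : ℝ) : Prop where
  zx : Z * X - X * Z = (-2 : ℝ) • Y
  zy : Z * Y - Y * Z = (2 : ℝ) • X
  xy : X * Y - Y * X = (-2 : ℝ) • Z
  cas : X * X + Y * Y + Z * Z = (-C) • 1

/-- The raising element. -/
def eE (X Y : A) : ℂ ⊗[ℝ] A := cx ((2⁻¹ : ℝ) • X) ((2⁻¹ : ℝ) • Y)

/-- The lowering element. -/
def fE (X Y : A) : ℂ ⊗[ℝ] A := cx (-((2⁻¹ : ℝ) • X)) ((2⁻¹ : ℝ) • Y)

/-- The weight element. -/
def hE (Z : A) : ℂ ⊗[ℝ] A := cx 0 (-Z)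

theorem rel {X Y Z : A} {C : ℝ} (s : Su2 X Y Z C) :
    Rel (eE X Y) (fE X Y) (hE Z) (C : ℂ) := by
  have zx : Z * X = X * Z + (-2 : ℝ) • Y := by rw [← s.zx]; abel
  have zy : Z * Y = Y * Z + (2 : ℝ) • X := by rw [← s.zy]; abel
  have xy : X * Y = Y * X + (-2 : ℝ) • Z := by rw [← s.xy]; abel
  have zz : Z * Z = (-C) • 1 - X * X - Y * Y := by rw [← s.cas]; abel
  refine ⟨?_, ?_, ?_, ?_⟩ <;> apply ext <;>
    simp only [br, map_sub, map_add, re_mul, im_mul, re_smul, im_smul, eE, fE, hE, re_cx, im_cx,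
      Complex.ofReal_re, Complex.ofReal_im, re_one, im_one, Complex.neg_re, Complex.neg_im,
      Complex.re_ofNat, Complex.im_ofNat, mul_smul_comm, smul_mul_assoc, mul_neg, neg_mul,
      zero_mul, mul_zero, smul_smul, zx, zy, xy, zz, smul_neg, smul_zero, zero_smul, neg_zero] <;>
    module

theorem br_k_pow {R : Type*} [Ring R] [Algebra ℂ R] {e f h : R} {C : ℂ} (r : Rel e f h C) (m : ℕ) :
    br (h * e + e * h) (e ^ m) = (4 * (m : ℂ)) • e ^ (m + 1) := by
  have e0 : br (h * e + e * h) (e ^ m) = br h (e ^ m) * e + e * br h (e ^ m) := by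
    have c : e * e ^ m = e ^ m * e := (pow_succ' e m).symm.trans (pow_succ e m)
    simp only [br, add_mul, mul_add, sub_mul, mul_sub, mul_assoc, c]
    rw [← mul_assoc (e ^ m) e h, ← c, mul_assoc]
    abel
  rw [e0, br_h_pow r, smul_mul_assoc, mul_smul_comm, ← pow_succ, ← pow_succ']
  module

theorem pow_re_im_mem {X Y : A} (s : Set A) (hX : X ∈ Algebra.adjoin ℝ s)
    (hY : Y ∈ Algebra.adjoin ℝ s) (m : ℕ) :
    re (eE X Y ^ m) ∈ Algebra.adjoin ℝ s ∧ im (eE X Y ^ m) ∈ Algebra.adjoin ℝ s := by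
  induction m with
  | zero => simp [one_mem, zero_mem]
  | succ m ih =>
    have h1 : re (eE X Y) ∈ Algebra.adjoin ℝ s := by
      rw [eE, re_cx]; exact Subalgebra.smul_mem _ hX _
    have h2 : im (eE X Y) ∈ Algebra.adjoin ℝ s := by
      rw [eE, im_cx]; exact Subalgebra.smul_mem _ hY _
    rw [pow_succ, re_mul, im_mul]
    exact ⟨sub_mem (mul_mem ih.1 h1) (mul_mem ih.2 h2), add_mem (mul_mem ih.1 h2) (mul_mem ih.2 h1)⟩

theorem pow_trace {X Y Z : A} {C : ℝ} (s : Su2 X Y Z C) (τ : A →ₗ[ℝ] ℝ)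
    (hτ : ∀ a b, τ (a * b) = τ (b * a)) (m : ℕ) :
    τ (re (eE X Y ^ (m + 1))) = 0 ∧ τ (im (eE X Y ^ (m + 1))) = 0 := by
  have h0 : ∀ a b, τ (br a b) = 0 := fun a b => by simp [br, hτ a b]
  have k := br_h_pow (rel s) (m + 1)
  have h1 := congrArg (fun z => τ (re z)) k
  have h2 := congrArg (fun z => τ (im z)) k
  simp [re_br, im_br, h0] at h1 h2
  have : (m : ℝ) + 1 ≠ 0 := by positivity
  constructor <;> grind

theorem tmul_mem_adjoin (X Y Z : A) {L : A} (hL : L ∈ Algebra.adjoin ℝ ({X, Y, Z} : Set A)) :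
    (1 : ℂ) ⊗ₜ[ℝ] L ∈ Algebra.adjoin ℂ ({eE X Y, fE X Y, hE Z} : Set (ℂ ⊗[ℝ] A)) := by
  set S := Algebra.adjoin ℂ ({eE X Y, fE X Y, hE Z} : Set (ℂ ⊗[ℝ] A))
  have he : eE X Y ∈ S := Algebra.subset_adjoin (by simp)
  have hf : fE X Y ∈ S := Algebra.subset_adjoin (by simp)
  have hh : hE Z ∈ S := Algebra.subset_adjoin (by simp)
  induction hL using Algebra.adjoin_induction with
  | mem x hx =>
    rcases hx with h | h | h
    · have : (1 : ℂ) ⊗ₜ[ℝ] x = eE X Y - fE X Y := by
        apply ext <;> simp [eE, fE, h] <;> module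
      rw [this]; exact sub_mem he hf
    · have : (1 : ℂ) ⊗ₜ[ℝ] x = (-Complex.I) • (eE X Y + fE X Y) := by
        apply ext <;> simp [eE, fE, h] <;> module
      rw [this]; exact Subalgebra.smul_mem _ (add_mem he hf) _
    · have : (1 : ℂ) ⊗ₜ[ℝ] x = Complex.I • hE Z := by
        apply ext <;> simp [hE, Set.mem_singleton_iff.mp h]
      rw [this]; exact Subalgebra.smul_mem _ hh _
  | algebraMap t =>
    have : (1 : ℂ) ⊗ₜ[ℝ] (algebraMap ℝ A t) = (t : ℂ) • (1 : ℂ ⊗[ℝ] A) := by
      apply ext <;> simp [Algebra.algebraMap_eq_smul_one, -Complex.coe_smul]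
    rw [this]; exact Subalgebra.smul_mem _ (one_mem _) _
  | add x y _ _ hx hy => rw [TensorProduct.tmul_add]; exact add_mem hx hy
  | mul x y _ _ hx hy => simpa [Algebra.TensorProduct.tmul_mul_tmul] using mul_mem hx hy

section Families

variable {n : ℕ} {B : Fin n → Type*} [∀ a, Ring (B a)] [∀ a, Algebra ℝ (B a)]

omit [∀ a, Algebra ℝ (B a)] in
theorem single_br (W : ∀ a, B a) (a : Fin n) (x : B a) :
    W * Pi.single a x - Pi.single a x * W = Pi.single a (br (W a) x) := by
  ext b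
  rcases eq_or_ne b a with rfl | hb
  · simp [br]
  · simp [hb]

theorem traceless_mem (X Y Z : ∀ a, B a) (s : ∀ a, Su2 (X a) (Y a) (Z a) (((a : ℕ) + 1) * ((a : ℕ) + 3)))
    (nil : ∀ a, eE (X a) (Y a) ^ ((a : ℕ) + 2) = 0) (σ : Fin n → ℝ) (hσ : ∀ a, σ a ≠ 0)
    (τ : ∀ a, B a →ₗ[ℝ] ℝ) (hτ : ∀ a x y, τ a (x * y) = τ a (y * x)) (hτ1 : ∀ a, τ a 1 ≠ 0)
    (T : Submodule ℝ (∀ a, B a)) (hT : ∀ U ∈ T, ∀ W ∈ T, U * W - W * U ∈ T)
    (hX : X ∈ T) (hY : Y ∈ T) (hZ : Z ∈ T)
    (hZX : (fun a => σ a • (Z a * X a + X a * Z a)) ∈ T)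
    (hZY : (fun a => σ a • (Z a * Y a + Y a * Z a)) ∈ T)
    (L : ∀ a, B a) (hL : ∀ a, L a ∈ Algebra.adjoin ℝ ({X a, Y a, Z a} : Set (B a)))
    (hL0 : ∀ a, τ a (L a) = 0) : L ∈ T := by
  let P : (∀ a, ℂ ⊗[ℝ] B a) → Prop := fun z => (fun a => re (z a)) ∈ T ∧ (fun a => im (z a)) ∈ T
  have Pbr : ∀ u v, P u → P v → P fun a => br (u a) (v a) := by
    intro u v hu hv
    constructor
    · convert T.sub_mem (hT _ hu.1 _ hv.1) (hT _ hu.2 _ hv.2) using 1
      funext a; simp [br]; abel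
    · convert T.add_mem (hT _ hu.1 _ hv.2) (hT _ hu.2 _ hv.1) using 1
      funext a; simp [br]; abel
  have Psmul : ∀ (c : ℂ) (u : ∀ a, ℂ ⊗[ℝ] B a), P u → P fun a => c • u a := by
    intro c u hu
    constructor
    · convert T.sub_mem (T.smul_mem c.re hu.1) (T.smul_mem c.im hu.2) using 1
      funext a; simp
    · convert T.add_mem (T.smul_mem c.re hu.2) (T.smul_mem c.im hu.1) using 1
      funext a; simp
  have Pk : P fun a => (σ a : ℂ) • (hE (Z a) * eE (X a) (Y a) + eE (X a) (Y a) * hE (Z a)) := by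
    constructor
    · convert T.smul_mem (2⁻¹ : ℝ) hZY using 1
      funext a; simp [hE, eE, -Complex.coe_smul]; module
    · convert T.smul_mem (-2⁻¹ : ℝ) hZX using 1
      funext a; simp [hE, eE, -Complex.coe_smul]; module
  have Pz : ∀ m, P fun a => ((σ a : ℂ) ^ m) • eE (X a) (Y a) ^ (m + 1) := by
    intro m
    induction m with
    | zero =>
      constructor
      · convert T.smul_mem (2⁻¹ : ℝ) hX using 1
        funext a; simp [eE]
      · convert T.smul_mem (2⁻¹ : ℝ) hY using 1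
        funext a; simp [eE]
    | succ m ih =>
      have h := Psmul ((4 * ((m : ℂ) + 1))⁻¹) _ (Pbr _ _ Pk ih)
      convert h using 2
      rename_i a
      have hne : (4 * ((m : ℂ) + 1)) ≠ 0 := mul_ne_zero (by norm_num) (Nat.cast_add_one_ne_zero m)
      have hb := br_k_pow (rel (s a)) (m + 1)
      simp only [br] at hb ⊢
      simp only [smul_mul_assoc, mul_smul_comm, smul_smul]
      rw [mul_comm ((σ a : ℂ) ^ m) (σ a : ℂ), ← smul_sub, hb, smul_smul, smul_smul]
      congr 1
      push_cast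
      field_simp
      ring
  suffices H : ∀ k (a : Fin n), n ≤ a.val + k → ∀ x ∈ Algebra.adjoin ℝ ({X a, Y a, Z a} : Set (B a)),
      τ a x = 0 → Pi.single a x ∈ T by
    rw [← Finset.univ_sum_single L]
    exact T.sum_mem fun a _ => H n a (by omega) _ (hL a) (hL0 a)
  intro k
  induction k with
  | zero => intro a ha; exact absurd ha (by have := a.isLt; omega)
  | succ k ih =>
    intro a ha x hx hx0
    have hXa : X a ∈ Algebra.adjoin ℝ ({X a, Y a, Z a} : Set (B a)) := Algebra.subset_adjoin (by simp)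
    have part : ∀ g : ∀ b, B b, g ∈ T → (∀ b, b.val < a.val → g b = 0) →
        (∀ b, a.val < b.val → g b ∈ Algebra.adjoin ℝ ({X b, Y b, Z b} : Set (B b)) ∧ τ b (g b) = 0) →
        Pi.single a (g a) ∈ T := by
      intro g hg h1 h2
      have : Pi.single a (g a) = g - ∑ b ∈ Finset.univ.erase a, Pi.single b (g b) := by
        conv_rhs => arg 1; rw [← Finset.univ_sum_single g,
          ← Finset.add_sum_erase _ _ (Finset.mem_univ a)]
        simp
      rw [this]
      refine T.sub_mem hg (T.sum_mem fun b hb => ?_)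
      rcases lt_trichotomy b.val a.val with h | h | h
      · rw [h1 b h, Pi.single_zero]; exact T.zero_mem
      · exact absurd (Fin.ext h) (Finset.ne_of_mem_erase hb)
      · exact ih b (by omega) _ (h2 b h).1 (h2 b h).2
    let Sr : Submodule ℝ (B a) :=
      T.comap (LinearMap.single ℝ B a) ⊓ LinearMap.ker (τ a)
    have hSr : ∀ y, y ∈ Sr ↔ Pi.single a y ∈ T ∧ τ a y = 0 := fun y => Iff.rfl
    have adW : ∀ W ∈ T, ∀ y ∈ Sr, br (W a) y ∈ Sr := by
      intro W hW y hy
      refine (hSr _).mpr ⟨?_, by simp [br, hτ a (W a) y]⟩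
      rw [← single_br]; exact hT _ hW _ ((hSr _).mp hy).1
    let S : Submodule ℂ (ℂ ⊗[ℝ] B a) :=
      { carrier := {z | re z ∈ Sr ∧ im z ∈ Sr}
        zero_mem' := by simp
        add_mem' := fun {u v} hu hv => by
          simp only [Set.mem_ofPred_eq, map_add]
          exact ⟨Sr.add_mem hu.1 hv.1, Sr.add_mem hu.2 hv.2⟩
        smul_mem' := fun c u hu => by
          simp only [Set.mem_ofPred_eq, re_smul, im_smul]
          exact ⟨Sr.sub_mem (Sr.smul_mem _ hu.1) (Sr.smul_mem _ hu.2),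
            Sr.add_mem (Sr.smul_mem _ hu.2) (Sr.smul_mem _ hu.1)⟩ }
    have adS : ∀ q : ℂ ⊗[ℝ] B a, (∀ y ∈ Sr, br (re q) y ∈ Sr ∧ br (im q) y ∈ Sr) →
        ∀ z ∈ S, br q z ∈ S := by
      intro q hq z hz
      refine ⟨?_, ?_⟩
      · rw [re_br]; exact Sr.sub_mem (hq _ hz.1).1 (hq _ hz.2).2
      · rw [im_br]; exact Sr.add_mem (hq _ hz.2).1 (hq _ hz.1).2
    have scale : ∀ (c : ℝ) (w y : B a), br w y ∈ Sr → br (c • w) y ∈ Sr := by
      intro c w y h
      have : br (c • w) y = c • br w y := by simp [br, smul_sub]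
      rw [this]; exact Sr.smul_mem c h
    have top : eE (X a) (Y a) ^ (a.val + 1) ∈ S := by
      have hz : ((σ a : ℂ) ^ a.val) • eE (X a) (Y a) ^ (a.val + 1) ∈ S := by
        have vanish : ∀ b : Fin n, b.val < a.val → eE (X b) (Y b) ^ (a.val + 1) = 0 := fun b hb => by
          rw [show a.val + 1 = (b.val + 2) + (a.val - b.val - 1) from by omega, pow_add, nil, zero_mul]
        have good : ∀ b, re (((σ b : ℂ) ^ a.val) • eE (X b) (Y b) ^ (a.val + 1)) ∈
              Algebra.adjoin ℝ ({X b, Y b, Z b} : Set (B b)) ∧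
            im (((σ b : ℂ) ^ a.val) • eE (X b) (Y b) ^ (a.val + 1)) ∈
              Algebra.adjoin ℝ ({X b, Y b, Z b} : Set (B b)) ∧
            τ b (re (((σ b : ℂ) ^ a.val) • eE (X b) (Y b) ^ (a.val + 1))) = 0 ∧
            τ b (im (((σ b : ℂ) ^ a.val) • eE (X b) (Y b) ^ (a.val + 1))) = 0 := by
          intro b
          have h1 := pow_re_im_mem ({X b, Y b, Z b} : Set (B b))
            (Algebra.subset_adjoin (by simp) : X b ∈ _) (Algebra.subset_adjoin (by simp) : Y b ∈ _)
            (a.val + 1)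
          have h2 := pow_trace (s b) (τ b) (hτ b) a.val
          rw [re_smul, im_smul]
          exact ⟨sub_mem (Subalgebra.smul_mem _ h1.1 _) (Subalgebra.smul_mem _ h1.2 _),
            add_mem (Subalgebra.smul_mem _ h1.2 _) (Subalgebra.smul_mem _ h1.1 _),
            by simp [h2.1, h2.2], by simp [h2.1, h2.2]⟩
        constructor
        · exact (hSr _).mpr ⟨part _ (Pz a.val).1 (fun b hb => by simp [vanish b hb])
            (fun b _ => ⟨(good b).1, (good b).2.2.1⟩), (good a).2.2.1⟩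
        · exact (hSr _).mpr ⟨part _ (Pz a.val).2 (fun b hb => by simp [vanish b hb])
            (fun b _ => ⟨(good b).2.1, (good b).2.2.2⟩), (good a).2.2.2⟩
      exact (S.smul_mem_iff (pow_ne_zero _ (Complex.ofReal_ne_zero.mpr (hσ a)))).mp hz
    have hquad : ∀ Q : ∀ b, B b, (fun b => σ b • Q b) ∈ T → ∀ y ∈ Sr, br (Q a) y ∈ Sr := by
      intro Q hQ y hy
      have h := scale (σ a)⁻¹ _ y (adW _ hQ y hy)
      simpa [smul_smul, inv_mul_cancel₀ (hσ a)] using h
    have hf : ∀ z ∈ S, br (fE (X a) (Y a)) z ∈ S := by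
      refine adS _ fun y hy => ?_
      rw [fE, re_cx, im_cx, ← neg_smul]
      exact ⟨scale _ _ _ (adW X hX y hy), scale _ _ _ (adW Y hY y hy)⟩
    have hg : ∀ z ∈ S, br (hE (Z a) * fE (X a) (Y a) + fE (X a) (Y a) * hE (Z a)) z ∈ S := by
      refine adS _ fun y hy => ?_
      have e1 : re (hE (Z a) * fE (X a) (Y a) + fE (X a) (Y a) * hE (Z a)) =
          (2⁻¹ : ℝ) • (Z a * Y a + Y a * Z a) := by simp [hE, fE]
      have e2 : im (hE (Z a) * fE (X a) (Y a) + fE (X a) (Y a) * hE (Z a)) =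
          (2⁻¹ : ℝ) • (Z a * X a + X a * Z a) := by simp [hE, fE]
      rw [e1, e2]
      exact ⟨scale _ _ _ (hquad (fun b => Z b * Y b + Y b * Z b) hZY y hy),
        scale _ _ _ (hquad (fun b => Z b * X b + X b * Z b) hZX y hy)⟩
    obtain ⟨c, z, hz, hcz⟩ := adjoin_mem (rel (s a)) (N := a.val + 1) (by push_cast; ring) (nil a)
      S hf hg top (tmul_mem_adjoin _ _ _ hx)
    have hxre : x = c.re • (1 : B a) + re z := by simpa using congrArg re hcz
    have hc0 : c.re = 0 := by
      have := congrArg (τ a) hxre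
      rw [hx0, map_add, map_smul, smul_eq_mul, ((hSr _).mp hz.1).2, add_zero] at this
      exact (mul_eq_zero.mp this.symm).resolve_right (hτ1 a)
    rw [hxre, hc0, zero_smul, zero_add]
    exact ((hSr _).mp hz.1).1

end Families

end

end Vale.Agent.P225.Control.LieFam
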