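import Vale.Agent.P225.Control.LimitDefs
import Vale.Agent.P225.Control.LieFam

/-!
P225, control: the left fields on one degree and on the kicks.

* `EL_mul_comm`: bracketing a multiplication with a left field differentiates the multiplier;
* `groupKick_left`: the bracket of a left field with a kick is a combination of two kicks;
* `eE_nil`: the raising element of degree `j` is nilpotent of order `j + 1`.
-/

namespace Vale.Agent.P225.Control

open scoped RealInnerProductSpace

noncomputable section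

variable (H : Harm)

theorem norm_rot (k : Fin 3) {x : R4} (hx : ‖x‖ = 1) (t : ℝ) :
    ‖Real.cos t • x + Real.sin t • qL k x‖ = 1 := by
  have h1 : x 0 ^ 2 + x 1 ^ 2 + x 2 ^ 2 + x 3 ^ 2 = 1 := by
    have := EuclideanSpace.norm_sq_eq x
    simp [hx, Fin.sum_univ_four] at this
    linarith
  have h2 : ‖Real.cos t • x + Real.sin t • qL k x‖ ^ 2 = 1 := by
    rw [EuclideanSpace.norm_sq_eq, Fin.sum_univ_four]
    have e := Real.sin_sq_add_cos_sq t
    fin_cases k <;> simp [qL] <;>
      linear_combination (x 0 ^ 2 + x 1 ^ 2 + x 2 ^ 2 + x 3 ^ 2) * e + h1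
  nlinarith [norm_nonneg (Real.cos t • x + Real.sin t • qL k x)]

theorem fn_differentiable (j : ℕ) (v : V j) : Differentiable ℝ (H.fn j v) := by
  unfold Harm.fn
  exact Differentiable.fun_sum fun i _ =>
    (differentiable_const _).mul ((H.smooth j i).differentiable (by simp))

theorem hasDerivAt_fn_rot (j : ℕ) (k : Fin 3) (v : V j) (x : R4) :
    HasDerivAt (fun t => H.fn j v (Real.cos t • x + Real.sin t • qL k x))
      (H.fn j (H.EL j k v) x) 0 := by
  have hγ : HasDerivAt (fun t => Real.cos t • x + Real.sin t • qL k x) (qL k x) 0 := by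
    simpa using ((Real.hasDerivAt_cos 0).smul_const x).fun_add ((Real.hasDerivAt_sin 0).smul_const (qL k x))
  have h : HasFDerivAt (H.fn j v) (fderiv ℝ (H.fn j v) x) (Real.cos 0 • x + Real.sin 0 • qL k x) := by
    simpa using ((fn_differentiable H j v) x).hasFDerivAt
  have := h.comp_hasDerivAt 0 hγ
  rw [show fderiv ℝ (H.fn j v) x (qL k x) = H.fn j (H.EL j k v) x from H.deriv_left j k v x] at this
  exact this

theorem EL_mul_comm (k : Fin 3) (d : ℕ) (w : V d) (i j : ℕ) (v : V i) :
    H.EL j k (H.mul d w i j v) = H.mul d (H.EL d k w) i j v + H.mul d w i j (H.EL i k v) := by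
  rcases lt_or_ge j (i + d + 1) with hj | hj
  swap
  · simp [H.mul_band d _ i j (Or.inr (by omega))]
  have key := H.indep (i + d + 1)
    (fun a => H.EL a k (H.mul d w i a v) - (H.mul d (H.EL d k w) i a v + H.mul d w i a (H.EL i k v)))
  refine sub_eq_zero.mp (key (fun x hx => ?_) j hj)
  have hp : ∀ (w' : V d) (v' : V i) (y : R4), ‖y‖ = 1 →
      H.fn d w' y * H.fn i v' y = ∑ a ∈ Finset.range (i + d + 1), H.fn a (H.mul d w' i a v') y :=
    fun w' v' y hy => H.mul_eq d w' i v' y hy
  have hL := (hasDerivAt_fn_rot H d k w x).fun_mul (hasDerivAt_fn_rot H i k v x)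
  have hR : HasDerivAt (fun t => ∑ a ∈ Finset.range (i + d + 1),
      H.fn a (H.mul d w i a v) (Real.cos t • x + Real.sin t • qL k x))
      (∑ a ∈ Finset.range (i + d + 1), H.fn a (H.EL a k (H.mul d w i a v)) x) 0 :=
    HasDerivAt.fun_sum fun a _ => hasDerivAt_fn_rot H a k _ x
  have := hL.unique (hR.congr_of_eventuallyEq
    (Filter.Eventually.of_forall fun t => hp w v _ (norm_rot k hx t)))
  simp only [Real.cos_zero, Real.sin_zero, one_smul, zero_smul, add_zero] at this
  rw [hp _ _ x hx, hp _ _ x hx] at this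
  show ∑ a ∈ Finset.range (i + d + 1), H.fn a (_ - (_ + _)) x = 0
  have lin : ∀ a (p q r : V a), H.fn a (p - (q + r)) x = H.fn a p x - (H.fn a q x + H.fn a r x) := by
    intro a p q r
    simp [Harm.fn, Finset.sum_sub_distrib, Finset.sum_add_distrib, sub_mul, add_mul]
  simp only [lin, Finset.sum_sub_distrib, Finset.sum_add_distrib]
  linarith

/-- A left field on all degrees `1, …, n`. -/
def famEL (n : ℕ) (k : Fin 3) (a : Fin n) : Op (a.val + 1) (a.val + 1) := H.EL (a.val + 1) k

theorem EL_next (k : Fin 3) (j : ℕ) (v : V j) :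
    H.EL j k (H.EL j (k + 1) v) = H.EL j (k + 1) (H.EL j k v) + (-2 : ℝ) • H.EL j (k + 2) v := by
  rw [← H.rel_left j k v]; abel

theorem EL_prev (k : Fin 3) (j : ℕ) (v : V j) :
    H.EL j k (H.EL j (k + 2) v) = H.EL j (k + 2) (H.EL j k v) + (2 : ℝ) • H.EL j (k + 1) v := by
  have h := H.rel_left j (k + 2) v
  rw [show k + 2 + 1 = k from by fin_cases k <;> rfl,
    show k + 2 + 2 = k + 1 from by fin_cases k <;> rfl] at h
  have h2 : (2 : ℝ) • H.EL j (k + 1) v =
      -(H.EL j (k + 2) (H.EL j k v) - H.EL j k (H.EL j (k + 2) v)) := by rw [h]; module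
  rw [h2]; abel

theorem EL_pair (k l : Fin 3) : ∃ t : ℝ, ∃ m : Fin 3, ∀ j (v : V j),
    H.EL j k (H.EL j l v) = H.EL j l (H.EL j k v) + t • H.EL j m v := by
  rcases show l = k ∨ l = k + 1 ∨ l = k + 2 from by fin_cases k <;> fin_cases l <;> simp with
    rfl | rfl | rfl
  · exact ⟨0, l, fun j v => by simp⟩
  · exact ⟨-2, k + 2, fun j v => EL_next H k j v⟩
  · exact ⟨2, k + 1, fun j v => EL_prev H k j v⟩

theorem mul_add_left (d : ℕ) (w w' : V d) (i j : ℕ) :
    H.mul d (w + w') i j = H.mul d w i j + H.mul d w' i j := by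
  refine ContinuousLinearMap.ext fun v => ext_inner_left ℝ fun u => ?_
  rw [_root_.add_apply, inner_add_right, H.mul_swap d (w + w') i v j u, H.mul_swap d w i v j u,
    H.mul_swap d w' i v j u, inner_add_left]

theorem mul_smul_left (d : ℕ) (t : ℝ) (w : V d) (i j : ℕ) :
    H.mul d (t • w) i j = t • H.mul d w i j := by
  refine ContinuousLinearMap.ext fun v => ext_inner_left ℝ fun u => ?_
  rw [_root_.smul_apply, inner_smul_right, H.mul_swap d (t • w) i v j u, H.mul_swap d w i v j u,
    real_inner_smul_left]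

theorem kick_left (c : ℝ) (k : Fin 3) (d : ℕ) (w : V d) (kind : Option (Fin 3)) :
    ∃ t : ℝ, ∃ kind' : Option (Fin 3), ∀ a b,
      (H.EL b k).comp (kick H c kind d w a b) - (kick H c kind d w a b).comp (H.EL a k) =
        kick H c kind d (H.EL d k w) a b + t • kick H c kind' d w a b := by
  cases kind with
  | none =>
    refine ⟨0, none, fun a b => ContinuousLinearMap.ext fun v => ?_⟩
    have ord : ∀ F : Fin 3 → V b, ∑ l, F l = F k + F (k + 1) + F (k + 2) := by
      intro F
      rw [Fin.sum_univ_three]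
      fin_cases k <;> simp <;> abel
    simp [kick, ord, EL_mul_comm, EL_next H k, EL_prev H k, mul_add_left, mul_smul_left, -neg_smul,
      -neg_nsmul]
    module
  | some l =>
    obtain ⟨t, m, hm⟩ := EL_pair H k l
    refine ⟨t, some m, fun a b => ContinuousLinearMap.ext fun v => ?_⟩
    simp [kick, EL_mul_comm, hm, mul_add_left, mul_smul_left]
    module

theorem groupKick_left {n : ℕ} (c g : ℝ) (k : Fin 3) (d : ℕ) (w : V d) (kind : Option (Fin 3)) :
    ∃ t : ℝ, ∃ kind' : Option (Fin 3), adDiag (famEL H n k) (groupKick (n := n) H c g kind d w) =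
      groupKick (n := n) H c g kind d (H.EL d k w) + t • groupKick (n := n) H c g kind' d w := by
  obtain ⟨t, kind', h⟩ := kick_left H c k d w kind
  refine ⟨t, kind', ?_⟩
  funext a b
  refine ContinuousLinearMap.ext fun v => ?_
  by_cases hg : gap c (a.val + 1) (b.val + 1) = g
  · have e := DFunLike.congr_fun (h (a.val + 1) (b.val + 1)) v
    simp [adDiag, groupKick, famEL, hg, nkick] at e ⊢
    rw [← smul_sub, e]
    module
  · simp [adDiag, groupKick, hg]

theorem opTrace_mul_comm {j : ℕ} (A B : Op j j) : opTrace (A * B) = opTrace (B * A) := by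
  have e : ∀ A B : Op j j, opTrace (A * B) = ∑ i, ∑ l,
      (A (EuclideanSpace.single l (1 : ℝ))) i * (B (EuclideanSpace.single i (1 : ℝ))) l := by
    intro A B
    refine Finset.sum_congr rfl fun i _ => ?_
    have hsum : B (EuclideanSpace.single i (1 : ℝ)) =
        ∑ l, (B (EuclideanSpace.single i (1 : ℝ))) l • EuclideanSpace.single l (1 : ℝ) := by
      simpa using ((EuclideanSpace.basisFun _ ℝ).sum_repr (B (EuclideanSpace.single i (1 : ℝ)))).symm
    simp only [mul_apply_eq_comp, EuclideanSpace.inner_single_left, map_one, one_mul]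
    conv_lhs => rw [hsum]
    simp [map_sum, map_smul, Finset.sum_apply, mul_comm]
  rw [e, e, Finset.sum_comm]
  exact Finset.sum_congr rfl fun i _ => Finset.sum_congr rfl fun l _ => mul_comm _ _

theorem opTrace_one (j : ℕ) : opTrace (1 : Op j j) ≠ 0 := by
  simp [opTrace]
  positivity

/-- The trace as a linear map. -/
def traceLin (j : ℕ) : Op j j →ₗ[ℝ] ℝ where
  toFun := opTrace
  map_add' A B := by simp [opTrace, inner_add_right, Finset.sum_add_distrib]
  map_smul' t A := by simp [opTrace, inner_smul_right, Finset.mul_sum]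

theorem norm_EL_le (j : ℕ) (k : Fin 3) : ‖H.EL j k‖ ≤ Real.sqrt ((j : ℝ) * (j + 2)) := by
  refine ContinuousLinearMap.opNorm_le_bound _ (Real.sqrt_nonneg _) fun v => ?_
  have h : ∀ l, ⟪v, H.EL j l (H.EL j l v)⟫ = -(‖H.EL j l v‖ ^ 2) := fun l => by
    rw [real_inner_comm, H.skew_left, real_inner_self_eq_norm_sq]
  have hs : ∑ l, ‖H.EL j l v‖ ^ 2 = (j : ℝ) * (j + 2) * ‖v‖ ^ 2 := by
    have h2 := congrArg (fun z => ⟪v, z⟫) (H.casimir_left j v)
    simp only [inner_sum, h, inner_smul_right, Finset.sum_neg_distrib, real_inner_self_eq_norm_sq] at h2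
    linarith
  have h3 : ‖H.EL j k v‖ ^ 2 ≤ (j : ℝ) * (j + 2) * ‖v‖ ^ 2 := hs ▸
    Finset.single_le_sum (f := fun l => ‖H.EL j l v‖ ^ 2) (fun l _ => sq_nonneg _) (Finset.mem_univ k)
  have h4 := Real.sq_sqrt (show 0 ≤ (j : ℝ) * (j + 2) by positivity)
  refine (sq_le_sq₀ (norm_nonneg _) (by positivity)).mp ?_
  rw [mul_pow, h4]; exact h3

theorem su2 (j : ℕ) : LieFam.Su2 (H.EL j 0) (H.EL j 1) (H.EL j 2) ((j : ℝ) * (j + 2)) where
  zx := ContinuousLinearMap.ext fun v => by simpa using H.rel_left j 2 v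
  zy := ContinuousLinearMap.ext fun v => by
    have := H.rel_left j 1 v
    simp at this ⊢
    rw [← neg_sub, this]; module
  xy := ContinuousLinearMap.ext fun v => by simpa using H.rel_left j 0 v
  cas := ContinuousLinearMap.ext fun v => by
    simpa [Fin.sum_univ_three] using H.casimir_left j v

theorem eq_zero_of_rot {A : Type*} [NormedRing A] [NormedAlgebra ℝ A] {Z P R : A} {ν : ℝ}
    (hν : ‖Z‖ < ν) (h1 : Z * R - R * Z = (2 * ν) • P) (h2 : P * Z - Z * P = (2 * ν) • R) :
    P = 0 ∧ R = 0 := by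
  have hν0 : 0 < ν := lt_of_le_of_lt (norm_nonneg Z) hν
  have g1 : 2 * ν * ‖P‖ ≤ 2 * ‖Z‖ * ‖R‖ := by
    have := congrArg norm h1
    rw [norm_smul, Real.norm_of_nonneg (by positivity)] at this
    linarith [norm_sub_le (Z * R) (R * Z), norm_mul_le Z R, norm_mul_le R Z]
  have g2 : 2 * ν * ‖R‖ ≤ 2 * ‖Z‖ * ‖P‖ := by
    have := congrArg norm h2
    rw [norm_smul, Real.norm_of_nonneg (by positivity)] at this
    linarith [norm_sub_le (P * Z) (Z * P), norm_mul_le Z P, norm_mul_le P Z]
  constructor <;> refine norm_le_zero_iff.mp ?_ <;>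
    nlinarith [norm_nonneg P, norm_nonneg R, norm_nonneg Z]

open LieFam Sl2 in
theorem eE_pow_eq_zero {A : Type*} [NormedRing A] [NormedAlgebra ℝ A] {X Y Z : A} {C : ℝ}
    (s : Su2 X Y Z C) {m : ℕ} (hm : ‖Z‖ < (m : ℝ)) : eE X Y ^ m = 0 := by
  have k := br_h_pow (rel s) m
  have h1 := congrArg re k
  have h2 := congrArg im k
  generalize eE X Y ^ m = E at h1 h2 ⊢
  rw [re_br, re_smul, hE, re_cx, im_cx] at h1
  rw [im_br, im_smul, hE, re_cx, im_cx] at h2
  simp [br] at h1 h2
  have h1' : Z * im E - im E * Z = (2 * (m : ℝ)) • re E := by rw [← h1]; abel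
  have h2' : re E * Z - Z * re E = (2 * (m : ℝ)) • im E := by rw [← h2]; abel
  obtain ⟨hP, hR⟩ := eq_zero_of_rot hm h1' h2'
  exact LieFam.ext (by simpa using hP) (by simpa using hR)

theorem eE_nil (j : ℕ) : LieFam.eE (H.EL j 0) (H.EL j 1) ^ (j + 1) = 0 :=
  eE_pow_eq_zero (su2 H j) (lt_of_le_of_lt (norm_EL_le H j 2) (by
    rw [Real.sqrt_lt' (by positivity)]; push_cast; nlinarith))

end

end Vale.Agent.P225.Control
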