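import Vale.Agent.P225.Control.LieDefs
import Vale.Agent.P225.Control.LieKick

/-!
P225, control: the span of the kicks seen through words of micro squashes is left invariant.

The span is stable under the bracket with each micro generator (differentiate a one letter word);
it is stable under the bracket with each left field, since the kicks are, the brackets of left
fields with micro generators are combinations of micro generators, and one letter words are
integrals of brackets. Lie generation (`LieFam.traceless_mem`) gives left invariance.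
-/

namespace Vale.Agent.P225.Control

open scoped RealInnerProductSpace
open Filter

noncomputable section

variable (H : Harm) (σ δ : ℕ → ℝ)

local instance opComplete (i j : ℕ) : CompleteSpace (Op i j) := FiniteDimensional.complete ℝ _

theorem op_zero_smul {i j : ℕ} (A : Op i j) : (0 : ℝ) • A = 0 := zero_smul ℝ A

theorem op_one_comp {i j : ℕ} (A : Op i j) : (1 : Op j j).comp (A.comp (1 : Op i i)) = A :=
  ContinuousLinearMap.ext fun _ => rfl

theorem wordOp_append (u v : List (Fin 6 × ℝ)) (j : ℕ) :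
    wordOp H σ δ (u ++ v) j = (wordOp H σ δ u j).comp (wordOp H σ δ v j) := by
  induction u with
  | nil => simp [wordOp]
  | cons p u ih => simp [wordOp, ih, ContinuousLinearMap.comp_assoc]

variable {n : ℕ}

theorem undoWord_cons (p : Fin 6 × ℝ) (w : List (Fin 6 × ℝ)) :
    undoWord (p :: w) = undoWord w ++ [(p.1, -p.2)] := by simp [undoWord]

theorem conjWord_nil (X : Block n) : conjWord H σ δ [] X = X := by
  funext a b; simp [conjWord, wordOp, undoWord]

theorem conjWord_cons (p : Fin 6 × ℝ) (w : List (Fin 6 × ℝ)) (X : Block n) :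
    conjWord H σ δ (p :: w) X = conjWord H σ δ [p] (conjWord H σ δ w X) := by
  funext a b
  simp [conjWord, wordOp_append, wordOp, undoWord, ContinuousLinearMap.comp_assoc]

theorem conjWord_add_lie (w : List (Fin 6 × ℝ)) (X Y : Block n) :
    conjWord H σ δ w (X + Y) = conjWord H σ δ w X + conjWord H σ δ w Y := by
  funext a b; simp [conjWord, ContinuousLinearMap.add_comp, ContinuousLinearMap.comp_add]

theorem conjWord_smul_lie (w : List (Fin 6 × ℝ)) (t : ℝ) (X : Block n) :
    conjWord H σ δ w (t • X) = t • conjWord H σ δ w X := by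
  funext a b; simp [conjWord]

theorem adDiag_add (F : (a : Fin n) → Op (a.val + 1) (a.val + 1)) (X Y : Block n) :
    adDiag F (X + Y) = adDiag F X + adDiag F Y := by
  funext a b; simp [adDiag, ContinuousLinearMap.add_comp, ContinuousLinearMap.comp_add]; abel

theorem adDiag_smul (F : (a : Fin n) → Op (a.val + 1) (a.val + 1)) (t : ℝ) (X : Block n) :
    adDiag F (t • X) = t • adDiag F X := by
  funext a b; simp [adDiag, smul_sub]

/-- `adDiag` as a linear map in the block family. -/
def adLin (F : (a : Fin n) → Op (a.val + 1) (a.val + 1)) : Block n →ₗ[ℝ] Block n where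
  toFun := adDiag F
  map_add' := adDiag_add F
  map_smul' := adDiag_smul F

/-- A micro generator on all degrees `1, …, n`. -/
def famMicro (i : Fin 6) (a : Fin n) : Op (a.val + 1) (a.val + 1) := microGen H σ δ i (a.val + 1)

theorem hasDerivAt_conjWord (i : Fin 6) (X : Block n) (s : ℝ) :
    HasDerivAt (fun t => conjWord H σ δ [(i, t)] X)
      (adDiag (famMicro H σ δ i) (conjWord H σ δ [(i, s)] X)) s := by
  refine hasDerivAt_pi.mpr fun a => hasDerivAt_pi.mpr fun b => ?_
  simp only [conjWord, wordOp, undoWord, List.map_cons, List.map_nil, List.reverse_cons,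
    List.reverse_nil, List.nil_append, ContinuousLinearMap.comp_id]
  have hb := hasDerivAt_exp_smul_const' (microGen H σ δ i (b.val + 1)) s
  have ha : HasDerivAt (fun t : ℝ => NormedSpace.exp ((-t) • microGen H σ δ i (a.val + 1)))
      (-(NormedSpace.exp ((-s) • microGen H σ δ i (a.val + 1)) * microGen H σ δ i (a.val + 1))) s := by
    have := (hasDerivAt_exp_smul_const (microGen H σ δ i (a.val + 1)) (-s)).scomp s (hasDerivAt_neg s)
    rwa [neg_one_smul] at this
  have h := hb.clm_comp ((hasDerivAt_const s (X a b)).clm_comp ha)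
  refine h.congr_deriv (ContinuousLinearMap.ext fun v => ?_)
  simp [adDiag, famMicro, conjWord, wordOp, undoWord, mul_apply_eq_comp, sub_eq_add_neg]

theorem adDiag_micro_mem (i : Fin 6) (M : Submodule ℝ (Block n)) (X : Block n)
    (h : ∀ t, conjWord H σ δ [(i, t)] X ∈ M) : adDiag (famMicro H σ δ i) X ∈ M := by
  have hd := hasDerivAt_conjWord H σ δ i X 0
  have e : conjWord H σ δ [(i, (0 : ℝ))] X = X := by
    funext a b; simp [conjWord, wordOp, undoWord, op_zero_smul, op_one_comp]
  rw [e] at hd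
  refine (M.closed_of_finiteDimensional).mem_of_tendsto hd.tendsto_slope
    (Eventually.of_forall fun t => ?_)
  rw [slope_def_module]
  exact M.smul_mem _ (M.sub_mem (h t) (h 0))

theorem flow_mem {E : Type*} [NormedAddCommGroup E] [NormedSpace ℝ E] [FiniteDimensional ℝ E]
    (L : E →ₗ[ℝ] E) (N : Submodule ℝ E) (hN : ∀ x ∈ N, L x ∈ N) (φ : ℝ → E)
    (hφ : ∀ t, HasDerivAt φ (L (φ t)) t) (h0 : φ 0 ∈ N) (s : ℝ) : φ s ∈ N := by
  obtain ⟨C, hC⟩ := N.exists_isCompl
  have : CompleteSpace E := FiniteDimensional.complete ℝ E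
  have : CompleteSpace (E →L[ℝ] E) := FiniteDimensional.complete ℝ _
  let Q : E →ₗ[ℝ] C := Submodule.projectionOnto C N hC.symm
  let P₀ : E →ₗ[ℝ] E := C.subtype ∘ₗ Q
  let P : E →L[ℝ] E := LinearMap.toContinuousLinearMap P₀
  have hker : ∀ Y, P Y = 0 ↔ Y ∈ N := fun Y => by
    rw [← SetLike.ext_iff.mp (Submodule.ker_projectionOnto hC.symm) Y]
    simp [P, P₀, Q]
  let A : E →L[ℝ] E := LinearMap.toContinuousLinearMap (P₀ ∘ₗ L)
  have hA : ∀ Y, P (L Y) = A (P Y) := by
    intro Y
    have hYN : Y - P Y ∈ N := by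
      rw [← hker, map_sub]
      have : P (P Y) = P Y :=
        congrArg Subtype.val (Submodule.projectionOnto_apply_left hC.symm (Q Y))
      rw [this, sub_self]
    have h1 := (hker _).mpr (hN _ hYN)
    rw [map_sub, map_sub, sub_eq_zero] at h1
    exact h1
  have hd : ∀ t, HasDerivAt (fun t => P (φ t)) (A (P (φ t))) t := fun t => by
    rw [← hA]; exact P.hasFDerivAt.comp_hasDerivAt t (hφ t)
  let Ψ : ℝ → E := fun t => NormedSpace.exp (t • (-A)) (P (φ t))
  have hΨ : ∀ t, HasDerivAt Ψ 0 t := fun t => by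
    have h := (hasDerivAt_exp_smul_const (-A) t).clm_apply (hd t)
    refine h.congr_deriv ?_
    simp [mul_apply_eq_comp]
  have hconst : Ψ s = Ψ 0 :=
    is_const_of_deriv_eq_zero (fun t => (hΨ t).differentiableAt) (fun t => (hΨ t).deriv) s 0
  have hu : NormedSpace.exp ((-s) • (-A)) * NormedSpace.exp (s • (-A)) = 1 := by
    let : NormedAlgebra ℚ (E →L[ℝ] E) := NormedAlgebra.restrictScalars ℚ ℝ (E →L[ℝ] E)
    rw [← NormedSpace.exp_add_of_commute ((Commute.refl (-A)).smul_left _ |>.smul_right _),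
      ← add_smul, neg_add_cancel, zero_smul, NormedSpace.exp_zero]
  have hΨ0 : Ψ 0 = 0 := by simp [Ψ, (hker _).mpr h0]
  rw [← hker]
  have := congrArg (fun F : E →L[ℝ] E => F (P (φ s))) hu
  simp only [mul_apply_eq_comp, one_apply_eq_self] at this
  change NormedSpace.exp ((-s) • (-A)) (Ψ s) = _ at this
  rw [hconst, hΨ0, map_zero] at this
  exact this.symm

theorem conjWord_mem (i : Fin 6) (N : Submodule ℝ (Block n))
    (hN : ∀ X ∈ N, adDiag (famMicro H σ δ i) X ∈ N) {X : Block n} (hX : X ∈ N) (s : ℝ) :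
    conjWord H σ δ [(i, s)] X ∈ N := by
  refine flow_mem (adLin (famMicro H σ δ i)) N hN (fun t => conjWord H σ δ [(i, t)] X)
    (fun t => hasDerivAt_conjWord H σ δ i X t) ?_ s
  have e0 : conjWord H σ δ [(i, (0 : ℝ))] X = X := by
    funext a b; simp [conjWord, wordOp, undoWord, op_zero_smul, op_one_comp]
  show conjWord H σ δ [(i, (0 : ℝ))] X ∈ N
  rw [e0]; exact hX

/-- The families whose bracket preserves `M`. -/
def stab (M : Submodule ℝ (Block n)) : Submodule ℝ ((a : Fin n) → Op (a.val + 1) (a.val + 1)) where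
  carrier := {F | ∀ X ∈ M, adDiag F X ∈ M}
  zero_mem' := fun X _ => by
    have : adDiag (0 : (a : Fin n) → Op (a.val + 1) (a.val + 1)) X = 0 := by
      funext a b; simp [adDiag]
    rw [this]; exact M.zero_mem
  add_mem' := fun {F G} hF hG X hX => by
    have : adDiag (F + G) X = adDiag F X + adDiag G X := by
      funext a b; simp [adDiag, ContinuousLinearMap.add_comp, ContinuousLinearMap.comp_add]; abel
    rw [this]; exact M.add_mem (hF X hX) (hG X hX)
  smul_mem' := fun t F hF X hX => by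
    have : adDiag (t • F) X = t • adDiag F X := by
      funext a b; simp [adDiag, smul_sub]
    rw [this]; exact M.smul_mem t (hF X hX)

theorem adDiag_bracket (F G : (a : Fin n) → Op (a.val + 1) (a.val + 1)) (X : Block n) :
    adDiag (F * G - G * F) X = adDiag F (adDiag G X) - adDiag G (adDiag F X) := by
  funext a b
  simp [adDiag, ContinuousLinearMap.mul_def, ContinuousLinearMap.sub_comp,
    ContinuousLinearMap.comp_sub, ContinuousLinearMap.comp_assoc]
  abel

theorem stab_bracket (M : Submodule ℝ (Block n)) {F G : (a : Fin n) → Op (a.val + 1) (a.val + 1)}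
    (hF : F ∈ stab M) (hG : G ∈ stab M) : F * G - G * F ∈ stab M := fun X hX => by
  rw [adDiag_bracket]; exact M.sub_mem (hF _ (hG _ hX)) (hG _ (hF _ hX))

theorem off_square {A : Type*} [Ring A] [Algebra ℝ A] (p q : A) {r : ℝ} (hr : r * r = 2⁻¹) (s d : ℝ) :
    s • (p * q + q * p) =
      (2 : ℝ) • (s • ((r • p + r • q) * (r • p + r • q)) + d • 1) - (s • (p * p) + d • 1) -
        (s • (q * q) + d • 1) := by
  have e : (r • p + r • q) * (r • p + r • q) =
      (2⁻¹ : ℝ) • (p * p + p * q + q * p + q * q) := by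
    simp only [mul_add, add_mul, smul_mul_smul_comm, hr, smul_add]
    abel
  rw [e]
  module

theorem bracket_affine {A : Type*} [Ring A] [Algebra ℝ A] (e Q : A) (s d : ℝ) :
    e * (s • Q + d • 1) - (s • Q + d • 1) * e = s • (e * Q - Q * e) := by
  simp only [mul_add, add_mul, mul_smul_comm, smul_mul_assoc, mul_one, one_mul, smul_sub]
  abel

theorem combine {A : Type*} [AddCommGroup A] [Module ℝ A] (s c1 c2 c3 c4 : ℝ) (X1 X2 X3 X4 : A) :
    s • (c1 • X1 + c2 • X2 + c3 • X3 + c4 • X4) =
      c1 • (s • X1) + c2 • (s • X2) + c3 • (s • X3) + c4 • (s • X4) := by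
  module

theorem bracket_square {A : Type*} [Ring A] [Algebra ℝ A] {e0 e1 e2 : A}
    (h1 : e0 * e1 - e1 * e0 = (-2 : ℝ) • e2) (h2 : e0 * e2 - e2 * e0 = (2 : ℝ) • e1) (x y z : ℝ) :
    e0 * ((x • e0 + y • e1 + z • e2) * (x • e0 + y • e1 + z • e2)) -
      (x • e0 + y • e1 + z • e2) * (x • e0 + y • e1 + z • e2) * e0 =
      (2 * x * z) • (e0 * e1 + e1 * e0) + (-2 * x * y) • (e0 * e2 + e2 * e0) +
        (2 * (z ^ 2 - y ^ 2)) • (e1 * e2 + e2 * e1) + (4 * y * z) • (e1 * e1 - e2 * e2) := by
  have key : ∀ A' : A, e0 * (A' * A') - A' * A' * e0 =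
      (e0 * A' - A' * e0) * A' + A' * (e0 * A' - A' * e0) := fun A' => by noncomm_ring
  have hB : e0 * (x • e0 + y • e1 + z • e2) - (x • e0 + y • e1 + z • e2) * e0 =
      y • ((-2 : ℝ) • e2) + z • ((2 : ℝ) • e1) := by
    rw [← h1, ← h2]
    simp only [mul_add, add_mul, mul_smul_comm, smul_mul_assoc]
    module
  rw [key, hB]
  simp only [mul_add, add_mul, mul_smul_comm, smul_mul_assoc, smul_smul]
  module

/-- The weighted square families preserving `M`: off diagonal symmetric products and differences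
of squares. -/
theorem quad_mem (M : Submodule ℝ (Block n)) (hQ : ∀ i, famMicro H σ δ i ∈ stab M) (l m : Fin 3)
    (hlm : l ≠ m) :
    (fun a : Fin n => σ (a.val + 1) •
        (famEL H n l a * famEL H n m a + famEL H n m a * famEL H n l a)) ∈ stab M ∧
      (fun a : Fin n => σ (a.val + 1) •
        (famEL H n l a * famEL H n l a - famEL H n m a * famEL H n m a)) ∈ stab M := by
  have r2 : (Real.sqrt 2)⁻¹ * (Real.sqrt 2)⁻¹ = (2 : ℝ)⁻¹ := by
    rw [← mul_inv, Real.mul_self_sqrt (by norm_num)]
  have c : ∀ w : Fin 6 → ℝ, (∑ i, w i • famMicro (n := n) H σ δ i) ∈ stab M := fun w =>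
    (stab M).sum_mem fun i _ => (stab M).smul_mem _ (hQ i)
  have key : ∀ (w : Fin 6 → ℝ) (F : (a : Fin n) → Op (a.val + 1) (a.val + 1)),
      (∀ a, (∑ i, w i • famMicro (n := n) H σ δ i) a = F a) → F ∈ stab M := fun w F h => by
    rw [← funext h]; exact c w
  have off : ∀ (i : Fin 6) (p q : Fin 3) (a : Fin n),
      (∀ j, Shape.elAxis H j i = (Real.sqrt 2)⁻¹ • H.EL j p + (Real.sqrt 2)⁻¹ • H.EL j q) →
      σ (a.val + 1) • (famEL H n p a * famEL H n q a + famEL H n q a * famEL H n p a) =
        (2 : ℝ) • famMicro H σ δ i a - (σ (a.val + 1) • (famEL H n p a * famEL H n p a) +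
          δ (a.val + 1) • 1) - (σ (a.val + 1) • (famEL H n q a * famEL H n q a) + δ (a.val + 1) • 1) := by
    intro i p q a h
    simp only [famMicro, microGen, famEL, h]
    exact off_square _ _ r2 _ _
  have pure' : ∀ (p : Fin 3) (a : Fin n),
      σ (a.val + 1) • (famEL H n p a * famEL H n p a) + δ (a.val + 1) • 1 =
        famMicro H σ δ (Fin.castLE (by norm_num) p) a := by
    intro p a
    have : Shape.elAxis H (a.val + 1) (Fin.castLE (by norm_num) p) = H.EL (a.val + 1) p := by
      fin_cases p <;> simp [Shape.elAxis, axisVec, Fin.sum_univ_three] <;>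
      simp [op_zero_smul]
    simp [famMicro, microGen, famEL, this, ← ContinuousLinearMap.mul_def, ← ContinuousLinearMap.one_def]
  have hax : ∀ j, Shape.elAxis H j 3 = (Real.sqrt 2)⁻¹ • H.EL j 0 + (Real.sqrt 2)⁻¹ • H.EL j 1 ∧
      Shape.elAxis H j 4 = (Real.sqrt 2)⁻¹ • H.EL j 0 + (Real.sqrt 2)⁻¹ • H.EL j 2 ∧
      Shape.elAxis H j 5 = (Real.sqrt 2)⁻¹ • H.EL j 1 + (Real.sqrt 2)⁻¹ • H.EL j 2 := fun j => by
    simp [Shape.elAxis, axisVec, Fin.sum_univ_three, op_zero_smul]
  have offm : ∀ (i : Fin 6) (p q : Fin 3),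
      (∀ j, Shape.elAxis H j i = (Real.sqrt 2)⁻¹ • H.EL j p + (Real.sqrt 2)⁻¹ • H.EL j q) →
      (fun a : Fin n => σ (a.val + 1) •
        (famEL H n p a * famEL H n q a + famEL H n q a * famEL H n p a)) ∈ stab M := by
    intro i p q h
    have e := (stab M).sub_mem ((stab M).sub_mem ((stab M).smul_mem (2 : ℝ) (hQ i))
      (hQ (Fin.castLE (by norm_num) p))) (hQ (Fin.castLE (by norm_num) q))
    convert e using 1
    funext a
    simp only [Pi.sub_apply, Pi.smul_apply, ← pure']
    exact off i p q a h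
  have comm' : ∀ p q : Fin 3,
      (fun a : Fin n => σ (a.val + 1) •
        (famEL H n p a * famEL H n q a + famEL H n q a * famEL H n p a)) ∈ stab M →
      (fun a : Fin n => σ (a.val + 1) •
        (famEL H n q a * famEL H n p a + famEL H n p a * famEL H n q a)) ∈ stab M := fun p q h => by
    convert h using 1
    funext a
    rw [add_comm (famEL H n q a * famEL H n p a)]
  refine ⟨?_, ?_⟩
  · fin_cases l <;> fin_cases m <;> (first | exact absurd rfl hlm | skip)
    · exact offm 3 0 1 fun j => (hax j).1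
    · exact offm 4 0 2 fun j => (hax j).2.1
    · exact comm' _ _ (offm 3 0 1 fun j => (hax j).1)
    · exact offm 5 1 2 fun j => (hax j).2.2
    · exact comm' _ _ (offm 4 0 2 fun j => (hax j).2.1)
    · exact comm' _ _ (offm 5 1 2 fun j => (hax j).2.2)
  · have e := (stab M).sub_mem (hQ (Fin.castLE (by norm_num) l)) (hQ (Fin.castLE (by norm_num) m))
    convert e using 1
    funext a
    simp only [Pi.sub_apply, ← pure']
    module

theorem bracket_micro_mem (M : Submodule ℝ (Block n)) (hQ : ∀ i, famMicro H σ δ i ∈ stab M)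
    (k : Fin 3) (i : Fin 6) :
    famEL H n k * famMicro H σ δ i - famMicro H σ δ i * famEL H n k ∈ stab M := by
  set x := axisVec i k
  set y := axisVec i (k + 1)
  set z := axisVec i (k + 2)
  have h12 : k + 1 ≠ k + 2 := by fin_cases k <;> decide
  have h01 : k ≠ k + 1 := by fin_cases k <;> decide
  have h02 : k ≠ k + 2 := by fin_cases k <;> decide
  have hm := (stab M).add_mem ((stab M).add_mem ((stab M).add_mem
      ((stab M).smul_mem (2 * x * z) (quad_mem H σ δ M hQ k (k + 1) h01).1)
      ((stab M).smul_mem (-2 * x * y) (quad_mem H σ δ M hQ k (k + 2) h02).1))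
      ((stab M).smul_mem (2 * (z ^ 2 - y ^ 2)) (quad_mem H σ δ M hQ (k + 1) (k + 2) h12).1))
      ((stab M).smul_mem (4 * y * z) (quad_mem H σ δ M hQ (k + 1) (k + 2) h12).2)
  convert hm using 1
  funext a
  have hA : Shape.elAxis H (a.val + 1) i =
      x • famEL H n k a + y • famEL H n (k + 1) a + z • famEL H n (k + 2) a := by
    fin_cases k <;> simp [Shape.elAxis, Fin.sum_univ_three, famEL, x, y, z] <;> abel
  have b1 : famEL H n k a * famEL H n (k + 1) a - famEL H n (k + 1) a * famEL H n k a =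
      (-2 : ℝ) • famEL H n (k + 2) a := ContinuousLinearMap.ext fun v => by
    simp [famEL, EL_next H k]
  have b2 : famEL H n k a * famEL H n (k + 2) a - famEL H n (k + 2) a * famEL H n k a =
      (2 : ℝ) • famEL H n (k + 1) a := ContinuousLinearMap.ext fun v => by
    simp [famEL, EL_prev H k]
  simp only [Pi.sub_apply, Pi.mul_apply, Pi.add_apply, Pi.smul_apply, famMicro, microGen, hA]
  refine (bracket_affine _ _ _ _).trans ?_
  exact (congrArg (fun Y => σ (a.val + 1) • Y) (bracket_square b1 b2 x y z)).trans (combine _ _ _ _ _ _ _ _ _)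

theorem wordSpan_invariant (c : ℝ) (n : ℕ) :
    (∀ i, famMicro H σ δ i ∈ stab (wordSpan H σ δ c n)) ∧
      ∀ k, famEL H n k ∈ stab (wordSpan H σ δ c n) := by
  set M := wordSpan H σ δ c n
  have gen : ∀ w, ∀ X ∈ kickSet H c n, conjWord H σ δ w X ∈ M := fun w X hX =>
    Submodule.subset_span ⟨w, X, hX, rfl⟩
  have hconj : ∀ i t, ∀ X ∈ M, conjWord H σ δ [(i, t)] X ∈ M := by
    intro i t X hX
    induction hX using Submodule.span_induction with
    | mem Y hY => obtain ⟨w, X, hX, rfl⟩ := hY; rw [← conjWord_cons]; exact gen _ X hX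
    | zero =>
      have h0 : conjWord H σ δ [(i, t)] (0 : Block n) = 0 := by funext a b; simp [conjWord]
      rw [h0]; exact M.zero_mem
    | add Y Z _ _ hY hZ => rw [conjWord_add_lie]; exact M.add_mem hY hZ
    | smul s Y _ hY => rw [conjWord_smul_lie]; exact M.smul_mem s hY
  have hQ : ∀ i, famMicro H σ δ i ∈ stab M := fun i X hX =>
    adDiag_micro_mem H σ δ i M X fun t => hconj i t X hX
  refine ⟨hQ, ?_⟩
  let N : Submodule ℝ (Block n) := M ⊓ ⨅ k, M.comap (adLin (famEL H n k))
  have hN : ∀ X, X ∈ N ↔ X ∈ M ∧ ∀ k, adDiag (famEL H n k) X ∈ M := fun X => by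
    simp [N, adLin]
  have hkick : ∀ X ∈ kickSet H c n, X ∈ N := by
    rintro _ ⟨g, kind, d, w, hd, rfl⟩
    refine (hN _).mpr ⟨?_, fun k => ?_⟩
    · simpa [conjWord_nil] using gen [] _ ⟨g, kind, d, w, hd, rfl⟩
    · obtain ⟨t, kind', h⟩ := groupKick_left (n := n) H c g k d w kind
      rw [h]
      refine M.add_mem ?_ (M.smul_mem t ?_)
      · simpa [conjWord_nil] using gen [] _ ⟨g, kind, d, _, hd, rfl⟩
      · simpa [conjWord_nil] using gen [] _ ⟨g, kind', d, w, hd, rfl⟩
  have hNQ : ∀ i, ∀ X ∈ N, adDiag (famMicro H σ δ i) X ∈ N := by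
    intro i X hX
    obtain ⟨h1, h2⟩ := (hN X).mp hX
    refine (hN _).mpr ⟨hQ i X h1, fun k => ?_⟩
    have h := bracket_micro_mem H σ δ M hQ k i X h1
    rw [adDiag_bracket] at h
    simpa using M.add_mem h (hQ i _ (h2 k))
  have hw : ∀ w, ∀ X ∈ kickSet H c n, conjWord H σ δ w X ∈ N := by
    intro w X hX
    induction w with
    | nil => rw [conjWord_nil]; exact hkick X hX
    | cons p w ih => rw [conjWord_cons]; exact conjWord_mem H σ δ p.1 N (hNQ p.1) ih p.2
  have hle : M ≤ N := Submodule.span_le.mpr (by rintro _ ⟨w, X, hX, rfl⟩; exact hw w X hX)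
  exact fun k X hX => ((hN X).mp (hle hX)).2 k

theorem wordSpan_finite (c : ℝ) (n : ℕ) :
    ∃ W : Finset (List (Fin 6 × ℝ)), [] ∈ W ∧
      wordSpan H σ δ c n =
        Submodule.span ℝ {Y | ∃ w ∈ W, ∃ X ∈ kickSet H c n, conjWord H σ δ w X = Y} := by
  classical
  obtain ⟨b, hb, hspan, hind⟩ := exists_linearIndependent ℝ
    {Y | ∃ w, ∃ X ∈ kickSet H c n, conjWord H σ δ w X = Y}
  have hfin : b.Finite := hind.setFinite
  have hch : ∀ Y : b, ∃ w, ∃ X ∈ kickSet H c n, conjWord H σ δ w X = Y.1 := fun Y => hb Y.2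
  choose f hf using hch
  have := hfin.fintype
  refine ⟨insert [] (Finset.univ.image f), Finset.mem_insert_self _ _, le_antisymm ?_ ?_⟩
  · rw [wordSpan, ← hspan]
    exact Submodule.span_mono fun Y hY =>
      ⟨f ⟨Y, hY⟩, Finset.mem_insert_of_mem (Finset.mem_image_of_mem _ (Finset.mem_univ _)), hf ⟨Y, hY⟩⟩
  · exact Submodule.span_mono fun Y ⟨w, _, hY⟩ => ⟨w, hY⟩

/-- Left invariance of the span of all kicks seen through words. -/
theorem words_leftInvariant (c : ℝ) (n : ℕ) : WordsLeftInvariant H σ δ c n := by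
  intro hσ
  obtain ⟨hQ, hE⟩ := wordSpan_invariant H σ δ c n
  refine ⟨fun L hL => ?_, fun g kind d w hd => ?_, wordSpan_finite H σ δ c n⟩
  · refine LieFam.traceless_mem (famEL H n 0) (famEL H n 1) (famEL H n 2) (fun a => ?_)
      (fun a => eE_nil H (a.val + 1)) (fun a => σ (a.val + 1)) (fun a => hσ a.val a.isLt)
      (fun a => traceLin (a.val + 1)) (fun a => opTrace_mul_comm) (fun a => opTrace_one (a.val + 1))
      (stab (wordSpan H σ δ c n)) (fun U hU W hW => stab_bracket _ hU hW) (hE 0) (hE 1) (hE 2)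
      ?_ ?_ L (fun a => ?_) (fun a => (hL a).2)
    · have e : (((a : ℕ) : ℝ) + 1) * (((a : ℕ) : ℝ) + 3) =
          ((a.val + 1 : ℕ) : ℝ) * (((a.val + 1 : ℕ) : ℝ) + 2) := by push_cast; ring
      rw [e]
      exact su2 H (a.val + 1)
    · exact (quad_mem H σ δ _ hQ 2 0 (by decide)).1
    · exact (quad_mem H σ δ _ hQ 2 1 (by decide)).1
    · have e : Set.range (H.EL (a.val + 1)) =
          {famEL H n 0 a, famEL H n 1 a, famEL H n 2 a} := by
        ext A
        constructor
        · rintro ⟨k, rfl⟩; fin_cases k <;> simp [famEL]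
        · rintro (rfl | rfl | rfl) <;> exact ⟨_, rfl⟩
      rw [← e]; exact (hL a).1
  · have := Submodule.subset_span (R := ℝ)
      (s := {Y | ∃ w, ∃ X ∈ kickSet H c n, conjWord H σ δ w X = Y})
      ⟨([] : List (Fin 6 × ℝ)), groupKick (n := n) H c g kind d w, ⟨g, kind, d, w, hd, rfl⟩, conjWord_nil H σ δ _⟩
    exact this

end

end Vale.Agent.P225.Control
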