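import Vale.Agent.P225.Control.Range.Basics

/-!
P225, control: the range of the limit jump matrices.

* `rangeFull`: a left invariant space containing every group kick contains every block family whose
  diagonal blocks are orthogonal to the commutants of the left fields.
* `completion`: such a space prescribes anything on subspaces orthogonal to the zonal vectors.
-/

namespace Vale.Agent.P225.Control

open scoped RealInnerProductSpace
open Matrix

noncomputable section

variable {H : Harm} {n : ℕ}

theorem rate_strictMono {c : ℝ} (hc : 0 < c) : StrictMono (rate c) := by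
  intro i j hij
  have h : (i : ℝ) * (i + 2) < (j : ℝ) * (j + 2) := by
    have : (i : ℝ) < j := by exact_mod_cast hij
    nlinarith [(Nat.cast_nonneg i : (0 : ℝ) ≤ i)]
  have h2 : Real.sqrt (1 + c * ((i : ℝ) * (i + 2))) < Real.sqrt (1 + c * ((j : ℝ) * (j + 2))) :=
    Real.sqrt_lt_sqrt (by positivity) (by nlinarith [mul_lt_mul_of_pos_left h hc])
  unfold rate
  linarith

theorem rate_pos {c : ℝ} (hc : 0 < c) {j : ℕ} (hj : 0 < j) : 0 < rate c j := by
  have := rate_strictMono hc hj
  simpa [rate] using this

theorem gap_eq_zero_iff {c : ℝ} (hc : 0 < c) {i j : ℕ} : gap c i j = 0 ↔ i = j := by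
  rw [gap, sub_eq_zero, (rate_strictMono hc).injective.eq_iff]

/-- One block as a block family. -/
def blockSingle (a b : Fin n) : Op (a.val + 1) (b.val + 1) →ₗ[ℝ] Block n :=
  (LinearMap.single ℝ (fun a : Fin n => (b : Fin n) → Op (a.val + 1) (b.val + 1)) a).comp
    (LinearMap.single ℝ (fun b : Fin n => Op (a.val + 1) (b.val + 1)) b)

theorem blockSingle_self (a b : Fin n) (A : Op (a.val + 1) (b.val + 1)) :
    blockSingle a b A a b = A := by
  simp [blockSingle]

theorem blockSingle_ne_left {a b a' b' : Fin n} (h : a' ≠ a) (A : Op (a.val + 1) (b.val + 1)) :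
    blockSingle a b A a' b' = 0 := by
  simp [blockSingle, h]

theorem blockSingle_ne_right {a b a' b' : Fin n} (h : b' ≠ b) (A : Op (a.val + 1) (b.val + 1)) :
    blockSingle a b A a' b' = 0 := by
  by_cases ha : a' = a
  · subst ha; simp [blockSingle, h]
  · exact blockSingle_ne_left ha A

/-- A family with a single nonzero operator. -/
def atDeg (a : Fin n) (L : Op (a.val + 1) (a.val + 1)) : (b : Fin n) → Op (b.val + 1) (b.val + 1) :=
  Pi.single a L

theorem adDiag_atDeg_mem {M : Submodule ℝ (Block n)} (hM : LeftInvariant H M) {a : Fin n}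
    {L : Op (a.val + 1) (a.val + 1)} (hL : L ∈ leftAlg H (a.val + 1)) (ht : opTrace L = 0)
    {X : Block n} (hX : X ∈ M) : adDiag (atDeg a L) X ∈ M := by
  refine hM _ (fun b => ?_) X hX
  by_cases hb : b = a
  · subst hb; simp [atDeg, hL, ht]
  · simp [atDeg, hb, opTrace]

theorem adDiag_single_left {a b : Fin n} (hab : a ≠ b) (L : Op (b.val + 1) (b.val + 1))
    (A : Op (a.val + 1) (b.val + 1)) :
    adDiag (atDeg b L) (blockSingle a b A) = blockSingle a b (L.comp A) := by
  funext a' b'
  unfold adDiag
  by_cases ha : a' = a
  · subst ha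
    by_cases hb : b' = b
    · subst hb; simp [blockSingle_self, atDeg, hab]
    · simp [blockSingle_ne_right hb, atDeg, hab]
  · simp [blockSingle_ne_left ha]

theorem adDiag_single_right {a b : Fin n} (hab : a ≠ b) (L : Op (a.val + 1) (a.val + 1))
    (A : Op (a.val + 1) (b.val + 1)) :
    adDiag (atDeg a L) (blockSingle a b A) = -blockSingle a b (A.comp L) := by
  funext a' b'
  simp only [adDiag, Pi.neg_apply]
  by_cases ha : a' = a
  · subst ha
    by_cases hb : b' = b
    · subst hb; simp [blockSingle_self, atDeg, Ne.symm hab]
    · simp [blockSingle_ne_right hb]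
  · simp [blockSingle_ne_left ha]

theorem adDiag_single_diag (a : Fin n) (L A : Op (a.val + 1) (a.val + 1)) :
    adDiag (atDeg a L) (blockSingle a a A) = blockSingle a a (L.comp A - A.comp L) := by
  funext a' b'
  simp only [adDiag]
  by_cases ha : a' = a
  · subst ha
    by_cases hb : b' = a'
    · subst hb; simp [blockSingle_self, atDeg]
    · simp [blockSingle_ne_right hb]
  · simp [blockSingle_ne_left ha]

/-- Two brackets isolate one block of a group supported family. -/
theorem adDiag_isolate {a b : Fin n} (hab : a ≠ b) (L : Op (a.val + 1) (a.val + 1))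
    (L' : Op (b.val + 1) (b.val + 1)) (X : Block n) (hX : X b a = 0) :
    adDiag (atDeg a L) (adDiag (atDeg b L') X) = -blockSingle a b (L'.comp ((X a b).comp L)) := by
  funext a' b'
  simp only [adDiag, Pi.neg_apply]
  by_cases ha : a' = a <;> by_cases hb : b' = b
  · subst ha; subst hb
    simp [blockSingle_self, atDeg, hab, Ne.symm hab, ContinuousLinearMap.comp_assoc]
  · subst ha
    by_cases hb' : b' = a'
    · subst hb'; simp [blockSingle_ne_right hb, atDeg, hab]
    · simp [blockSingle_ne_right hb, atDeg, hab, hb, hb']
  · subst hb
    simp [blockSingle_ne_left ha, atDeg, Ne.symm hab, ha]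
  · by_cases hb' : b' = a
    · subst hb'
      by_cases ha' : a' = b
      · subst ha'; simp [blockSingle_ne_left ha, atDeg, hX, hab, Ne.symm hab]
      · simp [blockSingle_ne_left ha, atDeg, ha', hab, ha]
    · simp [blockSingle_ne_left ha, atDeg, ha, hb']

theorem kick_comp_sum (H : Harm) (c : ℝ) (d : ℕ) (w : V d) (i j : ℕ) :
    ∑ k, (kick H c (some k) d w i j).comp (H.EL i k) =
      ((rate c j + 2) * -((i : ℝ) * (i + 2))) • H.mul d w i j + rate c i • kick H c none d w i j := by
  refine ContinuousLinearMap.ext fun v => ?_
  simp only [kick, ContinuousLinearMap.sum_apply, ContinuousLinearMap.comp_apply,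
    ContinuousLinearMap.add_apply, ContinuousLinearMap.smul_apply, Finset.sum_add_distrib]
  rw [← Finset.smul_sum, ← Finset.smul_sum, ← map_sum, H.casimir_left, map_smul, smul_smul]

theorem groupKick_self (H : Harm) (c : ℝ) (kind : Option (Fin 3)) (d : ℕ) (w : V d) (a b : Fin n) :
    groupKick H c (gap c (a.val + 1) (b.val + 1)) kind d w a b =
      nkick H c kind d w (a.val + 1) (b.val + 1) := by simp [groupKick]

variable {c : ℝ} {M : Submodule ℝ (Block n)}

/-- Every off-diagonal block is reached. -/
theorem single_offdiag_mem (hc : 0 < c) (hM : LeftInvariant H M)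
    (hk : ∀ g kind d w, d ≤ 2 * n → groupKick H c g kind d w ∈ M) {a b : Fin n} (hab : a ≠ b) :
    ∀ A : Op (a.val + 1) (b.val + 1), blockSingle a b A ∈ M := by
  set i := a.val + 1 with hi
  set j := b.val + 1 with hj
  have hij : i ≠ j := fun h => hab (Fin.ext (by omega))
  let N : Submodule ℝ (Op i j) := M.comap (blockSingle a b)
  have hN : N = ⊤ := by
    have hl : ∀ k, ∀ A ∈ N, (H.EL j k).comp A ∈ N := fun k A hA => by
      change blockSingle a b _ ∈ M
      rw [← adDiag_single_left hab]
      exact adDiag_atDeg_mem hM (EL_mem H _ k) (EL_trace H _ k) hA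
    have hr : ∀ k, ∀ A ∈ N, A.comp (H.EL i k) ∈ N := fun k A hA => by
      change blockSingle a b _ ∈ M
      have := M.neg_mem (adDiag_atDeg_mem (a := a) hM (EL_mem H _ k) (EL_trace H _ k) hA)
      rwa [adDiag_single_right hab, neg_neg] at this
    have hci : ((i : ℝ) * (i + 2)) ≠ 0 := by
      have : (0 : ℝ) < i := by exact_mod_cast Nat.succ_pos a.val
      positivity
    have hcj : ((j : ℝ) * (j + 2)) ≠ 0 := by
      have : (0 : ℝ) < j := by exact_mod_cast Nat.succ_pos b.val
      positivity
    have hK : ∀ kind d w, d ≤ 2 * n → kick H c kind d w i j ∈ N := by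
      intro kind d w hd
      set X := groupKick (n := n) H c (gap c i j) kind d w with hX
      have hXba : X b a = 0 := by
        simp only [hX, groupKick, ← hi, ← hj]
        refine if_neg fun h => ?_
        have : gap c i j = 0 := by unfold gap at h ⊢; linarith
        exact hij ((gap_eq_zero_iff hc).1 this)
      have hnk : X a b = nkick H c kind d w i j := groupKick_self H c kind d w a b
      have hEE : ∀ k l, (H.EL j k).comp ((nkick H c kind d w i j).comp (H.EL i l)) ∈ N := by
        intro k l
        change blockSingle a b _ ∈ M
        have := M.neg_mem (adDiag_atDeg_mem (a := a) hM (EL_mem H _ l) (EL_trace H _ l)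
          (adDiag_atDeg_mem (a := b) hM (EL_mem H _ k) (EL_trace H _ k) (hk (gap c i j) kind d w hd)))
        rwa [adDiag_isolate hab _ _ _ hXba, neg_neg, hnk] at this
      have hsum : (((j : ℝ) * (j + 2)) * ((i : ℝ) * (i + 2))) • nkick H c kind d w i j ∈ N := by
        have e : (((j : ℝ) * (j + 2)) * ((i : ℝ) * (i + 2))) • nkick H c kind d w i j =
            ∑ k, ∑ l, (H.EL j k).comp (((H.EL j k).comp ((nkick H c kind d w i j).comp (H.EL i l))).comp (H.EL i l)) := by
          refine ContinuousLinearMap.ext fun v => ?_
          simp only [ContinuousLinearMap.smul_apply, ContinuousLinearMap.sum_apply,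
            ContinuousLinearMap.comp_apply, ← map_sum]
          simp only [H.casimir_left, map_smul, ← Finset.smul_sum, smul_smul]
          congr 1; ring
        rw [e]
        exact N.sum_mem fun k _ => N.sum_mem fun l _ => hl k _ (hr l _ (hEE k l))
      have hp : (0 : ℝ) < 2 * rate c j + 2 := by linarith [rate_pos hc (Nat.succ_pos b.val : 0 < j)]
      rw [nkick, smul_smul] at hsum
      exact (N.smul_mem_iff (mul_ne_zero (mul_ne_zero hcj hci) (inv_ne_zero hp.ne'))).1 hsum
    refine full_of_bimodule H N hl hr fun d w hd => ?_
    have hd2 : d ≤ 2 * n := by have := a.isLt; have := b.isLt; omega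
    have hS := N.sum_mem (t := Finset.univ) fun k (_ : k ∈ Finset.univ) => hr k _ (hK (some k) d w hd2)
    rw [kick_comp_sum] at hS
    have h2 := N.sub_mem hS (N.smul_mem (rate c i) (hK none d w hd2))
    rw [add_sub_cancel_right] at h2
    have hp : 0 < rate c j + 2 := by linarith [rate_pos hc (Nat.succ_pos b.val : 0 < j)]
    exact (N.smul_mem_iff (mul_ne_zero hp.ne' (neg_ne_zero.2 hci))).1 h2
  intro A
  have : A ∈ N := hN ▸ Submodule.mem_top
  exact this

/-- Diagonal blocks orthogonal to the commutant are reached. -/
theorem single_diag_mem (hc : 0 < c) (hM : LeftInvariant H M)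
    (hk : ∀ g kind d w, d ≤ 2 * n → groupKick H c g kind d w ∈ M) (a : Fin n) :
    ∀ X : Op (a.val + 1) (a.val + 1), (∀ A, IsRight H (a.val + 1) A → frob A X = 0) →
      blockSingle a a X ∈ M := by
  set j := a.val + 1 with hj
  have hj1 : 1 ≤ j := by omega
  let S := leftSU2 H j
  let N : Submodule ℝ (Matrix (Fin ((j + 1) ^ 2)) (Fin ((j + 1) ^ 2)) ℝ) :=
    (M.comap (blockSingle a a)).map opMat
  have hp := rate_pos hc (Nat.succ_pos a.val : 0 < j)
  have hbr : ∀ L ∈ S.ralg, L.trace = 0 → ∀ A ∈ N, L * A - A * L ∈ N := by
    intro L hL hL0 A hA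
    obtain ⟨P, hP, rfl⟩ := exists_mem_leftAlg H hL
    obtain ⟨B, hB, rfl⟩ := Submodule.mem_map.1 hA
    refine Submodule.mem_map.2 ⟨P.comp B - B.comp P, ?_, by rw [map_sub, opMat_comp, opMat_comp]⟩
    change blockSingle a a _ ∈ M
    rw [← adDiag_single_diag]
    exact adDiag_atDeg_mem hM hP (trace_opMat P ▸ hL0) hB
  let D : SU2.DiagData S N :=
  { one_le := hj1
    a := rate c j + 2
    b := rate c j
    hab := by linarith
    hb := hp.ne'
    bracket := hbr
    Js := {J | ∃ d w, d ≤ 2 * n ∧ J = opMat (H.mul d w j j)}
    kicks := by
      rintro J ⟨d, w, hd, rfl⟩ κ L hL hL0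
      obtain ⟨P, hP, rfl⟩ := exists_mem_leftAlg H hL
      have hkick : S.kickM (rate c j + 2) (rate c j) (opMat (H.mul d w j j)) κ =
          opMat (kick H c κ d w j j) := by
        cases κ <;> simp [SU2.kickM, kick, S, leftSU2, map_sum, opMat_comp, map_add, map_smul]
      rw [hkick]
      have hne : (2 * rate c j + 2)⁻¹ ≠ 0 := inv_ne_zero (by linarith)
      suffices h : blockSingle a a (P.comp (kick H c κ d w j j) - (kick H c κ d w j j).comp P) ∈ M from
        Submodule.mem_map.2 ⟨_, h, by rw [map_sub, opMat_comp, opMat_comp]⟩
      have h2 := adDiag_atDeg_mem (a := a) hM hP (trace_opMat P ▸ hL0) (hk 0 κ d w hd)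
      have e : adDiag (atDeg a P) (groupKick (n := n) H c 0 κ d w) = blockSingle a a
          ((2 * rate c j + 2)⁻¹ • (P.comp (kick H c κ d w j j) - (kick H c κ d w j j).comp P)) := by
        funext a' b'
        simp only [adDiag, groupKick]
        by_cases hg : gap c (a'.val + 1) (b'.val + 1) = 0
        · have := (gap_eq_zero_iff hc).1 hg
          obtain rfl : a' = b' := Fin.ext (by omega)
          rw [if_pos hg]
          by_cases ha : a' = a
          · subst ha
            simp [blockSingle_self, atDeg, nkick, smul_sub]; rfl
          · simp [blockSingle_ne_left ha, atDeg, ha]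
        · rw [if_neg hg]
          have hne' : a' ≠ b' := fun h => hg ((gap_eq_zero_iff hc).2 (by rw [h]))
          by_cases ha : a' = a
          · subst ha; simp [blockSingle_ne_right (Ne.symm hne')]
          · simp [blockSingle_ne_left ha]
      rw [e, map_smul] at h2
      exact (M.smul_mem_iff hne).1 h2
    z := (H.zonal j).ofLp
    zz_mem := by
      have e : Matrix.vecMulVec (H.zonal j).ofLp (H.zonal j).ofLp =
          opMat (rankOne (H.zonal j) (H.zonal j)) := by
        ext p q
        simp [Matrix.vecMulVec_apply, opMat_apply, rankOne_apply, EuclideanSpace.inner_single_right,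
          mul_comm]
      rw [e, ← sum_mul_zonal, map_sum]
      refine Submodule.sum_mem _ fun d hd => Submodule.subset_span ⟨d, H.zonal d, ?_, rfl⟩
      rw [Finset.mem_range] at hd
      have := a.isLt
      omega
    orbit := by
      intro w hw
      let U : Submodule ℝ (V j) :=
        { carrier := {u | ∀ P ∈ leftAlg H j, ⟪H.zonal j, P u⟫ = 0}
          add_mem' := fun {x y} hx hy P hP => by rw [map_add, inner_add_right, hx P hP, hy P hP, add_zero]
          zero_mem' := fun P _ => by simp
          smul_mem' := fun r {x} hx P hP => by rw [map_smul, _root_.inner_smul_right, hx P hP, mul_zero] }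
      have hUinv : ∀ k, ∀ v ∈ Uᗮ, H.EL j k v ∈ Uᗮ := by
        intro k v hv
        rw [Submodule.mem_orthogonal] at hv ⊢
        intro u hu
        have hu' : H.EL j k u ∈ U := fun P hP => hu _ (mul_mem hP (EL_mem H j k))
        have := hv _ hu'
        rw [H.skew_left] at this
        linarith
      have hz : H.zonal j ∈ Uᗮ := by
        rw [Submodule.mem_orthogonal]
        intro u hu
        rw [real_inner_comm]
        exact hu 1 (one_mem _)
      have htop := cyclic_top H Uᗮ hUinv hz
      have hw' : WithLp.toLp 2 w ∈ U := by
        intro P hP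
        have hPm : opMat P ∈ S.ralg := by
          induction hP using Algebra.adjoin_induction with
          | mem x hx => obtain ⟨k, rfl⟩ := hx; exact Algebra.subset_adjoin ⟨k, rfl⟩
          | algebraMap r =>
            rw [Algebra.algebraMap_eq_smul_one, map_smul, opMat_one]
            exact S.ralg.smul_mem (one_mem _) _
          | add x y _ _ hx hy => rw [map_add]; exact add_mem hx hy
          | mul x y _ _ hx hy =>
            rw [show x * y = x.comp y from rfl, opMat_comp]; exact mul_mem hx hy
        have := hw _ hPm
        rw [show w = (WithLp.toLp 2 w : V j).ofLp from rfl, opMat_mulVec] at this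
        rw [← this]
        simp [PiLp.inner_apply, dotProduct, mul_comm]
      have : (WithLp.toLp 2 w : V j) = 0 := by
        have h2 : (WithLp.toLp 2 w : V j) ∈ Uᗮ := htop ▸ Submodule.mem_top
        exact (Submodule.disjoint_def.1 U.orthogonal_disjoint) _ hw' h2
      exact congrArg WithLp.ofLp this
    cyclic := by
      intro R hR hRz
      let A : Op j j := LinearMap.toContinuousLinearMap
        { toFun := fun v => WithLp.toLp 2 (R *ᵥ v.ofLp)
          map_add' := fun x y => by simp [Matrix.mulVec_add]
          map_smul' := fun r x => by simp [Matrix.mulVec_smul] }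
      have hA : opMat A = R := by
        ext p q
        simp [A, opMat_apply, Matrix.mulVec_single]
      have hA0 : A = 0 := by
        refine H.cyclic j A (fun k v => ?_) ?_
        · have h := opMat_injective (show opMat (A.comp (H.EL j k)) = opMat ((H.EL j k).comp A) by
            rw [opMat_comp, opMat_comp, hA]; exact hR k)
          exact congrArg (fun B : Op j j => B v) h
        · change A (H.zonal j) = 0
          exact congrArg (WithLp.toLp 2) hRz
      rw [← hA, hA0, map_zero] }
  intro X hX
  have : opMat X ∈ N := SU2.diag_full D (opMat X) fun R hR => by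
    let A : Op j j := LinearMap.toContinuousLinearMap
      { toFun := fun v => WithLp.toLp 2 (R *ᵥ v.ofLp)
        map_add' := fun x y => by simp [Matrix.mulVec_add]
        map_smul' := fun r x => by simp [Matrix.mulVec_smul] }
    have hA : opMat A = R := by
      ext p q
      simp [A, opMat_apply, Matrix.mulVec_single]
    rw [← hA, ← frob_eq_trace]
    refine hX A fun k v => ?_
    have h := opMat_injective (show opMat (A.comp (H.EL j k)) = opMat ((H.EL j k).comp A) by
      rw [opMat_comp, opMat_comp, hA]; exact hR k)
    exact congrArg (fun B : Op j j => B v) h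
  obtain ⟨X', hX', he⟩ := Submodule.mem_map.1 this
  rwa [← opMat_injective he]

theorem eq_sum_blockSingle (X : Block n) : X = ∑ a, ∑ b, blockSingle a b (X a b) := by
  funext a b
  simp only [Finset.sum_apply]
  rw [Finset.sum_eq_single_of_mem a (Finset.mem_univ _) fun a' _ h =>
      Finset.sum_eq_zero fun b' _ => blockSingle_ne_left (Ne.symm h) _,
    Finset.sum_eq_single_of_mem b (Finset.mem_univ _) fun b' _ h => blockSingle_ne_right (Ne.symm h) _,
    blockSingle_self]

/-- The range of the limit jumps. -/
theorem rangeFull (H : Harm) {c : ℝ} (hc : 0 < c) (n : ℕ) : RangeFull H c n := by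
  intro M hM hk X hX
  rw [eq_sum_blockSingle X]
  refine M.sum_mem fun a _ => M.sum_mem fun b _ => ?_
  by_cases hab : a = b
  · subst hab; exact single_diag_mem hc hM hk a _ (hX a)
  · exact single_offdiag_mem hc hM hk hab _

/-- Anything can be prescribed on vectors orthogonal to the zonal ones. -/
theorem completion (H : Harm) {c : ℝ} (hc : 0 < c) (n : ℕ) : Completion H c n := by
  intro M hM hk W hW T
  have key : ∀ a : Fin n, ∃ A : Op (a.val + 1) (a.val + 1),
      (∀ R, IsRight H (a.val + 1) R → frob R A = 0) ∧ ∀ v ∈ W a, A v = T a a v := by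
    intro a
    let res : Op (a.val + 1) (a.val + 1) →ₗ[ℝ] (W a →ₗ[ℝ] V (a.val + 1)) :=
      { toFun := fun A => A.toLinearMap.comp (W a).subtype
        map_add' := fun A B => by ext v; simp
        map_smul' := fun r A => by ext v; simp }
    let P0 : Submodule ℝ (Op (a.val + 1) (a.val + 1)) :=
      { carrier := {A | ∀ R, IsRight H (a.val + 1) R → frob R A = 0}
        add_mem' := fun {x y} hx hy R hR => by
          have hx' := hx R hR
          have hy' := hy R hR
          simp only [frob, ContinuousLinearMap.add_apply, inner_add_right, Finset.sum_add_distrib] at hx' hy' ⊢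
          linarith
        zero_mem' := fun R _ => by simp [frob]
        smul_mem' := fun r {x} hx R hR => by
          have hx' := hx R hR
          simp only [frob, ContinuousLinearMap.smul_apply, _root_.inner_smul_right, ← Finset.mul_sum] at hx' ⊢
          rw [hx', mul_zero] }
    -- a commuting operator never lives on the orthogonal complement of the zonal vector
    have hsurj : res (T a a) ∈ P0.map res := by
      by_contra hne
      obtain ⟨φ, hφ, hφ0⟩ := Submodule.exists_dual_map_eq_bot_of_notMem hne inferInstance
      let ψ : Op (a.val + 1) (a.val + 1) →ₗ[ℝ] ℝ := φ.comp res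
      let R : Op (a.val + 1) (a.val + 1) :=
        ∑ p, ∑ q, ψ (rankOne (EuclideanSpace.single q (1 : ℝ)) (EuclideanSpace.single p 1)) •
          rankOne (EuclideanSpace.single q (1 : ℝ)) (EuclideanSpace.single p 1)
      have hψ : ∀ A, ψ A = frob R A := by
        intro A
        have eA : A = ∑ q, ∑ p, A (EuclideanSpace.single q 1) p •
            rankOne (EuclideanSpace.single q (1 : ℝ)) (EuclideanSpace.single p 1) := by
          conv_lhs => rw [eq_sum_rankOne A]
          refine Finset.sum_congr rfl fun q _ => ContinuousLinearMap.ext fun v => ?_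
          simp only [rankOne_apply, ContinuousLinearMap.sum_apply, ContinuousLinearMap.smul_apply,
            smul_comm _ ⟪EuclideanSpace.single q (1 : ℝ), v⟫, ← Finset.smul_sum]
          congr 1
          ext p; simp [Pi.single_apply]
        have eR : ∀ q p, R (EuclideanSpace.single q 1) p =
            ψ (rankOne (EuclideanSpace.single q (1 : ℝ)) (EuclideanSpace.single p 1)) := by
          intro q p
          simp [R, rankOne_apply, ContinuousLinearMap.sum_apply, EuclideanSpace.inner_single_left,
            Pi.single_apply]
        conv_lhs => rw [eA]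
        simp only [map_sum, map_smul, smul_eq_mul, frob, PiLp.inner_apply, eR, RCLike.inner_apply,
          conj_trivial]
      have hR0 : R (H.zonal (a.val + 1)) = 0 := by
        refine ext_inner_right ℝ fun u => ?_
        rw [inner_zero_left]
        have h1 : ψ (rankOne (H.zonal (a.val + 1)) u) = ⟪R (H.zonal (a.val + 1)), u⟫ := by
          rw [hψ, frob]
          simp only [rankOne_apply, _root_.inner_smul_right]
          have hz : H.zonal (a.val + 1) =
              ∑ q, ⟪H.zonal (a.val + 1), EuclideanSpace.single q 1⟫ • EuclideanSpace.single q (1 : ℝ) := by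
            ext p; simp [Pi.single_apply, EuclideanSpace.inner_single_right]
          conv_rhs => rw [hz, map_sum, sum_inner]
          exact Finset.sum_congr rfl fun q _ => by rw [map_smul, real_inner_smul_left]
        rw [← h1]
        have hzero : res (rankOne (H.zonal (a.val + 1)) u) = 0 := by
          refine LinearMap.ext fun v => ?_
          simp [res, rankOne_apply, hW a v.1 v.2]
        simp [ψ, hzero]
      -- `R` is orthogonal to `P0`, hence commutes
      have hRP : ∀ A ∈ P0, frob R A = 0 := fun A hA => by
        rw [← hψ]
        have := hφ0 ▸ Submodule.mem_map_of_mem (f := φ) (Submodule.mem_map_of_mem (f := res) hA)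
        simpa [ψ] using this
      have hRc : IsRight H (a.val + 1) R := by
        intro k v
        have hcomm : ∀ Z, frob R ((H.EL (a.val + 1) k).comp Z - Z.comp (H.EL (a.val + 1) k)) = 0 := by
          intro Z
          refine hRP _ fun Q hQ => ?_
          have hQc : Q.comp (H.EL (a.val + 1) k) = (H.EL (a.val + 1) k).comp Q :=
            ContinuousLinearMap.ext fun v => hQ k v
          have hQm := congrArg opMat hQc
          rw [opMat_comp, opMat_comp] at hQm
          have hE := opMat_EL_transpose H (a.val + 1) k
          rw [frob_eq_trace, map_sub, opMat_comp, opMat_comp, mul_sub, trace_sub, ← mul_assoc, ← mul_assoc,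
            trace_mul_comm ((opMat Q)ᵀ * opMat Z), ← mul_assoc, sub_eq_zero]
          congr 2
          have ht := congrArg Matrix.transpose hQm
          rw [Matrix.transpose_mul, Matrix.transpose_mul, hE, neg_mul, mul_neg, neg_inj] at ht
          exact ht.symm
        have hsum := hcomm ((H.EL (a.val + 1) k).comp R - R.comp (H.EL (a.val + 1) k))
        have hzero : R.comp (H.EL (a.val + 1) k) - (H.EL (a.val + 1) k).comp R = 0 := by
          apply opMat_injective
          rw [map_zero, map_sub, opMat_comp, opMat_comp]
          rw [frob_eq_trace, map_sub, opMat_comp, opMat_comp, map_sub, opMat_comp, opMat_comp] at hsum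
          have hE := opMat_EL_transpose H (a.val + 1) k
          generalize opMat R = r at hsum ⊢
          generalize opMat (H.EL (a.val + 1) k) = e at hsum hE ⊢
          refine (Matrix.conjTranspose_mul_self_eq_zero).1 ?_
          have h0 : ((r * e - e * r)ᵀ * (r * e - e * r)).trace = 0 := by
            rw [Matrix.transpose_sub, Matrix.transpose_mul, Matrix.transpose_mul, hE, neg_mul, mul_neg,
              sub_neg_eq_add]
            simp only [mul_sub, sub_mul, add_mul, neg_mul, trace_sub, trace_add, trace_neg] at hsum ⊢
            have c1 : (rᵀ * (e * (e * r - r * e))).trace = (rᵀ * e * (e * r - r * e)).trace := by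
              rw [mul_assoc]
            have c2 : (e * rᵀ * (e * r)).trace = (rᵀ * (e * r) * e).trace := by
              rw [mul_assoc e, trace_mul_comm e]
            have c3 : (e * rᵀ * (r * e)).trace = (rᵀ * (r * e) * e).trace := by
              rw [mul_assoc e, trace_mul_comm e]
            simp only [← mul_assoc] at hsum c2 c3 ⊢
            linarith
          have := (Matrix.trace_conjTranspose_mul_self_eq_zero_iff (A := r * e - e * r)).1 (by
            simpa [Matrix.conjTranspose_eq_transpose_of_trivial] using h0)
          simp [this]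
        have := congrArg (fun B : Op (a.val + 1) (a.val + 1) => B v) (sub_eq_zero.1 hzero)
        simpa using this
      have hR : R = 0 := H.cyclic (a.val + 1) R hRc hR0
      refine hφ ?_
      have := hψ (T a a)
      rw [hR] at this
      simpa [ψ, frob] using this
    obtain ⟨A, hA, he⟩ := Submodule.mem_map.1 hsurj
    exact ⟨A, hA, fun v hv => LinearMap.congr_fun he ⟨v, hv⟩⟩
  choose A hA1 hA2 using key
  refine ⟨T + ∑ a, blockSingle a a (A a - T a a), rangeFull H hc n M hM hk _ fun a R hR => ?_,
    fun a b v hv => ?_⟩
  · have e : (T + ∑ a', blockSingle a' a' (A a' - T a' a')) a a = A a := by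
      simp only [Pi.add_apply, Finset.sum_apply]
      rw [Finset.sum_eq_single_of_mem a (Finset.mem_univ _) fun a' _ h => blockSingle_ne_left (Ne.symm h) _,
        blockSingle_self]
      abel
    rw [e]; exact hA1 a R hR
  · simp only [Pi.add_apply, Finset.sum_apply, ContinuousLinearMap.add_apply,
      ContinuousLinearMap.sum_apply]
    by_cases hab : a = b
    · subst hab
      rw [Finset.sum_eq_single_of_mem a (Finset.mem_univ _) fun a' _ h => by
          rw [blockSingle_ne_left (Ne.symm h)]; rfl,
        blockSingle_self, ContinuousLinearMap.sub_apply, hA2 a v hv]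
      abel
    · rw [Finset.sum_eq_zero fun a' _ => ?_, add_zero]
      by_cases h : a = a'
      · subst h; rw [blockSingle_ne_right (Ne.symm hab)]; rfl
      · rw [blockSingle_ne_left h]; rfl

end

end Vale.Agent.P225.Control
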