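import Vale.Agent.P225.Control.Bridge
import Vale.Agent.P225.Control.Range
import Vale.Agent.P225.Control.Lie

/-!
P225, control: `composite_jump` with the range and the word lemma put in.
-/

namespace Vale.Agent.P225.Control

open Set
open scoped RealInnerProductSpace

noncomputable section

-- needed to find the operator norm on maps between products
set_option maxSynthPendingDepth 3

/-- Slots near their limits give exact right inverses of the jump, without further hypotheses. -/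
theorem composite_jump_main {n : ℕ} (H : Harm) (σ δ : ℕ → ℝ) {c : ℝ} (hc : 0 < c)
    (hσ : ∀ a, a < n → σ (a + 1) ≠ 0) (S : (a : Fin n) → Submodule ℝ (V (a.val + 1)))
    (hS : ∀ a, ∀ v ∈ S a, ⟪H.zonal (a.val + 1), v⟫ = 0) :
    ∃ W : Finset (List (Fin 6 × ℝ)), [] ∈ W ∧ ∃ ε₀ > (0 : ℝ), ∃ K Λ : ℝ, 0 ≤ K ∧ 0 ≤ Λ ∧
      ∀ {sh : Shape} {C : FP.Consts} (F : FP.Flow H sh C), C.J = n + 1 →
      ∀ {d d' : ℕ} (pos : ℕ → ℝ) (m₀ m₁ : ℕ) (a₀ b₀ : ℝ) (idx : groups c n → W → ℕ)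
        (τ : groups c n → W → ℝ) (L : ℝ) (X : (j : ℕ) → FP.EE d →L[ℝ] V j)
        (Γ : (a : Fin n) → S a →L[ℝ] V (a.val + 1)) (Cm : (a : Fin n) → FP.EE d →L[ℝ] S a)
        (Cinv : (a : Fin n) → S a →L[ℝ] FP.EE d) (Nm : FP.EE d →L[ℝ] FP.EE d') (KN : ℝ),
        (∀ h w, m₀ ≤ idx h w ∧ idx h w < m₁) →
        (∀ k, m₀ ≤ k → k < m₁ → a₀ ≤ pos k ∧ pos k + 1 ≤ b₀) →
        (∀ h w, |τ h w| ≤ L) →
        (∀ h h' : groups c n, (h : ℝ) < (h' : ℝ) → ∀ w w', τ h w ≤ τ h' w') →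
        (∀ h w, SlotNear F σ δ c n a₀ (pos (idx h w)) (τ h w) ε₀ w) →
        (∀ j, j = 0 ∨ C.J ≤ j → X j = 0) →
        (∀ a, (F.Φ (a.val + 1) a₀).comp (X (a.val + 1)) = (Γ a).comp (Cm a)) →
        (∀ a, ‖Γ a - (S a).subtypeL‖ ≤ ε₀) →
        (∑ a, (Cinv a).comp (Cm a) = ContinuousLinearMap.id ℝ (FP.EE d)) →
        0 ≤ KN → (∀ a z, ‖Nm (Cinv a z)‖ ≤ KN * ‖z‖) →
        ∃ R : ((j : ℕ) → FP.EE d →L[ℝ] V j) →ₗ[ℝ] (ℕ → Fin (ctrlPulses c n).n → ℝ),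
          (∀ Z k l, (k < m₀ ∨ m₁ ≤ k) → R Z k l = 0) ∧
          (∀ Z j, 1 ≤ j → j < C.J → (F.Φ j a₀).comp
            (FP.jump F pos (R Z) a₀ b₀ (FP.frozen F X) (FP.frozenD F X) j) = Z j) ∧
          ∀ Z (r : ℕ → ℝ), (∀ j, j < C.J → 0 ≤ r j) →
            (∀ j, j < C.J → ∀ x, ‖Z j x‖ ≤ r j * ‖Nm x‖) →
            ∀ k l, |R Z k l| ≤ K * KN * Real.exp (Λ * L) * ∑ j ∈ Finset.range C.J, r j :=
  composite_jump H σ δ hc.le hσ (completion H hc n) (words_leftInvariant H σ δ c n) S hS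

end

end Vale.Agent.P225.Control
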