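import Vale.Agent.P225.Control.SlotLimit
import Vale.Agent.P225.Sched.Compare.Defs
import Vale.Agent.P225.Sched.Exponent
import Vale.Agent.P225.FP.FlowInst
import Vale.Agent.P225.Assembly.Setup

/-!
P225, control: the transfer from the start of a composite to one of its slots.

Up to a factor `exp (rate τ)` it is the product of the step effects between them, with an error
`O (1 / N₀)` uniform in the composite.
-/

namespace Vale.Agent.P225.Control

open Vale.Agent.P225.Sched Filter Set MeasureTheory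
open scoped Topology

noncomputable section

variable (H : Harm) {j : ℕ}

/-! ### Products of step effects -/

theorem prefixOp_append (l₁ l₂ : List Step) :
    prefixOp H j (l₁ ++ l₂) = prefixOp H j l₂ * prefixOp H j l₁ := by
  induction l₁ with
  | nil => simp [prefixOp]
  | cons s l ih => simp only [List.cons_append, prefixOp, ih, mul_assoc]

theorem prefixOpInv_append (l₁ l₂ : List Step) :
    prefixOpInv H j (l₁ ++ l₂) = prefixOpInv H j l₁ * prefixOpInv H j l₂ := by
  induction l₁ with
  | nil => simp [prefixOpInv]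
  | cons s l ih => simp only [List.cons_append, prefixOpInv, ih, mul_assoc]

theorem stepOp_mul_inv (s : Step) : stepOp H j s * stepOpInv H j s = 1 := by
  cases s with
  | micro a z c =>
    simp only [stepOp, stepOpInv]
    have := exp_neg_smul_mul (bumpOp H j a) (-(kappa j * z * bumpMass c))
    rwa [neg_neg] at this
  | _ => simp [stepOp, stepOpInv]

theorem prefixOp_mul_inv (l : List Step) : prefixOp H j l * prefixOpInv H j l = 1 := by
  induction l with
  | nil => simp [prefixOp, prefixOpInv]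
  | cons s l ih =>
    simp only [prefixOp, prefixOpInv]
    rw [mul_assoc, ← mul_assoc (stepOp H j s), stepOp_mul_inv, one_mul, ih]

/-! ### The steps of a composite -/

theorem composite_steps (G : ℕ) (ws : List Word) {s : Step} (hs : s ∈ composite G ws) :
    s = Step.gap 1 ∨ s = Step.slot ∨ ∃ a z, s = Step.micro a z 0 := by
  simp only [composite, List.mem_flatten, List.mem_replicate] at hs
  obtain ⟨l, ⟨-, rfl⟩, hs⟩ := hs
  simp only [List.mem_flatMap, closedWord, bumpGap, List.mem_cons, List.mem_append,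
    List.mem_map, List.not_mem_nil] at hs
  obtain ⟨w, -, hs⟩ := hs
  rcases hs with rfl | ⟨b, -, rfl | rfl | h⟩ | rfl | rfl | ⟨b, -, rfl | rfl | h⟩ <;> simp_all

theorem composite_dur_le (G : ℕ) (ws : List Word) {s : Step} (hs : s ∈ composite G ws) {n : ℝ}
    (hn : 1 ≤ n) : s.dur n ≤ 2 * n ^ 3 := by
  have h3 : n ≤ n ^ 3 := le_self_pow₀ hn (by norm_num)
  rcases composite_steps G ws hs with rfl | rfl | ⟨a, z, rfl⟩ <;>
    simp only [Step.dur, max_eq_left (zero_le_one (α := ℝ)), max_self] <;> linarith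

variable (R : Recipe)

theorem params_len (N : ℕ) : (R.params N).len = R.steps.length + 1 := (R.params N).len_eq

theorem steps_getD_composite {c k : ℕ} (hk : k < R.L) :
    R.steps.getD (R.off (R.idx c) + k) Step.stay =
      (composite R.groups R.words).getD k Step.stay :=
  periodSteps_getD_comp _ _ _ _ _ _
    (Nat.div_lt_of_lt_mul (by simpa [Recipe.Q] using R.idx_lt c)) (Nat.mod_lt _ (by norm_num)) hk

theorem off_add_le {c k : ℕ} (hk : k ≤ R.L) : R.off (R.idx c) + k ≤ R.steps.length :=
  (Nat.add_le_add_left hk _).trans (R.off_end_le (R.idx_lt c))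

theorem take_off {c k : ℕ} (hk : k ≤ R.L) :
    R.steps.take (R.off (R.idx c) + k) =
      R.steps.take (R.off (R.idx c)) ++ (composite R.groups R.words).take k := by
  rw [List.take_add]
  congr 1
  have hlen := off_add_le R (c := c) (le_refl R.L)
  refine List.ext_getElem (by simp [Recipe.L] at *; omega) fun i h1 h2 => ?_
  simp only [List.getElem_take, List.getElem_drop]
  have hi : i < R.L := by simp [Recipe.L] at *; omega
  have e := steps_getD_composite R (c := c) hi
  rw [List.getD_eq_getElem _ _ (by omega), List.getD_eq_getElem _ _ hi] at e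
  exact e

theorem step_composite {c k : ℕ} (N : ℕ) (hk : k < R.L) :
    (R.params N).step (R.per c * (R.params N).len + (R.off (R.idx c) + k)) =
      (composite R.groups R.words).getD k Step.stay ∧
    (R.params N).size (R.per c * (R.params N).len + (R.off (R.idx c) + k)) =
      ((R.per c + (R.params N).N0 : ℕ) : ℝ) := by
  have hlen := off_add_le R (c := c) (Nat.succ_le_of_lt hk)
  obtain ⟨e1, e2⟩ := (R.params N).start_step (R.per c) (R.off (R.idx c) + k)
    (by rw [params_len]; omega)
  refine ⟨?_, e2⟩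
  rw [e1, ← steps_getD_composite R hk]
  exact List.getD_append _ _ _ _ (by exact Nat.lt_of_lt_of_le (Nat.lt_succ_self _) hlen)

theorem step_composite_mem {c k : ℕ} (N : ℕ) (hk : k < R.L) :
    (R.params N).step (R.per c * (R.params N).len + (R.off (R.idx c) + k)) ∈
      composite R.groups R.words := by
  rw [(step_composite R N hk).1, List.getD_eq_getElem _ _ hk]
  exact List.getElem_mem hk

theorem start_composite_le (N c : ℕ) : ∀ k ≤ R.L,
    (R.params N).start (R.per c) (R.off (R.idx c) + k) ≤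
      R.compA N c + 2 * k * ((R.per c + (R.params N).N0 : ℕ) : ℝ) ^ 3 := by
  intro k
  induction k with
  | zero => intro _; simp [Recipe.compA]
  | succ k ih =>
    intro hk
    have hd := composite_dur_le _ _ (step_composite_mem R N (c := c) hk)
      ((R.params N).one_le_size (R.per c))
    have e : (R.params N).start (R.per c) (R.off (R.idx c) + (k + 1)) =
        (R.params N).start (R.per c) (R.off (R.idx c) + k) +
          ((R.params N).step (R.per c * (R.params N).len + (R.off (R.idx c) + k))).dur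
            ((R.per c + (R.params N).N0 : ℕ) : ℝ) := by
      rw [← (step_composite R N (c := c) hk).2]; rfl
    have := ih (by omega)
    push_cast at *
    rw [e]
    linarith

/-- The right squash vanishes on every composite. -/
theorem comp_none_composite (N c : ℕ) {u : ℝ} (h1 : R.compA N c ≤ u) (h2 : u ≤ R.compB N c) :
    (R.params N).comp none =ᶠ[𝓝 u] fun _ => 0 := by
  set p := R.params N with hp
  have hb : p.time (R.per c * p.len + R.off (R.idx c)) ≤ u := h1
  have hL : 0 < R.L := by
    have := R.slotsOf_composite_getD_lt R.S_pos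
    omega
  obtain ⟨k, hk, hku, hku'⟩ : ∃ k < R.L, p.time (R.per c * p.len + (R.off (R.idx c) + k)) ≤ u ∧
      u ≤ p.time (R.per c * p.len + (R.off (R.idx c) + k) + 1) := by
    obtain ⟨m, hm1, hm2⟩ := p.exists_index ((p.N0_le_time _).trans hb)
    have hlo : R.per c * p.len + R.off (R.idx c) < m + 1 :=
      p.time_strictMono.lt_iff_lt.1 (lt_of_le_of_lt hb hm2)
    have hhi : m ≤ R.per c * p.len + (R.off (R.idx c) + R.L) :=
      p.time_strictMono.le_iff_le.1 (hm1.trans h2)
    rcases Nat.lt_or_ge m (R.per c * p.len + (R.off (R.idx c) + R.L)) with h | h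
    · refine ⟨m - (R.per c * p.len + R.off (R.idx c)), by omega, ?_⟩
      have e : R.per c * p.len + (R.off (R.idx c) + (m - (R.per c * p.len + R.off (R.idx c)))) = m := by
        omega
      rw [e]
      exact ⟨hm1, hm2.le⟩
    · refine ⟨R.L - 1, by omega, le_trans ?_ hm1, h2.trans (le_of_eq ?_)⟩
      · exact p.time_strictMono.monotone (by omega)
      · simp only [Recipe.compB, Params.start, ← hp]
        congr 1
        omega
  refine (p.comp_eventually hku hku' none).trans ?_
  rcases composite_steps _ _ (step_composite_mem R N (c := c) hk) with e | e | ⟨a, z, e⟩ <;>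
    rw [← hp] at e <;>
    simp only [e, Step.axis, reduceCtorEq, if_true, if_false] <;>
    exact Eventually.of_forall fun s => by simp [Params.piece, e, Step.amp]

/-! ### The exponent across a composite -/

theorem exp_neg_le_of_pow {x : ℝ} (hx : 0 < x) : Real.exp (-x / 4) ≤ 6144 / x ^ 4 := by
  have h := Real.pow_div_factorial_le_exp (x := x / 4) (by positivity) 4
  rw [show -x / 4 = -(x / 4) by ring, Real.exp_neg, inv_eq_one_div, div_le_div_iff₀ (Real.exp_pos _) (by positivity)]
  rw [div_le_iff₀ (by positivity), show Nat.factorial 4 = 24 from rfl] at h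
  push_cast at h
  nlinarith

/-- After time `x` with `x ^ 8 ≤ 255 (u + N₀ ^ 8)` the radius is final up to `x ^ (-4)`. -/
theorem tail_small {p : Params} (h : p.Ok) {u x : ℝ} (hx : 1 ≤ x) (hxu : x ≤ u)
    (h8 : x ^ 8 / 255 ≤ u + (p.N0 : ℝ) ^ 8) :
    p.rate u ≤ (24576 + 32 * p.C) / x ^ 4 ∧
      Real.log (8 / 7) - p.chi u ≤ (24576 + 32 * p.C) / x ^ 4 := by
  have hC := p.one_le_C
  have hA := h.A_pos
  have hA' := h.A_le
  set y := u + (p.N0 : ℝ) ^ 8
  have hy : 1 ≤ y := by
    linarith [show (0 : ℝ) ≤ (p.N0 : ℝ) ^ 8 by positivity, show y = u + (p.N0 : ℝ) ^ 8 from rfl]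
  have he : Real.exp (-u / 4) ≤ 6144 / x ^ 4 :=
    (Real.exp_le_exp.2 (by linarith)).trans (exp_neg_le_of_pow (by linarith))
  have hr : y ^ (-(1 / 2) : ℝ) ≤ 16 / x ^ 4 := by
    rw [Real.rpow_neg (by linarith), ← Real.sqrt_eq_rpow, inv_eq_one_div,
      div_le_div_iff₀ (Real.sqrt_pos.2 (by linarith)) (by positivity), one_mul]
    have hs : x ^ 4 / 16 ≤ Real.sqrt y := by
      refine Real.le_sqrt_of_sq_le ?_
      have : 0 ≤ x ^ 8 := by positivity
      rw [div_pow, ← pow_mul]
      norm_num
      linarith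
    linarith
  have ht : p.tail u ≤ 16 / x ^ 4 :=
    (Real.rpow_le_rpow_of_exponent_le hy (by norm_num)).trans hr
  have h0 : 0 ≤ 6144 / x ^ 4 := by positivity
  have h1 : 0 ≤ 16 / x ^ 4 := by positivity
  have hdiv : (24576 + 32 * p.C) / x ^ 4 = 4 * (6144 / x ^ 4) + 2 * p.C * (16 / x ^ 4) := by ring
  have m1 : p.A * Real.exp (-u / 4) ≤ 6144 / x ^ 4 := by
    nlinarith [Real.exp_pos (-u / 4)]
  have m2 : p.C * p.tail u ≤ p.C * (16 / x ^ 4) := mul_le_mul_of_nonneg_left ht (by linarith)
  have m3 : p.C * y ^ (-(1 / 2) : ℝ) ≤ p.C * (16 / x ^ 4) :=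
    mul_le_mul_of_nonneg_left hr (by linarith)
  have m4 : 0 ≤ p.C * (16 / x ^ 4) := mul_nonneg (by linarith) h1
  refine ⟨?_, ?_⟩
  · rw [Params.rate, Params.risePart, Params.tailPart,
      Real.smoothTransition.one_of_one_le (hx.trans hxu), hdiv]
    linarith
  · rw [p.chi_eq (hx.trans hxu), hdiv]
    linarith

theorem rateInf_eq_rate (j : ℕ) : rateInf j = rate (64 / 49) j := by
  simp [rateInf, Barrier.root, rate]

theorem params_C_eq (N : ℕ) : (R.params N).C = (R.params 0).C := rfl

theorem params_K_eq (N : ℕ) : (R.params N).K = (R.params 0).K := rfl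

theorem exp_neg_le_inv {x : ℝ} (hx : 0 < x) : Real.exp (-x) ≤ 1 / x := by
  rw [Real.exp_neg, one_div]
  exact inv_anti₀ hx (by linarith [Real.add_one_le_exp x])

/-- Across a composite the exponent is `rateInf` times the time, up to `O (1 / N₀)`. -/
theorem exponent_composite (j : ℕ) (hj : 1 ≤ j) :
    ∃ K, 0 ≤ K ∧ ∀ N, 1 ≤ N → (R.params N).Ok → ∀ c m, m ≤ j → ∀ t,
      R.compA N c ≤ t → t ≤ R.compB N c →
        |expoR (R.params N).shape j m t - expoR (R.params N).shape j m (R.compA N c) -
          rate (64 / 49) j * (t - R.compA N c)| ≤ K / (R.params N).N0 := by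
  set C₀ := (R.params 0).C
  set K₀ := (R.params 0).K
  have hC₀ : 1 ≤ C₀ := (R.params 0).one_le_C
  have hK₀ : 0 < K₀ := (R.params 0).K_pos
  have hs0 : 0 ≤ speed j := by unfold speed; positivity
  set D1 := 2 * speed j + (3 + speed j) * (8 + C₀) + 2 * speed j * K₀
  set K1 := (3 * (3 + speed j) + 2 * speed j + 3) * (24576 + 32 * C₀)
  have hK1 : 0 ≤ K1 := by positivity
  refine ⟨D1 + 2 * R.L * K1, by positivity, fun N hN h c m hm t ht1 ht2 => ?_⟩
  set p := R.params N with hp
  set a := R.compA N c with ha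
  set x : ℝ := ((R.per c + p.N0 : ℕ) : ℝ) with hx
  have hN0 : (2 : ℝ) ≤ (p.N0 : ℝ) := by
    have : (1 : ℝ) ≤ (N : ℝ) := by exact_mod_cast hN
    simp only [hp, Params.N0, Recipe.params]
    push_cast
    linarith
  have hx1 : 1 ≤ x := p.one_le_size (R.per c)
  have hxN : (p.N0 : ℝ) ≤ x := by rw [hx]; push_cast; linarith [Nat.cast_nonneg (α := ℝ) (R.per c)]
  have hlate : ∀ u, a ≤ u → x ≤ u ∧ x ^ 8 / 255 ≤ u + (p.N0 : ℝ) ^ 8 := by
    intro u hu
    have h1 : p.start (R.per c) 0 ≤ a := p.time_strictMono.monotone (Nat.add_le_add_left (Nat.zero_le _) _)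
    have h2 : x ≤ p.start (R.per c) 0 := by
      refine le_trans ?_ (p.time_ge _)
      rw [hx]
      have : R.per c ≤ R.per c * p.len + 0 := by
        simpa using Nat.le_mul_of_pos_right (R.per c) p.len_pos
      have : ((R.per c : ℕ) : ℝ) ≤ ((R.per c * p.len + 0 : ℕ) : ℝ) := by exact_mod_cast this
      push_cast at this ⊢
      linarith
    exact ⟨h2.trans (h1.trans hu), (p.period_start_ge (R.per c)).trans (by linarith)⟩
  obtain ⟨hax, -⟩ := hlate a le_rfl
  have hC : p.C = C₀ := params_C_eq R N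
  have hK : p.K = K₀ := params_K_eq R N
  -- the start of the composite
  have hd0 : |qW p.shape j m a - pW p.shape j m a| ≤ D1 / p.N0 := by
    have h1 : (1 : ℝ) ≤ a - p.N0 / 2 := by linarith
    have hB : ∀ u ∈ Icc (a - p.N0 / 2) a, |deriv (p.comp none) u| ≤ K₀ / p.N0 := by
      intro u hu
      have hK0 : 0 ≤ K₀ / (p.N0 : ℝ) := by positivity
      rcases p.comp_cases none u with e | ⟨k, hk1, hk2, -, -⟩
      · rw [e.deriv_eq]; simpa using hK0
      · refine (Params.abs_deriv_comp_le none hk1 hk2.le).1.trans ?_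
        rw [hK]
        exact div_le_div_of_nonneg_left hK₀.le (by linarith)
          ((p.N0_le_size k).trans (le_self_pow₀ (p.size_ge_one k) (by norm_num)))
    refine (h.qW_dist_root hm hj (a := a - p.N0 / 2) h1 (by linarith) (by positivity) hB).trans ?_
    have he : Real.exp (-(3 / 2) * (a - (a - p.N0 / 2))) ≤ 2 / p.N0 := by
      refine le_trans (le_trans (Real.exp_le_exp.2 ?_) (exp_neg_le_inv (x := (p.N0 : ℝ) / 2) (by linarith)))
        (le_of_eq (by field_simp))
      linarith
    have hr : p.rate (a - p.N0 / 2) ≤ (8 + C₀) / p.N0 := by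
      rw [Params.rate, Params.risePart, Params.tailPart, Real.smoothTransition.one_of_one_le h1, hC]
      have e1 : Real.exp (-(a - p.N0 / 2) / 4) ≤ 8 / p.N0 := by
        refine le_trans (le_trans (Real.exp_le_exp.2 ?_) (exp_neg_le_inv (x := (p.N0 : ℝ) / 8) (by linarith)))
          (le_of_eq (by field_simp))
        linarith
      have e2 : p.tail (a - p.N0 / 2) ≤ 1 / p.N0 := p.tail_le (by linarith)
      have e3 := h.A_le
      have e4 := h.A_pos
      have e5 : C₀ * p.tail (a - p.N0 / 2) ≤ C₀ * (1 / p.N0) :=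
        mul_le_mul_of_nonneg_left e2 (by linarith)
      have e6 : p.A * Real.exp (-(a - p.N0 / 2) / 4) ≤ 8 / p.N0 :=
        (mul_le_of_le_one_left (Real.exp_pos _).le (by linarith)).trans e1
      rw [one_mul, one_mul, show (8 + C₀) / (p.N0 : ℝ) = 8 / p.N0 + C₀ * (1 / p.N0) by ring]
      linarith
    have m1 := mul_le_mul_of_nonneg_left he hs0
    have m2 := mul_le_mul_of_nonneg_left hr (by linarith : (0 : ℝ) ≤ 3 + speed j)
    have hr0 : 0 ≤ (3 + speed j) * p.rate (a - p.N0 / 2) :=
      mul_nonneg (by linarith) (h.rate_nonneg _)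
    have hk0 : 0 ≤ 2 * speed j * (K₀ / p.N0) := by positivity
    rw [show D1 / (p.N0 : ℝ) = speed j * (2 / p.N0) + (3 + speed j) * ((8 + C₀) / p.N0)
      + 2 * speed j * (K₀ / p.N0) by ring]
    rw [div_eq_mul_inv (_ + _) (3 / 2 : ℝ)]
    linarith
  -- inside the composite
  have hq : ∀ u ∈ Icc a t, |qW p.shape j m u - rate (64 / 49) j| ≤
      D1 / p.N0 * Real.exp (-(3 / 2 * (u - a))) + K1 / x ^ 4 := by
    intro u hu
    have hz : ∀ v ∈ Icc a t, p.comp none =ᶠ[𝓝 v] fun _ => 0 := fun v hv =>
      comp_none_composite R N c hv.1 (hv.2.trans ht2)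
    have h1 := h.dist_root_le hm hj (h.qW_near hm) (a := a) (b := t) (B := 0) (by linarith) hu
      (fun _ _ => rfl) le_rfl (fun v hv => by rw [(hz v hv).deriv_eq]; simp)
    have h2 := h.abs_pW_sub_rateInf (j := j) (m := m) u (hz u hu).eq_of_nhds
    rw [rateInf_eq_rate] at h2
    obtain ⟨ra, -⟩ := tail_small h hx1 hax (hlate a le_rfl).2
    obtain ⟨ru, cu⟩ := tail_small h hx1 (hlate u hu.1).1 (hlate u hu.1).2
    rw [hC] at ra ru cu
    have hr0 := h.rate_nonneg a
    have hT : 0 ≤ (24576 + 32 * C₀) / x ^ 4 := by positivity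
    have m1 := mul_le_mul_of_nonneg_left ra (by linarith : (0 : ℝ) ≤ 3 + speed j)
    have m2 := mul_le_mul_of_nonneg_left cu (by linarith : (0 : ℝ) ≤ 2 * speed j)
    have m3 := mul_le_mul_of_nonneg_right hd0 (Real.exp_pos (-(3 / 2) * (u - a))).le
    have m4 : 0 ≤ (3 + speed j) * ((24576 + 32 * C₀) / x ^ 4) := mul_nonneg (by linarith) hT
    rw [show K1 / x ^ 4 = (3 * (3 + speed j) + 2 * speed j + 3) * ((24576 + 32 * C₀) / x ^ 4) by ring,
      show -(3 / 2 * (u - a)) = -(3 / 2) * (u - a) by ring]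
    have h3 : ((3 + speed j) * p.rate a + 2 * speed j * 0) / (3 / 2) ≤
        3 * ((3 + speed j) * ((24576 + 32 * C₀) / x ^ 4)) := by
      rw [div_le_iff₀ (by norm_num)]; linarith
    linarith [abs_sub_le (qW p.shape j m u) (pW p.shape j m u) (rate (64 / 49) j)]
  have hc := h.continuous_qW (j := j) hm
  have hint : expoR p.shape j m t - expoR p.shape j m a - rate (64 / 49) j * (t - a) =
      ∫ u in a..t, (qW p.shape j m u - rate (64 / 49) j) := by
    rw [h.expoR_sub hm, intervalIntegral.integral_sub (hc.intervalIntegrable _ _)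
      intervalIntegrable_const, intervalIntegral.integral_const, smul_eq_mul, mul_comm (t - a)]
  rw [hint]
  have hce : Continuous fun u => D1 / p.N0 * Real.exp (-(3 / 2 * (u - a))) + K1 / x ^ 4 := by
    fun_prop
  refine (intervalIntegral.abs_integral_le_integral_abs ht1).trans
    ((intervalIntegral.integral_mono_on ht1 ((hc.sub continuous_const).abs.intervalIntegrable _ _)
      (hce.intervalIntegrable _ _) hq).trans ?_)
  have he : Continuous fun u => D1 / (p.N0 : ℝ) * Real.exp (-(3 / 2 * (u - a))) := by fun_prop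
  rw [intervalIntegral.integral_add (he.intervalIntegrable _ _) intervalIntegrable_const,
    intervalIntegral.integral_const, smul_eq_mul, intervalIntegral.integral_const_mul]
  have e1 := ODE.integral_exp_neg_interval (a := 3 / 2) (by norm_num) a (t - a)
  rw [add_sub_cancel] at e1
  rw [e1]
  have e2 : (1 - Real.exp (-(3 / 2 * (t - a)))) / (3 / 2) ≤ 1 := by
    rw [div_le_iff₀ (by norm_num)]; linarith [Real.exp_pos (-(3 / 2 * (t - a)))]
  have e3 : t - a ≤ 2 * R.L * x ^ 3 := by
    have := ht2.trans (start_composite_le R N c R.L le_rfl)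
    linarith
  have e4 : 2 * (R.L : ℝ) * x ^ 3 * (K1 / x ^ 4) ≤ 2 * R.L * K1 / p.N0 := by
    rw [show 2 * (R.L : ℝ) * x ^ 3 * (K1 / x ^ 4) = 2 * R.L * K1 / x by field_simp]
    exact div_le_div_of_nonneg_left (by positivity) (by linarith) hxN
  have e5 := mul_le_mul_of_nonneg_right e3 (by positivity : 0 ≤ K1 / x ^ 4)
  have e6 : D1 / (p.N0 : ℝ) * ((1 - Real.exp (-(3 / 2 * (t - a)))) / (3 / 2)) ≤ D1 / p.N0 :=
    mul_le_of_le_one_right (by positivity) e2
  rw [show (D1 + 2 * (R.L : ℝ) * K1) / p.N0 = D1 / p.N0 + 2 * R.L * K1 / p.N0 by ring]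
  linarith

/-! ### The transfer -/

theorem scalarFlow_mul_inv (q : ℕ → ℝ → ℝ) (t : ℝ) :
    scalarFlow H q j t * scalarFlowInv H q j t = 1 := by
  rw [scalarFlow, scalarFlowInv, diagW_mul]
  simp [← Real.exp_add, diagW_one]

theorem scalarFlowInv_mul (q : ℕ → ℝ → ℝ) (t : ℝ) :
    scalarFlowInv H q j t * scalarFlow H q j t = 1 := by
  rw [scalarFlow, scalarFlowInv, diagW_mul]
  simp [← Real.exp_add, diagW_one]

/-- A scalar multiple of the transfer through the comparison operators. -/
theorem transfer_eq (c : ODE.Coeff (V j)) (q : ℕ → ℝ → ℝ) (r t a : ℝ) :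
    Real.exp r • (c.Phi t * c.Psi a) = gam H c q t *
      diagW H j (fun m => Real.exp (r + ((∫ u in (0 : ℝ)..t, q m u) - ∫ u in (0 : ℝ)..a, q m u))) *
        gamInv H c q a := by
  have hd : diagW H j (fun m =>
      Real.exp (r + ((∫ u in (0 : ℝ)..t, q m u) - ∫ u in (0 : ℝ)..a, q m u))) =
      Real.exp r • (scalarFlow H q j t * scalarFlowInv H q j a) := by
    rw [scalarFlow, scalarFlowInv, diagW_mul, diagW_smul]
    simp only [← Real.exp_add, sub_eq_add_neg]
  rw [hd, gam, gamInv]
  have e : c.Phi t * c.Psi a = c.Phi t * scalarFlowInv H q j t *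
      (scalarFlow H q j t * scalarFlowInv H q j a) * (scalarFlow H q j a * c.Psi a) := by
    calc c.Phi t * c.Psi a = c.Phi t * (scalarFlowInv H q j t * scalarFlow H q j t) *
          ((scalarFlowInv H q j a * scalarFlow H q j a) * c.Psi a) := by
            rw [scalarFlowInv_mul, scalarFlowInv_mul, mul_one, one_mul]
      _ = _ := by simp only [mul_assoc]
  rw [e]
  ext x
  simp

theorem mul3_close {𝔸 : Type*} [NormedRing 𝔸] (A B C A₀ C₀ : 𝔸) {K η b : ℝ}
    (hA : ‖A - A₀‖ ≤ η) (hC : ‖C - C₀‖ ≤ η) (hA0 : ‖A₀‖ ≤ K) (hCn : ‖C‖ ≤ K)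
    (hB : ‖B - 1‖ ≤ b) (hBn : ‖B‖ ≤ 2) :
    ‖A * B * C - A₀ * C₀‖ ≤ 2 * K * η + K * (b * K + η) := by
  have e : A * B * C - A₀ * C₀ = (A - A₀) * (B * C) + A₀ * ((B - 1) * C + (C - C₀)) := by
    simp only [sub_mul, mul_add, mul_sub, one_mul, mul_assoc]
    abel
  have hK : 0 ≤ K := (norm_nonneg _).trans hA0
  rw [e]
  refine (norm_add_le _ _).trans (add_le_add ?_ ?_)
  · refine (norm_mul_le _ _).trans ?_
    calc ‖A - A₀‖ * ‖B * C‖ ≤ η * (2 * K) :=
          mul_le_mul hA ((norm_mul_le _ _).trans (mul_le_mul hBn hCn (norm_nonneg _) zero_le_two))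
            (norm_nonneg _) ((norm_nonneg _).trans hA)
      _ = _ := by ring
  · refine (norm_mul_le _ _).trans (mul_le_mul hA0 ?_ (norm_nonneg _) hK)
    exact (norm_add_le _ _).trans (add_le_add ((norm_mul_le _ _).trans
      (mul_le_mul hB hCn (norm_nonneg _) ((norm_nonneg _).trans hB))) hC)

/-- One degree: both transfers follow the steps of the composite. -/
theorem transfer_degree (j : ℕ) (hj : 1 ≤ j) (hcmp : CompareStmt H)
    (hclosed : prefixOp H j R.steps = 1) :
    ∃ K, 0 ≤ K ∧ ∀ N, 1 ≤ N → ∀ (h : (R.params N).Ok), K ≤ ((R.params N).N0 : ℝ) →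
      ∀ c o, o ≤ R.L →
        ‖Real.exp (-(rate (64 / 49) j *
            ((R.params N).start (R.per c) (R.off (R.idx c) + o) - R.compA N c))) •
          ((Params.coeff H h j).Phi ((R.params N).start (R.per c) (R.off (R.idx c) + o)) *
            (Params.coeff H h j).Psi (R.compA N c)) -
          prefixOp H j ((composite R.groups R.words).take o)‖ ≤ K / (R.params N).N0 ∧
        ‖Real.exp (rate (64 / 49) j *
            ((R.params N).start (R.per c) (R.off (R.idx c) + o) - R.compA N c)) •
          ((Params.coeff H h j).Phi (R.compA N c) *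
            (Params.coeff H h j).Psi ((R.params N).start (R.per c) (R.off (R.idx c) + o))) -
          prefixOpInv H j ((composite R.groups R.words).take o)‖ ≤ K / (R.params N).N0 := by
  obtain ⟨Kc, hKc⟩ := hcmp R.steps j hj hclosed
  obtain ⟨Ke, hKe0, hKe⟩ := exponent_composite R j hj
  set K := max Kc 0
  refine ⟨max (2 * (2 * K) * K + 2 * K * (2 * Ke * (2 * K) + K)) (2 * Ke),
    le_max_of_le_right (by positivity), fun N hN h hNK c o ho => ?_⟩
  set p := R.params N with hp
  set a := R.compA N c with ha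
  set t := p.start (R.per c) (R.off (R.idx c) + o) with ht
  set τ := t - a
  set r := rate (64 / 49) j * τ
  have hspec := fun m (hm : m ≤ j) => h.qW_spec (j := j) hm
  obtain ⟨hb, hk⟩ := hKc N h p.shape (qW p.shape j) (Params.coeff H h j) rfl rfl (fun _ => rfl)
    ⟨fun m hm => (hspec m hm).1, fun m hm => (hspec m hm).2.1, fun m hm => (hspec m hm).2.2⟩
    ⟨fun _ => rfl, fun _ => rfl, rfl⟩
  have hlen := off_add_le R (c := c) ho
  obtain ⟨g1, g1'⟩ := hk (R.per c) (R.off (R.idx c) + o) (by omega)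
  obtain ⟨g0, g0'⟩ := hk (R.per c) (R.off (R.idx c)) (by omega)
  have hN0 : 0 < (p.N0 : ℝ) := by linarith [p.one_le_N0]
  have hη : Kc / ((N : ℝ) + 1) ^ 2 ≤ K / p.N0 := by
    refine div_le_div₀ (le_max_right _ _) (le_max_left _ _) hN0 ?_
    simp only [hp, Recipe.params, Params.N0]
    push_cast
    nlinarith [Nat.cast_nonneg (α := ℝ) N]
  have hat : a ≤ t := p.time_strictMono.monotone (Nat.add_le_add_left (Nat.le_add_right _ o) _)
  have htb : t ≤ R.compB N c :=
    p.time_strictMono.monotone (Nat.add_le_add_left (Nat.add_le_add_left ho _) _)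
  have hsmall : 2 * Ke / (p.N0 : ℝ) ≤ 1 :=
    (div_le_one hN0).2 ((le_max_right _ _).trans hNK)
  have hdiag : ∀ σ : ℝ, |σ| = 1 → ‖diagW H j (fun m => Real.exp (σ * ((∫ u in (0 : ℝ)..t, qW p.shape j m u) -
      (∫ u in (0 : ℝ)..a, qW p.shape j m u) - r))) - 1‖ ≤ 2 * Ke / p.N0 := by
    intro σ hσ
    rw [← diagW_one (H := H) (j := j), diagW_sub]
    refine norm_diagW_le (by positivity) fun m hm => ?_
    have he := hKe N hN h c m hm t hat htb
    simp only [expoR] at he
    have h1 : |σ * ((∫ u in (0 : ℝ)..t, qW p.shape j m u) -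
        (∫ u in (0 : ℝ)..a, qW p.shape j m u) - r)| ≤ Ke / p.N0 := by
      rwa [abs_mul, hσ, one_mul]
    refine (Real.abs_exp_sub_one_le (h1.trans ?_)).trans ?_
    · have : 0 ≤ Ke / (p.N0 : ℝ) := by positivity
      rw [mul_div_assoc] at hsmall
      linarith
    · rw [mul_div_assoc]; linarith
  have hKn : K / (p.N0 : ℝ) ≤ K := div_le_self (le_max_right _ _) p.one_le_N0
  have hK : ∀ x, ‖gam H (Params.coeff H h j) (qW p.shape j) x‖ ≤ 2 * K ∧
      ‖gamInv H (Params.coeff H h j) (qW p.shape j) x‖ ≤ 2 * K := fun x =>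
    ⟨(hb x).1.trans (by linarith [le_max_left Kc 0, le_max_right Kc 0]),
      (hb x).2.trans (by linarith [le_max_left Kc 0, le_max_right Kc 0])⟩
  have hnear : ∀ A A₀ : Op j j, ‖A - A₀‖ ≤ K / p.N0 → ‖A‖ ≤ K → ‖A₀‖ ≤ 2 * K := fun A A₀ h1 h2 => by
    linarith [norm_le_norm_add_norm_sub' A₀ A, norm_sub_rev A A₀]
  have hB2 : ∀ B : Op j j, ‖B - 1‖ ≤ 2 * Ke / p.N0 → ‖B‖ ≤ 2 := fun B hB => by
    have h1 : ‖(1 : Op j j)‖ ≤ 1 := ContinuousLinearMap.norm_id_le
    linarith [norm_le_norm_add_norm_sub' B 1]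
  have hfin : 2 * (2 * K) * (K / p.N0) + 2 * K * (2 * Ke / p.N0 * (2 * K) + K / p.N0) ≤
      max (2 * (2 * K) * K + 2 * K * (2 * Ke * (2 * K) + K)) (2 * Ke) / p.N0 := by
    refine le_trans (le_of_eq ?_) (div_le_div_of_nonneg_right (le_max_left _ _) hN0.le)
    ring
  have hgK : ‖gam H (Params.coeff H h j) (qW p.shape j) t‖ ≤ K :=
    (hb t).1.trans (le_max_left _ _)
  have hgK' : ‖gam H (Params.coeff H h j) (qW p.shape j) a‖ ≤ K :=
    (hb a).1.trans (le_max_left _ _)
  have hinv := prefixOp_mul_inv H (j := j) (R.steps.take (R.off (R.idx c)))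
  constructor
  · rw [transfer_eq H _ (qW p.shape j) (-r) t a]
    have e : prefixOp H j ((composite R.groups R.words).take o) =
        prefixOp H j (R.steps.take (R.off (R.idx c) + o)) *
          prefixOpInv H j (R.steps.take (R.off (R.idx c))) := by
      rw [take_off R ho, prefixOp_append, mul_assoc, hinv, mul_one]
    rw [e]
    have hB := hdiag 1 abs_one
    simp only [one_mul, ← neg_add_eq_sub r] at hB
    exact (mul3_close _ _ _ _ _ (g1.trans hη) (g0'.trans hη)
      (hnear _ _ (g1.trans hη) hgK) (hK a).2 hB (hB2 _ hB)).trans hfin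
  · rw [transfer_eq H _ (qW p.shape j) r a t]
    have e : prefixOpInv H j ((composite R.groups R.words).take o) =
        prefixOp H j (R.steps.take (R.off (R.idx c))) *
          prefixOpInv H j (R.steps.take (R.off (R.idx c) + o)) := by
      rw [take_off R ho, prefixOpInv_append, ← mul_assoc, hinv, one_mul]
    rw [e]
    have hB := hdiag (-1) (by norm_num)
    simp only [neg_mul, one_mul, sub_eq_add_neg, neg_add_rev, neg_neg] at hB
    simp only [sub_eq_add_neg]
    exact (mul3_close _ _ _ _ _ (g0.trans hη) (g1'.trans hη)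
      (hnear _ _ (g0.trans hη) hgK') (hK t).2 hB (hB2 _ hB)).trans hfin

/-- The fields `fwd` and `bwd` of `SlotNear`: the transfer between the start of a composite and its
`s`-th slot follows the steps before the slot, up to `ε` for all large `N`. -/
theorem exists_slot_prefix {C : FP.Consts} (hC : Params.FlowOk C) (n : ℕ) (hcmp : CompareStmt H)
    (hclosed : ∀ j, 1 ≤ j → j ≤ n → prefixOp H j R.steps = 1) {ε : ℝ} (hε : 0 < ε) :
    ∃ N₁, ∀ N ≥ N₁, ∀ (h : (R.params N).Ok), ∀ c s, s < R.S → ∀ b : Fin n,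
      let F := Params.flow H h hC
      let t := (R.params N).slotPos (R.first c + s)
      let l := (composite R.groups R.words).take
        ((slotsOf (composite R.groups R.words)).getD s 0)
      ‖Real.exp (-(rate (64 / 49) (b.val + 1) * (t - R.compA N c))) •
          (F.Φ (b.val + 1) t).comp (F.Φi (b.val + 1) (R.compA N c)) -
        prefixOp H (b.val + 1) l‖ ≤ ε ∧
      ‖Real.exp (rate (64 / 49) (b.val + 1) * (t - R.compA N c)) •
          (F.Φ (b.val + 1) (R.compA N c)).comp (F.Φi (b.val + 1) t) -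
        prefixOpInv H (b.val + 1) l‖ ≤ ε := by
  choose K hK0 hK using fun b : Fin n =>
    transfer_degree H R (b.val + 1) (by omega) hcmp (hclosed _ (by omega) b.isLt)
  obtain ⟨M, hM⟩ := exists_nat_ge ((∑ b, K b) / ε + ∑ b, K b)
  refine ⟨M + 1, fun N hN h c s hs b => ?_⟩
  dsimp only
  have hsum : K b ≤ ∑ b, K b := Finset.single_le_sum (fun b _ => hK0 b) (Finset.mem_univ b)
  have hN0 : (M : ℝ) + 1 ≤ ((R.params N).N0 : ℝ) := by
    have : M + 1 ≤ (R.params N).N0 := hN.trans (Nat.le_succ N)
    exact_mod_cast this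
  have hdiv : 0 ≤ (∑ b, K b) / ε := div_nonneg (Finset.sum_nonneg fun b _ => hK0 b) hε.le
  have hle : K b / ((R.params N).N0 : ℝ) ≤ ε := by
    rw [div_le_iff₀ (by linarith [(R.params N).one_le_N0]), mul_comm]
    rw [← div_le_iff₀ hε]
    linarith [div_le_div_of_nonneg_right hsum hε.le, hK0 b]
  rw [R.slotPos_eq N c s hs]
  obtain ⟨e1, e2⟩ := hK b N (by omega) h (by linarith [hK0 b]) c _
    (R.slotsOf_composite_getD_lt hs).le
  rw [Params.flow_Φ, Params.flow_Φi, ← ContinuousLinearMap.mul_def, ← ContinuousLinearMap.mul_def]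
  exact ⟨e1.trans hle, e2.trans hle⟩

end

end Vale.Agent.P225.Control
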