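import Vale.Agent.P225.Control.Composite
import Vale.Agent.P225.Control.Lie
import Vale.Agent.P225.Sched.Compare.Defs
import Vale.Agent.P225.Assembly.Setup

/-!
P225, control: the words of a recipe and the prefixes of its slots.

The micro squash `micro a z 0` acts as the letter `(a, z)` of `wordOp` with `σ = sigmaB`,
`δ = deltaB`. The recipe lists, for each group, every word of `W` negated, so that the bumps
before the slot of `(h, w)` realise `undoWord w`; every closed word has total effect one.
-/

namespace Vale.Agent.P225.Control

open Sched

noncomputable section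

/-- The left squash coefficient of a unit bump. -/
def sigmaB (j : ℕ) : ℝ := 6 * kappa j * bumpMass 0

/-- The scalar coefficient of a unit bump. -/
def deltaB (j : ℕ) : ℝ := 2 * ((j : ℝ) * (j + 2)) * kappa j * bumpMass 0

theorem bumpMass_zero_pos : 0 < bumpMass 0 := by
  unfold bumpMass
  simp only [max_self, add_zero]
  refine intervalIntegral.integral_pos two_pos ?_ (fun t _ => ?_) ⟨1, by norm_num, ?_⟩
  · unfold bump
    exact ((Real.smoothTransition.continuous.comp (by fun_prop)).mul
      (Real.smoothTransition.continuous.comp (by fun_prop))).continuousOn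
  · exact mul_nonneg (Real.smoothTransition.nonneg _) (Real.smoothTransition.nonneg _)
  · simp only [bump]
    rw [Real.smoothTransition.one_of_one_le (by norm_num),
      Real.smoothTransition.one_of_one_le (by norm_num)]
    norm_num

theorem sigmaB_ne_zero (j : ℕ) : sigmaB j ≠ 0 := by
  have h : 0 ≤ rateInf j := Barrier.root_nonneg (by positivity)
  have hk : 0 < kappa j := div_pos (by norm_num) (by linarith)
  unfold sigmaB
  exact (mul_pos (mul_pos (by norm_num) hk) bumpMass_zero_pos).ne'

variable (H : Harm) (j : ℕ)

theorem smul_microGen (a : Fin 6) (z : ℝ) :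
    z • microGen H sigmaB deltaB a j = (kappa j * z * bumpMass 0) • bumpOp H j a := by
  simp only [microGen, bumpOp, sqAxis, sigmaB, deltaB, smul_add, smul_smul,
    show (1 : Op j j) = ContinuousLinearMap.id ℝ (V j) from rfl]
  rw [add_comm]
  congr 2 <;> ring

theorem stepOp_micro (a : Fin 6) (z : ℝ) :
    stepOp H j (Step.micro a z 0) = NormedSpace.exp (z • microGen H sigmaB deltaB a j) := by
  rw [smul_microGen]; rfl

theorem stepOpInv_micro (a : Fin 6) (z : ℝ) :
    stepOpInv H j (Step.micro a z 0) = NormedSpace.exp ((-z) • microGen H sigmaB deltaB a j) := by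
  rw [smul_microGen]
  simp only [stepOpInv, neg_mul, mul_neg]

/-- Prefixes of concatenations. -/
theorem prefixOp_cat (l m : List Step) :
    prefixOp H j (l ++ m) = prefixOp H j m * prefixOp H j l := by
  induction l with
  | nil => simp [prefixOp]
  | cons s l ih => simp [prefixOp, ih, mul_assoc]

/-- Inverse prefixes of concatenations. -/
theorem prefixOpInv_cat (l m : List Step) :
    prefixOpInv H j (l ++ m) = prefixOpInv H j l * prefixOpInv H j m := by
  induction l with
  | nil => simp [prefixOpInv]
  | cons s l ih => simp [prefixOpInv, ih, mul_assoc]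

theorem prefixOp_bumps (v : Word) :
    prefixOp H j (v.flatMap bumpGap) = wordOp H sigmaB deltaB v.reverse j ∧
      prefixOpInv H j (v.flatMap bumpGap) = wordOp H sigmaB deltaB (v.map negBump) j := by
  induction v with
  | nil => exact ⟨rfl, rfl⟩
  | cons b v ih =>
    rw [List.flatMap_cons, prefixOp_cat, prefixOpInv_cat, ih.1, ih.2, List.reverse_cons,
      wordOp_append, List.map_cons]
    simp only [bumpGap, prefixOp, prefixOpInv, stepOp_micro, stepOpInv_micro]
    simp only [stepOp, stepOpInv, one_mul, mul_one, wordOp, negBump]
    exact ⟨rfl, rfl⟩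

theorem negBump_negBump (v : Word) : (v.map negBump).map negBump = v := by
  induction v with
  | nil => rfl
  | cons b v ih => simp [ih, negBump]

/-- Undoing a word gives one, on both sides. -/
theorem wordOp_undo (σ δ : ℕ → ℝ) (w : List (Fin 6 × ℝ)) :
    wordOp H σ δ w j * wordOp H σ δ (undoWord w) j = 1 ∧
      wordOp H σ δ (undoWord w) j * wordOp H σ δ w j = 1 := by
  have : CompleteSpace (Op j j) := FiniteDimensional.complete ℝ _
  let +nondep : NormedAlgebra ℚ (Op j j) := .restrictScalars ℚ ℝ (Op j j)
  induction w with
  | nil => exact ⟨rfl, rfl⟩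
  | cons p w ih =>
    have hx : ∀ x : Op j j, NormedSpace.exp x * NormedSpace.exp (-x) = 1 := fun x => by
      rw [← NormedSpace.exp_add_of_commute ((Commute.refl x).neg_right), add_neg_cancel, NormedSpace.exp_zero]
    have hneg : (-p.2) • microGen H σ δ p.1 j = -(p.2 • microGen H σ δ p.1 j) := by
      ext x; simp
    have e1 := hx (p.2 • microGen H σ δ p.1 j)
    have e2 := hx (-(p.2 • microGen H σ δ p.1 j))
    rw [neg_neg] at e2
    rw [undoWord_cons, wordOp_append]
    simp only [wordOp, hneg]
    change (NormedSpace.exp (p.2 • microGen H σ δ p.1 j) * wordOp H σ δ w j) *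
        (wordOp H σ δ (undoWord w) j * (NormedSpace.exp (-(p.2 • microGen H σ δ p.1 j)) * 1)) = 1 ∧
      (wordOp H σ δ (undoWord w) j * (NormedSpace.exp (-(p.2 • microGen H σ δ p.1 j)) * 1)) *
        (NormedSpace.exp (p.2 • microGen H σ δ p.1 j) * wordOp H σ δ w j) = 1
    rw [mul_one]
    constructor
    · rw [mul_assoc, ← mul_assoc (wordOp H σ δ w j), ih.1, one_mul, e1]
    · rw [mul_assoc, ← mul_assoc (NormedSpace.exp (-_)), e2, one_mul, ih.2]

theorem prefixOp_closedWord (v : Word) :
    prefixOp H j (closedWord v) = 1 ∧ prefixOpInv H j (closedWord v) = 1 := by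
  have hr : (v.reverse.map negBump).reverse = v.map negBump := by
    rw [← List.map_reverse, List.reverse_reverse]
  have hu : undoWord (v.map negBump) = v.reverse := by
    unfold undoWord
    change ((v.map negBump).map negBump).reverse = _
    rw [negBump_negBump]
  have hv := wordOp_undo H j sigmaB deltaB (v.map negBump)
  rw [hu] at hv
  refine ⟨?_, ?_⟩
  · simp only [closedWord, prefixOp, prefixOp_cat, stepOp, mul_one, (prefixOp_bumps H j v).1,
      (prefixOp_bumps H j (v.reverse.map negBump)).1, hr]
    exact hv.1
  · simp only [closedWord, prefixOpInv, prefixOpInv_cat, stepOpInv, one_mul,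
      (prefixOp_bumps H j v).2, (prefixOp_bumps H j (v.reverse.map negBump)).2, negBump_negBump]
    exact hv.1

theorem length_flatMap_bumpGap (v : Word) : (v.flatMap bumpGap).length = 2 * v.length := by
  induction v with
  | nil => rfl
  | cons b v ih =>
    simp only [List.flatMap_cons, List.length_append, ih, bumpGap, List.length_cons, List.length_nil]
    ring

theorem closedWord_take (v : Word) :
    (closedWord v).take (2 * v.length + 1) = Step.gap 1 :: v.flatMap bumpGap := by
  rw [closedWord, List.take_succ_cons, ← length_flatMap_bumpGap v, List.take_left]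

theorem prefixOp_flatMap_closed (ws : List Word) :
    prefixOp H j (ws.flatMap closedWord) = 1 ∧ prefixOpInv H j (ws.flatMap closedWord) = 1 := by
  induction ws with
  | nil => exact ⟨rfl, rfl⟩
  | cons w ws ih =>
    rw [List.flatMap_cons, prefixOp_cat, prefixOpInv_cat, ih.1, ih.2,
      (prefixOp_closedWord H j w).1, (prefixOp_closedWord H j w).2]
    exact ⟨one_mul _, one_mul _⟩

theorem prefixOp_composite (G : ℕ) (ws : List Word) :
    prefixOp H j (composite G ws) = 1 ∧ prefixOpInv H j (composite G ws) = 1 := by
  induction G with
  | zero => exact ⟨rfl, rfl⟩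
  | succ G ih =>
    simp only [composite, List.replicate_succ, List.flatten_cons, prefixOp_cat, prefixOpInv_cat] at ih ⊢
    rw [ih.1, ih.2, (prefixOp_flatMap_closed H j ws).1, (prefixOp_flatMap_closed H j ws).2]
    exact ⟨one_mul _, one_mul _⟩

theorem composite_add (G G' : ℕ) (ws : List Word) :
    composite (G + G') ws = composite G ws ++ composite G' ws := by
  simp only [composite, ← List.replicate_append_replicate, List.flatten_append]

theorem slotsOf_flatMap_length (ws : List Word) :
    (slotsOf (ws.flatMap closedWord)).length = ws.length := by
  induction ws with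
  | nil => rfl
  | cons w ws ih => simp [List.flatMap_cons, slotsOf_append, slotsOf_closedWord, ih, Nat.add_comm]

/-- The slot of copy `g`, word `i` of a composite, and the bumps before it. -/
theorem composite_slot (G : ℕ) (ws : List Word) {g i : ℕ} (hg : g < G) (hi : i < ws.length) :
    prefixOp H j ((composite G ws).take ((slotsOf (composite G ws)).getD (g * ws.length + i) 0)) =
        wordOp H sigmaB deltaB ws[i].reverse j ∧
      prefixOpInv H j ((composite G ws).take ((slotsOf (composite G ws)).getD (g * ws.length + i) 0)) =
        wordOp H sigmaB deltaB (ws[i].map negBump) j := by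
  obtain ⟨G', rfl⟩ : ∃ G', G = g + (1 + G') := ⟨G - g - 1, by omega⟩
  have hws : ws = ws.take i ++ ws[i] :: ws.drop (i + 1) := by
    rw [← List.drop_eq_getElem_cons hi, List.take_append_drop]
  have h1 : composite 1 ws = ws.flatMap closedWord := by simp [composite]
  set A := composite g ws ++ (ws.take i).flatMap closedWord with hA
  set B := (ws.drop (i + 1)).flatMap closedWord ++ composite G' ws with hB
  have hsplit : composite (g + (1 + G')) ws = A ++ (closedWord ws[i] ++ B) := by
    rw [composite_add, composite_add, h1, hA, hB]
    conv_lhs => arg 2; rw [hws, List.flatMap_append, List.flatMap_cons]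
    rw [← hws]
    simp only [List.append_assoc]
  have hlenA : (slotsOf A).length = g * ws.length + i := by
    rw [hA, slotsOf_append, List.length_append, List.length_map, slotsOf_composite_length,
      slotsOf_flatMap_length, List.length_take, Nat.min_eq_left hi.le]
  have hpos : (slotsOf (composite (g + (1 + G')) ws)).getD (g * ws.length + i) 0 =
      A.length + (2 * ws[i].length + 1) := by
    rw [hsplit, slotsOf_append, ← hlenA, List.getD_append_right _ _ _ _ le_rfl, Nat.sub_self,
      slotsOf_append, slotsOf_closedWord]
    simp
  have hle : 2 * ws[i].length + 1 ≤ (closedWord ws[i]).length := by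
    simp only [closedWord, List.length_cons, List.length_append, length_flatMap_bumpGap]
    omega
  have hA1 : prefixOp H j A = 1 ∧ prefixOpInv H j A = 1 := by
    rw [hA, prefixOp_cat, prefixOpInv_cat, (prefixOp_composite H j g ws).1,
      (prefixOp_composite H j g ws).2, (prefixOp_flatMap_closed H j (ws.take i)).1,
      (prefixOp_flatMap_closed H j (ws.take i)).2]
    exact ⟨one_mul _, one_mul _⟩
  rw [hpos, hsplit, List.take_length_add_append, List.take_append_of_le_length hle,
    closedWord_take, prefixOp_cat, prefixOpInv_cat, hA1.1, hA1.2, mul_one, one_mul]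
  simp only [prefixOp, prefixOpInv, stepOp, stepOpInv, mul_one, one_mul]
  exact prefixOp_bumps H j ws[i]

theorem prefixOp_crossingSteps (G : ℕ) (ws : List Word) (c : Crossing) :
    prefixOp H j (crossingSteps (composite G ws) c) = 1 ∧
      prefixOpInv H j (crossingSteps (composite G ws) c) = 1 := by
  simp [crossingSteps, prefixOp, prefixOpInv, prefixOp_cat, prefixOpInv_cat, stepOp, stepOpInv,
    (prefixOp_composite H j G ws).1, (prefixOp_composite H j G ws).2]

theorem prefixOp_periodSteps (G : ℕ) (ws : List Word) (cs : List Crossing) :
    prefixOp H j (periodSteps G ws cs) = 1 ∧ prefixOpInv H j (periodSteps G ws cs) = 1 := by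
  induction cs with
  | nil => exact ⟨rfl, rfl⟩
  | cons c cs ih =>
    simp only [periodSteps, List.flatMap_cons, prefixOp_cat, prefixOpInv_cat] at ih ⊢
    rw [ih.1, ih.2, (prefixOp_crossingSteps H j G ws c).1, (prefixOp_crossingSteps H j G ws c).2]
    exact ⟨one_mul _, one_mul _⟩

/-- The steps before place `k` of composite `i` of transposition `r` have the effect of the first
`k` steps of one composite. -/
theorem prefixOp_periodSteps_take (G : ℕ) (ws : List Word) (cs : List Crossing) {r i k : ℕ}
    (hr : r < cs.length) (hi : i < 3) (hk : k ≤ (composite G ws).length) :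
    prefixOp H j ((periodSteps G ws cs).take (compOffset G ws r i + k)) =
        prefixOp H j ((composite G ws).take k) ∧
      prefixOpInv H j ((periodSteps G ws cs).take (compOffset G ws r i + k)) =
        prefixOpInv H j ((composite G ws).take k) := by
  set C := composite G ws with hC
  have hcs : cs = cs.take r ++ cs[r] :: cs.drop (r + 1) := by
    rw [← List.drop_eq_getElem_cons hr, List.take_append_drop]
  set A := periodSteps G ws (cs.take r) with hA
  set B := periodSteps G ws (cs.drop (r + 1)) with hB
  have hper : periodSteps G ws cs = A ++ (crossingSteps C cs[r] ++ B) := by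
    rw [hA, hB]; unfold periodSteps
    rw [← hC, ← List.flatMap_cons, ← List.flatMap_append, ← hcs]
  have hlenA : A.length = r * (3 * (C.length + 1)) := by
    rw [hA, periodSteps_length, List.length_take, Nat.min_eq_left hr.le]
  have hoff : compOffset G ws r i + k = A.length + (i * (C.length + 1) + (k + 1)) := by
    rw [hlenA]; simp only [compOffset, ← hC]; ring
  have hA1 := prefixOp_periodSteps H j G ws (cs.take r)
  rw [← hA] at hA1
  have hC1 := prefixOp_composite H j G ws
  rw [← hC] at hC1
  rw [hper, hoff, List.take_length_add_append, prefixOp_cat, prefixOpInv_cat, hA1.1, hA1.2, mul_one,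
    one_mul]
  have hone : ∀ s : Step, (s :: C).length = C.length + 1 := fun s => rfl
  have hi' : i = 0 ∨ i = 1 ∨ i = 2 := by omega
  rcases hi' with rfl | rfl | rfl
  · rw [Nat.zero_mul, Nat.zero_add, crossingSteps, List.append_assoc, List.append_assoc,
      List.take_append_of_le_length (by rw [hone]; omega), List.take_succ_cons]
    simp [prefixOp, prefixOpInv, stepOp, stepOpInv]
  · rw [Nat.one_mul, crossingSteps, List.append_assoc, List.append_assoc,
      show C.length + 1 + (k + 1) = (Step.round cs[r].before :: C).length + (k + 1) by rw [hone],
      List.take_length_add_append, List.take_append_of_le_length (by rw [hone]; omega), List.take_succ_cons]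
    simp [prefixOp, prefixOpInv, prefixOp_cat, prefixOpInv_cat, stepOp, stepOpInv, hC1.1, hC1.2]
  · rw [crossingSteps, List.append_assoc, List.append_assoc,
      show 2 * (C.length + 1) + (k + 1) = (Step.round cs[r].before :: C).length +
        ((Step.cross cs[r].z cs[r].plateau :: C).length + (k + 1)) by rw [hone, hone]; ring,
      List.take_length_add_append, List.take_length_add_append,
      List.take_append_of_le_length (by rw [hone]; omega), List.take_succ_cons]
    simp [prefixOp, prefixOpInv, prefixOp_cat, prefixOpInv_cat, stepOp, stepOpInv, hC1.1, hC1.2]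

section WordList

variable (c : ℝ) (n : ℕ) (W : Finset (List (Fin 6 × ℝ)))

/-- The words listed in a recipe. -/
def wordList : List Word := W.toList.map (List.map negBump)

theorem wordList_length : (wordList W).length = W.card := by simp [wordList]

theorem wordList_ne (h : [] ∈ W) : wordList W ≠ [] := by
  intro e
  have := congrArg List.length e
  rw [wordList_length] at this
  exact Finset.card_ne_zero_of_mem h this

/-- The rank of a group. -/
def groupRank (h : groups c n) : Fin (groups c n).card := ((groups c n).orderIsoOfFin rfl).symm h

/-- The place of a word. -/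
def wordRank (w : W) : ℕ := W.toList.idxOf (w : List (Fin 6 × ℝ))

theorem wordRank_lt (w : W) : wordRank W w < (wordList W).length := by
  rw [wordList_length, ← Finset.length_toList]
  exact List.idxOf_lt_length_iff.2 (Finset.mem_toList.2 w.2)

theorem wordList_getElem (w : W) :
    (wordList W)[wordRank W w]'(wordRank_lt W w) = w.1.map negBump := by
  simp [wordList, wordRank]

theorem groupRank_lt_of_lt {h h' : groups c n} (hh : (h : ℝ) < (h' : ℝ)) :
    (groupRank c n h).val < (groupRank c n h').val :=
  ((groups c n).orderIsoOfFin rfl).symm.strictMono (show h < h' from hh)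

/-- The number of the slot of group `h` and word `w` in its composite. -/
def slotNo (h : groups c n) (w : W) : ℕ := (groupRank c n h).val * W.card + wordRank W w

theorem slotNo_lt (h : groups c n) (w : W) : slotNo c n W h w < (groups c n).card * W.card := by
  have h2 := wordRank_lt W w
  rw [wordList_length] at h2
  calc slotNo c n W h w < ((groupRank c n h).val + 1) * W.card := by
        rw [slotNo, Nat.succ_mul]; omega
    _ ≤ _ := Nat.mul_le_mul_right _ (groupRank c n h).isLt

theorem slotNo_lt_of_lt {h h' : groups c n} (hh : (h : ℝ) < (h' : ℝ)) (w w' : W) :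
    slotNo c n W h w < slotNo c n W h' w' := by
  have h2 := wordRank_lt W w
  rw [wordList_length] at h2
  calc slotNo c n W h w < ((groupRank c n h).val + 1) * W.card := by
        rw [slotNo, Nat.succ_mul]; omega
    _ ≤ (groupRank c n h').val * W.card := Nat.mul_le_mul_right _ (groupRank_lt_of_lt c n hh)
    _ ≤ _ := Nat.le_add_right _ _

/-- The bumps between the start of a composite and the slot of `(h, w)` realise `undoWord w`. -/
theorem composite_prefix (h : groups c n) (w : W) :
    prefixOp H j ((composite (groups c n).card (wordList W)).take
        ((slotsOf (composite (groups c n).card (wordList W))).getD (slotNo c n W h w) 0)) =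
          wordOp H sigmaB deltaB (undoWord w) j ∧
      prefixOpInv H j ((composite (groups c n).card (wordList W)).take
        ((slotsOf (composite (groups c n).card (wordList W))).getD (slotNo c n W h w) 0)) =
          wordOp H sigmaB deltaB w j := by
  have := composite_slot H j (groups c n).card (wordList W) (groupRank c n h).isLt (wordRank_lt W w)
  rw [wordList_length, wordList_getElem, negBump_negBump] at this
  exact this

end WordList

section Recipe

variable (R : Sched.Recipe)

/-- A full period has no effect. -/
theorem recipe_steps_prefix : prefixOp H j R.steps = 1 := (prefixOp_periodSteps H j _ _ _).1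

/-- Up to place `k` of composite `q` of a period the effect is that of the composite's first `k` steps. -/
theorem recipe_take {q k : ℕ} (hq : q < R.Q) (hk : k ≤ R.L) :
    prefixOp H j (R.steps.take (R.off q + k)) =
        prefixOp H j ((composite R.groups R.words).take k) ∧
      prefixOpInv H j (R.steps.take (R.off q + k)) =
        prefixOpInv H j ((composite R.groups R.words).take k) :=
  prefixOp_periodSteps_take H j _ _ _ (by simp only [Sched.Recipe.Q] at hq; omega) (by omega) hk

/-- Composites start at the identity. -/
theorem recipe_start {q : ℕ} (hq : q < R.Q) :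
    prefixOp H j (R.steps.take (R.off q)) = 1 ∧ prefixOpInv H j (R.steps.take (R.off q)) = 1 := by
  simpa [prefixOp, prefixOpInv] using recipe_take H j R hq (Nat.zero_le _)

/-- The prefix at the slot `(h, w)` of composite `q`. -/
theorem recipe_slot (c : ℝ) (n : ℕ) (W : Finset (List (Fin 6 × ℝ)))
    (hG : R.groups = (groups c n).card) (hW : R.words = wordList W) {q : ℕ} (hq : q < R.Q)
    (h : groups c n) (w : W) :
    slotNo c n W h w < R.S ∧
      prefixOp H j (R.steps.take (R.off q +
          (slotsOf (composite R.groups R.words)).getD (slotNo c n W h w) 0)) =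
        wordOp H sigmaB deltaB (undoWord w) j ∧
      prefixOpInv H j (R.steps.take (R.off q +
          (slotsOf (composite R.groups R.words)).getD (slotNo c n W h w) 0)) =
        wordOp H sigmaB deltaB w j := by
  have hS : slotNo c n W h w < R.S := by
    rw [Sched.Recipe.S, hG, hW, wordList_length]; exact slotNo_lt c n W h w
  have ht := recipe_take H j R hq (R.slotsOf_composite_getD_lt hS).le
  refine ⟨hS, ?_⟩
  rw [ht.1, ht.2, hG, hW]
  exact composite_prefix H j c n W h w

end Recipe

end

end Vale.Agent.P225.Control
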