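import Vale.Agent.P225.Control.LieDefs
import Vale.Agent.P225.FP.Defs

/-!
P225, control: what one slot has to satisfy for the composite to be solved exactly.

Slot `(h, w)` of a composite starting at `a₀` starts at `t`; `τ` is the time used in the exponents.
On every degree `1, …, n` the slot is round up to `ε`, and the transfer from `a₀` is
`exp (rate τ)` times the word `undoWord w` up to `ε`.
-/

namespace Vale.Agent.P225.Control

noncomputable section

/-- A slot close to its limit. -/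
structure SlotNear {H : Harm} {sh : Shape} {C : FP.Consts} (F : FP.Flow H sh C) (σ δ : ℕ → ℝ)
    (c : ℝ) (n : ℕ) (a₀ t τ ε : ℝ) (w : List (Fin 6 × ℝ)) : Prop where
  out : ∀ b : Fin n, ∀ x ∈ Set.Icc (0 : ℝ) 1,
    ‖(F.Φ (b.val + 1) t).comp (F.Ω (b.val + 1) (t + x)) -
      (Real.exp (-(rate c (b.val + 1)) * x) / (2 * rate c (b.val + 1) + 2)) •
        ContinuousLinearMap.id ℝ (V (b.val + 1))‖ ≤ ε
  inn : ∀ a : Fin n, ∀ x ∈ Set.Icc (0 : ℝ) 1,
    ‖(F.Φ (a.val + 1) (t + x)).comp (F.Φi (a.val + 1) t) -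
      Real.exp (rate c (a.val + 1) * x) • ContinuousLinearMap.id ℝ (V (a.val + 1))‖ ≤ ε
  exponent : ∀ a : Fin n, ∀ x ∈ Set.Icc (0 : ℝ) 1,
    ‖F.Pj (a.val + 1) (t + x) -
      rate c (a.val + 1) • ContinuousLinearMap.id ℝ (V (a.val + 1))‖ ≤ ε
  drift : ∀ x ∈ Set.Icc (0 : ℝ) 1, |sh.drift (t + x)| ≤ ε
  fwd : ∀ a : Fin n,
    ‖Real.exp (-(rate c (a.val + 1) * τ)) • (F.Φ (a.val + 1) t).comp (F.Φi (a.val + 1) a₀) -
      wordOp H σ δ (undoWord w) (a.val + 1)‖ ≤ ε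
  bwd : ∀ b : Fin n,
    ‖Real.exp (rate c (b.val + 1) * τ) • (F.Φ (b.val + 1) a₀).comp (F.Φi (b.val + 1) t) -
      wordOp H σ δ w (b.val + 1)‖ ≤ ε

end

end Vale.Agent.P225.Control
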