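import Vale.Agent.P225.Control.LimitDefs
import Vale.Agent.P225.ODE.Defs

/-!
P225, control: one slot and one micro squash are close to their limits.

* `norm_flow_sub_exp_le`: if `V' = (g C + D) V`, `V(r) = 1`, with `D` small in `L¹`-sense, then
  `V` is close to `exp (∫ g • C)`.
* `forceOp` is `Pulse.force` as an operator on regular states `(u, P u)`.
* `slot_near`: the jump of a slot, `-∫ A ∘ forceOp ∘ B`, is close to `-mom ρ gap • nkick` when the propagators
  `A`, `B`, the exponent `P` and the drift are close to their round values.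
-/

namespace Vale.Agent.P225.Control

open scoped ContDiff
open MeasureTheory Set NormedSpace

noncomputable section

section Flow

variable {𝔸 : Type*} [NormedRing 𝔸] [NormedAlgebra ℝ 𝔸] [CompleteSpace 𝔸] [NormOneClass 𝔸]

/-- The norm of an exponential. -/
theorem norm_exp_smul_le (x : 𝔸) (u : ℝ) : ‖exp (u • x)‖ ≤ Real.exp (|u| * ‖x‖) := by
  have h := exp_series_hasSum_exp' (𝕂 := ℝ) (u • x)
  have hr : HasSum (fun n : ℕ => (|u| * ‖x‖) ^ n / n.factorial) (Real.exp (|u| * ‖x‖)) := by
    rw [Real.exp_eq_exp_ℝ]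
    exact expSeries_div_hasSum_exp _
  rw [← h.tsum_eq, ← hr.tsum_eq]
  refine (tsum_of_norm_bounded hr.summable.hasSum fun n => ?_)
  rw [norm_smul, norm_inv, Real.norm_natCast, div_eq_inv_mul]
  refine mul_le_mul_of_nonneg_left ?_ (by positivity)
  calc ‖(u • x) ^ n‖ ≤ ‖u • x‖ ^ n := norm_pow_le _ n
    _ = (|u| * ‖x‖) ^ n := by rw [norm_smul, Real.norm_eq_abs]

omit [NormOneClass 𝔸] in
/-- `exp (-u x) * exp (u x) = 1`. -/
theorem exp_neg_smul_mul (x : 𝔸) (u : ℝ) : exp ((-u) • x) * exp (u • x) = 1 := by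
  let : NormedAlgebra ℚ 𝔸 := NormedAlgebra.restrictScalars ℚ ℝ 𝔸
  rw [← exp_add_of_commute ((Commute.refl x).smul_left _ |>.smul_right _), ← add_smul,
    neg_add_cancel, zero_smul, exp_zero]

/-- A flow with generator close to a multiple of a fixed element is close to its exponential. -/
theorem norm_flow_sub_exp_le {C : 𝔸} {g G : ℝ → ℝ} {D V : ℝ → 𝔸} {r t S δ : ℝ} (hrt : r ≤ t)
    (hG : ∀ x ∈ Icc r t, HasDerivAt G (g x) x) (hGr : G r = 0)
    (hS : ∀ x ∈ Icc r t, |G x| ≤ S) (hδ : ∀ x ∈ Icc r t, ‖D x‖ ≤ δ) (hVr : V r = 1)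
    (hV : ∀ x ∈ Icc r t, HasDerivAt V ((g x • C + D x) * V x) x) :
    ‖V t - exp (G t • C)‖ ≤
      Real.exp (S * ‖C‖) * (Real.exp (Real.exp (2 * (S * ‖C‖)) * δ * (t - r)) - 1) := by
  set E : ℝ → 𝔸 := fun x => exp ((-G x) • C)
  set W : ℝ → 𝔸 := fun x => E x * V x - 1
  set K : ℝ := Real.exp (2 * (S * ‖C‖)) * δ with hK
  have hδ0 : 0 ≤ δ := (norm_nonneg _).trans (hδ r (left_mem_Icc.2 hrt))
  have hW : ∀ x ∈ Icc r t, HasDerivAt W (E x * (D x * V x)) x := by
    intro x hx
    have h1 : HasDerivAt (fun u : ℝ => exp (u • C)) (exp ((-G x) • C) * C) (-G x) :=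
      hasDerivAt_exp_smul_const C (-G x)
    have h2 : HasDerivAt (fun y => -G y) (-g x) x := (hG x hx).fun_neg
    have hE : HasDerivAt E ((-g x) • (E x * C)) x := HasDerivAt.scomp (h := fun y => -G y) x h1 h2
    refine ((hE.mul (hV x hx)).sub_const 1).congr_deriv ?_
    rw [add_mul, mul_add, smul_mul_assoc, smul_mul_assoc, mul_smul_comm, mul_assoc, neg_smul]
    abel
  have hb : ∀ x ∈ Ico r t, ‖E x * (D x * V x)‖ ≤ K * ‖W x‖ + K := by
    intro x hx
    have hx' := Ico_subset_Icc_self hx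
    have hEV : V x = exp (G x • C) * (W x + 1) := by
      simp only [W, E, sub_add_cancel, ← mul_assoc]
      have := exp_neg_smul_mul C (-G x)
      rw [neg_neg] at this
      rw [this, one_mul]
    have hn1 : ‖E x‖ ≤ Real.exp (S * ‖C‖) := (norm_exp_smul_le _ _).trans
      (Real.exp_le_exp.2 (mul_le_mul_of_nonneg_right (by rw [abs_neg]; exact hS x hx') (norm_nonneg _)))
    have hn2 : ‖exp (G x • C)‖ ≤ Real.exp (S * ‖C‖) := (norm_exp_smul_le _ _).trans
      (Real.exp_le_exp.2 (mul_le_mul_of_nonneg_right (hS x hx') (norm_nonneg _)))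
    rw [hEV]
    calc ‖E x * (D x * (exp (G x • C) * (W x + 1)))‖
        ≤ ‖E x‖ * (‖D x‖ * (‖exp (G x • C)‖ * (‖W x‖ + 1))) := by
          refine (norm_mul_le _ _).trans (mul_le_mul_of_nonneg_left ?_ (norm_nonneg _))
          refine (norm_mul_le _ _).trans (mul_le_mul_of_nonneg_left ?_ (norm_nonneg _))
          refine (norm_mul_le _ _).trans (mul_le_mul_of_nonneg_left ?_ (norm_nonneg _))
          exact (norm_add_le _ _).trans (by rw [norm_one])
      _ ≤ Real.exp (S * ‖C‖) * (δ * (Real.exp (S * ‖C‖) * (‖W x‖ + 1))) := by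
          gcongr
          exact hδ x hx'
      _ = K * ‖W x‖ + K := by rw [hK, two_mul, Real.exp_add]; ring
  have h0 : ‖W r‖ ≤ 0 := by simp [W, E, hGr, hVr]
  have key := norm_le_gronwallBound_of_norm_deriv_right_le
    (fun x hx => (hW x hx).continuousAt.continuousWithinAt)
    (fun x hx => (hW x (Ico_subset_Icc_self hx)).hasDerivWithinAt) h0 hb t (right_mem_Icc.2 hrt)
  have hgb : gronwallBound 0 K K (t - r) = Real.exp (K * (t - r)) - 1 := by
    by_cases hK0 : K = 0
    · simp [hK0, gronwallBound_K0]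
    · rw [gronwallBound_of_K_ne_0 hK0]; simp [hK0]
  rw [hgb] at key
  have hfin : V t - exp (G t • C) = exp (G t • C) * W t := by
    simp only [W, E, mul_sub, mul_one, ← mul_assoc]
    have := exp_neg_smul_mul C (-G t)
    rw [neg_neg] at this
    rw [this, one_mul]
  rw [hfin]
  exact (norm_mul_le _ _).trans (mul_le_mul ((norm_exp_smul_le _ _).trans (Real.exp_le_exp.2
    (mul_le_mul_of_nonneg_right (hS t (right_mem_Icc.2 hrt)) (norm_nonneg _)))) key
    (norm_nonneg _) (Real.exp_nonneg _))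

end Flow

section Slot

variable (H : Harm)

theorem rate_nonneg {c : ℝ} (hc : 0 ≤ c) (j : ℕ) : 0 ≤ rate c j := by
  have : (1 : ℝ) ≤ Real.sqrt (1 + c * ((j : ℝ) * (j + 2))) := by
    rw [Real.one_le_sqrt]; nlinarith [mul_nonneg hc (by positivity : (0 : ℝ) ≤ (j : ℝ) * (j + 2))]
  simp only [rate]; linarith

/-- One pulse as an operator on regular states `(u, P u)`. -/
def forceOp (q : Pulse) (s τ : ℝ) {j : ℕ} (P : Op j j) (j' : ℕ) : Op j j' :=
  match q.kind with
  | some k =>
      (deriv q.prof τ + (2 + s) * q.prof τ) • (H.mul q.deg q.vec j j').comp (H.EL j k) +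
        q.prof τ • ((H.mul q.deg q.vec j j').comp (H.EL j k)).comp P +
        q.prof τ • ((H.EL j' k).comp (H.mul q.deg q.vec j j')).comp P
  | none => q.prof τ • ∑ k, (H.EL j' k).comp ((H.mul q.deg q.vec j j').comp (H.EL j k))

theorem forceOp_apply (q : Pulse) (s τ : ℝ) {j : ℕ} (P : Op j j) (j' : ℕ) (u : V j) :
    forceOp H q s τ P j' u = q.force H s τ j j' u (P u) := by
  unfold forceOp Pulse.force
  cases q.kind <;> simp

theorem prof_bound (q : Pulse) :
    ∃ R, 0 ≤ R ∧ ∀ τ ∈ Icc (0 : ℝ) 1, |q.prof τ| ≤ R ∧ |deriv q.prof τ| ≤ R := by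
  obtain ⟨a, ha⟩ := isCompact_Icc.exists_bound_of_continuousOn (s := Icc (0 : ℝ) 1)
    q.smooth.continuous.continuousOn
  obtain ⟨b, hb⟩ := isCompact_Icc.exists_bound_of_continuousOn (s := Icc (0 : ℝ) 1)
    (q.smooth.continuous_deriv (by simp)).continuousOn
  refine ⟨max (max a b) 0, le_max_right _ _, fun τ hτ => ⟨?_, ?_⟩⟩
  · exact (ha τ hτ).trans ((le_max_left _ _).trans (le_max_left _ _))
  · exact (hb τ hτ).trans ((le_max_right _ _).trans (le_max_left _ _))

/-- `forceOp` is Lipschitz at the round state. -/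
theorem forceOp_near (q : Pulse) (j j' : ℕ) (p : ℝ) :
    ∃ K, 0 ≤ K ∧ ∀ τ ∈ Icc (0 : ℝ) 1,
      ‖forceOp H q 0 τ (p • ContinuousLinearMap.id ℝ (V j)) j'‖ ≤ K ∧
      ∀ (P : Op j j) (s ε : ℝ), ‖P - p • ContinuousLinearMap.id ℝ (V j)‖ ≤ ε → |s| ≤ ε →
        ‖forceOp H q s τ P j' - forceOp H q 0 τ (p • ContinuousLinearMap.id ℝ (V j)) j'‖ ≤
          K * ε := by
  obtain ⟨R, hR0, hR⟩ := prof_bound q
  set I : Op j j := ContinuousLinearMap.id ℝ (V j) with hI
  have hI1 : ‖I‖ ≤ 1 := ContinuousLinearMap.norm_id_le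
  cases hk : q.kind with
  | none =>
    set M : Op j j' := ∑ k, (H.EL j' k).comp ((H.mul q.deg q.vec j j').comp (H.EL j k))
    refine ⟨R * ‖M‖, by positivity, fun τ hτ => ⟨?_, fun P s ε hP hs => ?_⟩⟩
    · simp only [forceOp, hk]
      rw [norm_smul, Real.norm_eq_abs]
      exact mul_le_mul_of_nonneg_right (hR τ hτ).1 (norm_nonneg _)
    · have h0 : 0 ≤ ε := (abs_nonneg _).trans hs
      simp only [forceOp, hk, sub_self, norm_zero]
      positivity
  | some k =>
    set M1 : Op j j' := (H.mul q.deg q.vec j j').comp (H.EL j k)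
    set M2 : Op j j' := (H.EL j' k).comp (H.mul q.deg q.vec j j')
    refine ⟨(3 + |p|) * R * (‖M1‖ + ‖M2‖), by positivity, fun τ hτ => ⟨?_, fun P s ε hP hs => ?_⟩⟩
    · simp only [forceOp, hk]
      have h1 : |deriv q.prof τ + (2 + 0) * q.prof τ| ≤ 3 * R := by
        refine (abs_add_le _ _).trans ?_
        rw [abs_mul]; norm_num; linarith [(hR τ hτ).1, (hR τ hτ).2]
      have hc : ∀ M : Op j j', ‖M.comp (p • I)‖ ≤ |p| * ‖M‖ := fun M => by
        refine (ContinuousLinearMap.opNorm_comp_le _ _).trans ?_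
        rw [norm_smul, Real.norm_eq_abs, mul_comm |p| ‖M‖]
        exact mul_le_mul_of_nonneg_left (mul_le_of_le_one_right (abs_nonneg _) hI1) (norm_nonneg _)
      refine (norm_add_le _ _).trans ((add_le_add (norm_add_le _ _) le_rfl).trans ?_)
      simp only [norm_smul, Real.norm_eq_abs]
      calc _ ≤ 3 * R * ‖M1‖ + R * (|p| * ‖M1‖) + R * (|p| * ‖M2‖) :=
            add_le_add (add_le_add (mul_le_mul_of_nonneg_right h1 (norm_nonneg _))
              (mul_le_mul (hR τ hτ).1 (hc M1) (norm_nonneg _) hR0))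
              (mul_le_mul (hR τ hτ).1 (hc M2) (norm_nonneg _) hR0)
        _ ≤ _ := by nlinarith [mul_nonneg hR0 (norm_nonneg M2)]
    · have h0 : 0 ≤ ε := (abs_nonneg _).trans hs
      simp only [forceOp, hk]
      have e : (deriv q.prof τ + (2 + s) * q.prof τ) • M1 + q.prof τ • M1.comp P +
          q.prof τ • M2.comp P - ((deriv q.prof τ + (2 + 0) * q.prof τ) • M1 +
          q.prof τ • M1.comp (p • I) + q.prof τ • M2.comp (p • I)) =
          (s * q.prof τ) • M1 + q.prof τ • M1.comp (P - p • I) +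
            q.prof τ • M2.comp (P - p • I) := by
        simp only [ContinuousLinearMap.comp_sub, smul_sub]; module
      rw [e]
      have hc : ∀ M : Op j j', ‖M.comp (P - p • I)‖ ≤ ε * ‖M‖ := fun M =>
        (ContinuousLinearMap.opNorm_comp_le _ _).trans
          (by rw [mul_comm ε]; exact mul_le_mul_of_nonneg_left hP (norm_nonneg _))
      refine (norm_add_le _ _).trans ((add_le_add (norm_add_le _ _) le_rfl).trans ?_)
      simp only [norm_smul, Real.norm_eq_abs, abs_mul]
      calc _ ≤ ε * R * ‖M1‖ + R * (ε * ‖M1‖) + R * (ε * ‖M2‖) :=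
            add_le_add (add_le_add (mul_le_mul_of_nonneg_right
              (mul_le_mul hs (hR τ hτ).1 (abs_nonneg _) h0) (norm_nonneg _))
              (mul_le_mul (hR τ hτ).1 (hc M1) (norm_nonneg _) hR0))
              (mul_le_mul (hR τ hτ).1 (hc M2) (norm_nonneg _) hR0)
        _ ≤ _ := by
          nlinarith [mul_nonneg (mul_nonneg h0 hR0) (norm_nonneg M1),
            mul_nonneg (mul_nonneg h0 hR0) (norm_nonneg M2),
            mul_nonneg (mul_nonneg (mul_nonneg h0 hR0) (abs_nonneg p))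
              (add_nonneg (norm_nonneg M1) (norm_nonneg M2))]

/-- The round integrand integrates to the limit jump. -/
theorem integral_round (c : ℝ) (q : Pulse) (j j' : ℕ) :
    -(∫ τ in (0 : ℝ)..1,
        (Real.exp ((rate c j - rate c j') * τ) / (2 * rate c j' + 2)) •
          forceOp H q 0 τ (rate c j • ContinuousLinearMap.id ℝ (V j)) j') =
      (-mom q.prof (gap c j j')) • nkick H c q.kind q.deg q.vec j j' := by
  have hρ : Continuous q.prof := q.smooth.continuous
  have hρ' : Continuous (deriv q.prof) := q.smooth.continuous_deriv (by simp)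
  have hm := mom_deriv_add q.smooth q.supp 2 (rate c j - rate c j')
  simp only [mom] at hm
  unfold nkick kick gap
  cases hk : q.kind with
  | none =>
    simp only [forceOp, hk, smul_smul]
    rw [intervalIntegral.integral_smul_const, ← neg_smul]
    congr 1
    simp only [mom, div_mul_eq_mul_div]
    rw [intervalIntegral.integral_div, neg_mul, div_eq_mul_inv]
    congr 2
    exact intervalIntegral.integral_congr fun τ _ => mul_comm _ _
  | some k =>
    simp only [forceOp, hk, add_zero, ContinuousLinearMap.comp_smul,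
      ContinuousLinearMap.comp_id, smul_add, smul_smul]
    rw [intervalIntegral.integral_add ((by fun_prop : Continuous _).intervalIntegrable _ _)
        ((by fun_prop : Continuous _).intervalIntegrable _ _),
      intervalIntegral.integral_add ((by fun_prop : Continuous _).intervalIntegrable _ _)
        ((by fun_prop : Continuous _).intervalIntegrable _ _),
      intervalIntegral.integral_smul_const, intervalIntegral.integral_smul_const,
      intervalIntegral.integral_smul_const]
    set d := rate c j - rate c j' with hd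
    set p := rate c j
    set p' := rate c j'
    have e1 : ∫ τ in (0 : ℝ)..1,
        Real.exp (d * τ) / (2 * p' + 2) * (deriv q.prof τ + 2 * q.prof τ) =
        (2 - d) * mom q.prof d / (2 * p' + 2) := by
      simp only [mom]
      rw [← hm, ← intervalIntegral.integral_div]
      exact intervalIntegral.integral_congr fun τ _ => by ring
    have e2 : ∫ τ in (0 : ℝ)..1, Real.exp (d * τ) / (2 * p' + 2) * (q.prof τ * p) =
        p * mom q.prof d / (2 * p' + 2) := by
      simp only [mom]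
      rw [← intervalIntegral.integral_const_mul, ← intervalIntegral.integral_div]
      exact intervalIntegral.integral_congr fun τ _ => by ring
    rw [e1, e2, hd]
    module

/-- A slot close to round has jump close to the limit. -/
theorem slot_near (c : ℝ) (hc : 0 ≤ c) (q : Pulse) (j j' : ℕ) :
    ∃ K, 0 ≤ K ∧ ∀ (A : ℝ → Op j' j') (B P : ℝ → Op j j) (s : ℝ → ℝ) (ε : ℝ), ε ≤ 1 →
      (∀ τ ∈ Icc (0 : ℝ) 1, ‖A τ - (Real.exp (-(rate c j') * τ) / (2 * rate c j' + 2)) •
        ContinuousLinearMap.id ℝ (V j')‖ ≤ ε) →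
      (∀ τ ∈ Icc (0 : ℝ) 1,
        ‖B τ - Real.exp (rate c j * τ) • ContinuousLinearMap.id ℝ (V j)‖ ≤ ε) →
      (∀ τ ∈ Icc (0 : ℝ) 1, ‖P τ - rate c j • ContinuousLinearMap.id ℝ (V j)‖ ≤ ε) →
      (∀ τ ∈ Icc (0 : ℝ) 1, |s τ| ≤ ε) →
      IntervalIntegrable (fun τ => (A τ).comp ((forceOp H q (s τ) τ (P τ) j').comp (B τ)))
        volume 0 1 →
      ‖-(∫ τ in (0 : ℝ)..1, (A τ).comp ((forceOp H q (s τ) τ (P τ) j').comp (B τ))) -
        (-mom q.prof (gap c j j')) • nkick H c q.kind q.deg q.vec j j'‖ ≤ K * ε := by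
  set p := rate c j
  set p' := rate c j'
  have hp : 0 ≤ p := rate_nonneg hc j
  have hp' : 0 ≤ p' := rate_nonneg hc j'
  obtain ⟨K₀, hK₀, hF⟩ := forceOp_near H q j j' p
  set M := Real.exp p + 1
  refine ⟨K₀ * M + K₀ * M + K₀ + K₀ * M, by positivity, fun A B P s ε hε hA hB hP hs hint => ?_⟩
  have hρ : Continuous q.prof := q.smooth.continuous
  have hρ' : Continuous (deriv q.prof) := q.smooth.continuous_deriv (by simp)
  have hc0 : Continuous fun τ : ℝ => forceOp H q 0 τ (p • ContinuousLinearMap.id ℝ (V j)) j' := by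
    unfold forceOp
    cases q.kind <;> (dsimp only; fun_prop)
  rw [← integral_round H c q j j', neg_sub_neg, ← intervalIntegral.integral_sub
    ((by fun_prop : Continuous _).intervalIntegrable _ _) hint]
  refine (intervalIntegral.norm_integral_le_of_norm_le_const fun τ hτ => ?_).trans
    (le_of_eq (by norm_num : (K₀ * M + K₀ * M + K₀ + K₀ * M) * ε * |(1 : ℝ) - 0| = _))
  rw [uIoc_of_le zero_le_one] at hτ
  have hτ' : τ ∈ Icc (0 : ℝ) 1 := Ioc_subset_Icc_self hτ
  obtain ⟨hF0, hF1⟩ := hF τ hτ'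
  have hF1 := hF1 (P τ) (s τ) ε (hP τ hτ') (hs τ hτ')
  have h0 : 0 ≤ ε := (abs_nonneg _).trans (hs τ hτ')
  set F := forceOp H q (s τ) τ (P τ) j'
  set F0 := forceOp H q 0 τ (p • ContinuousLinearMap.id ℝ (V j)) j'
  set a := Real.exp (-p' * τ) / (2 * p' + 2) with ha
  set b := Real.exp (p * τ) with hb
  have ha0 : 0 ≤ a := by positivity
  have ha1 : a ≤ 1 := by
    rw [ha, div_le_one (by linarith)]
    exact (Real.exp_le_one_iff.2 (by nlinarith [hτ.1])).trans (by linarith)
  have hb1 : b ≤ Real.exp p := Real.exp_le_exp.2 (by nlinarith [hτ.2])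
  have hb0 : 0 ≤ b := Real.exp_nonneg _
  have hBn : ‖B τ‖ ≤ M := by
    have := norm_le_norm_add_norm_sub' (B τ) (b • ContinuousLinearMap.id ℝ (V j))
    have h2 : ‖b • ContinuousLinearMap.id ℝ (V j)‖ ≤ b := by
      rw [norm_smul, Real.norm_of_nonneg hb0]
      exact mul_le_of_le_one_right hb0 ContinuousLinearMap.norm_id_le
    linarith [hB τ hτ']
  have hFn : ‖F‖ ≤ K₀ + K₀ * ε := by
    have := norm_le_norm_add_norm_sub' F F0; linarith
  have e0 : (Real.exp ((p - p') * τ) / (2 * p' + 2)) • F0 = (a * b) • F0 := by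
    congr 1
    rw [ha, hb, div_mul_eq_mul_div, ← Real.exp_add]
    ring_nf
  have e : (Real.exp ((p - p') * τ) / (2 * p' + 2)) • F0 - (A τ).comp (F.comp (B τ)) =
      -((A τ - a • ContinuousLinearMap.id ℝ (V j')).comp (F.comp (B τ)) +
        a • (F - F0).comp (B τ) +
        a • F0.comp (B τ - b • ContinuousLinearMap.id ℝ (V j))) := by
    rw [e0]
    simp only [ContinuousLinearMap.sub_comp, ContinuousLinearMap.comp_sub,
      ContinuousLinearMap.smul_comp, ContinuousLinearMap.comp_smul, ContinuousLinearMap.comp_id,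
      ContinuousLinearMap.id_comp]
    module
  rw [e, norm_neg]
  refine (norm_add_le _ _).trans ((add_le_add (norm_add_le _ _) le_rfl).trans ?_)
  have n1 : ‖(A τ - a • ContinuousLinearMap.id ℝ (V j')).comp (F.comp (B τ))‖ ≤
      ε * ((K₀ + K₀ * ε) * M) :=
    (ContinuousLinearMap.opNorm_comp_le _ _).trans (mul_le_mul (hA τ hτ')
      ((ContinuousLinearMap.opNorm_comp_le _ _).trans (mul_le_mul hFn hBn (norm_nonneg _)
        (by positivity))) (norm_nonneg _) h0)
  have n2 : ‖a • (F - F0).comp (B τ)‖ ≤ K₀ * ε * M := by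
    rw [norm_smul, Real.norm_of_nonneg ha0]
    refine (mul_le_of_le_one_left (norm_nonneg _) ha1).trans ?_
    exact (ContinuousLinearMap.opNorm_comp_le _ _).trans
      (mul_le_mul hF1 hBn (norm_nonneg _) (by positivity))
  have n3 : ‖a • F0.comp (B τ - b • ContinuousLinearMap.id ℝ (V j))‖ ≤ K₀ * ε := by
    rw [norm_smul, Real.norm_of_nonneg ha0]
    refine (mul_le_of_le_one_left (norm_nonneg _) ha1).trans ?_
    exact (ContinuousLinearMap.opNorm_comp_le _ _).trans
      (mul_le_mul hF0 (hB τ hτ') (norm_nonneg _) hK₀)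
  nlinarith [mul_nonneg (mul_nonneg hK₀ h0) (sub_nonneg.2 hε),
    mul_nonneg (mul_nonneg (mul_nonneg hK₀ h0) (sub_nonneg.2 hε)) (Real.exp_nonneg p)]

end Slot

end

end Vale.Agent.P225.Control
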