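import Vale.Agent.P225.Assembly.Setup
import Vale.Agent.P225.Control.BridgeDefs
import Vale.Agent.P225.Control.SlotLimit
import Vale.Agent.P225.FP.FlowInst
import Vale.Agent.P225.ODE.BarrierCoeff
import Vale.Agent.P225.Sched.ExpoR

/-!
P225, control: the slots of the schedule are round up to `ε`.

Every slot lies between two gaps of length more than `N₀`. There all squashes vanish, the radius is
final up to `O (1 / N₀)`, so after time `N₀` the exponent of every fixed degree is within
`O (1 / N₀)` of its limit rate; the transfer over the slot and `Φ Ω` follow.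
-/

namespace Vale.Agent.P225.Sched

open Real Filter Set ContinuousLinearMap
open Vale.Agent.P225.Barrier Vale.Agent.P225.ODE
open scoped RealInnerProductSpace Topology

noncomputable section

/-! ### The neighbours of a slot -/

/-- Every slot of the list has a gap `1` on both sides. -/
def SlotGaps (l : List Step) : Prop :=
  ∀ k, l.getD k Step.stay = Step.slot →
    1 ≤ k ∧ l.getD (k - 1) Step.stay = Step.gap 1 ∧ l.getD (k + 1) Step.stay = Step.gap 1

theorem lt_length_of_getD_ne {l : List Step} {k : ℕ} (h : l.getD k Step.stay ≠ Step.stay) :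
    k < l.length := by
  by_contra hk
  exact h (List.getD_eq_default _ _ (not_lt.1 hk))

theorem slotGaps_nil : SlotGaps [] := fun k h => by simp at h

theorem slotGaps_cons {s : Step} {l : List Step} (hs : s ≠ Step.slot) (hl : SlotGaps l) :
    SlotGaps (s :: l) := by
  intro k hk
  cases k with
  | zero => exact absurd (by simpa using hk) hs
  | succ k =>
    rw [List.getD_cons_succ] at hk
    obtain ⟨h1, h2, h3⟩ := hl k hk
    refine ⟨by omega, ?_, by rwa [List.getD_cons_succ]⟩
    obtain ⟨k, rfl⟩ := Nat.exists_eq_add_of_le' h1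
    simpa using h2

theorem slotGaps_append {a b : List Step} (ha : SlotGaps a) (hb : SlotGaps b) :
    SlotGaps (a ++ b) := by
  intro k hk
  rcases Nat.lt_or_ge k a.length with h | h
  · rw [List.getD_append _ _ _ _ h] at hk
    obtain ⟨h1, h2, h3⟩ := ha k hk
    have h4 : k + 1 < a.length := lt_length_of_getD_ne (by rw [h3]; simp)
    exact ⟨h1, by rwa [List.getD_append _ _ _ _ (by omega)],
      by rwa [List.getD_append _ _ _ _ h4]⟩
  · rw [List.getD_append_right _ _ _ _ h] at hk
    obtain ⟨h1, h2, h3⟩ := hb _ hk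
    refine ⟨by omega, ?_, ?_⟩
    · rwa [List.getD_append_right _ _ _ _ (by omega),
        show k - 1 - a.length = k - a.length - 1 by omega]
    · rwa [List.getD_append_right _ _ _ _ (by omega),
        show k + 1 - a.length = k - a.length + 1 by omega]

theorem slotGaps_flatMap {α : Type*} (f : α → List Step) (hf : ∀ a, SlotGaps (f a)) :
    ∀ l : List α, SlotGaps (l.flatMap f)
  | [] => slotGaps_nil
  | a :: l => by
    rw [List.flatMap_cons]
    exact slotGaps_append (hf a) (slotGaps_flatMap f hf l)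

theorem getD_gap_flatMap_bumpGap : ∀ w : Word,
    (Step.gap 1 :: w.flatMap bumpGap).getD (2 * w.length) Step.stay = Step.gap 1
  | [] => by simp
  | b :: w => by
    have ih := getD_gap_flatMap_bumpGap w
    rw [List.flatMap_cons, List.length_cons,
      show 2 * (w.length + 1) = 2 * w.length + 2 by ring, bumpGap]
    simpa using ih

theorem slotGaps_closedWord (w : Word) : SlotGaps (closedWord w) := by
  intro k hk
  have hlen : k < (closedWord w).length := lt_length_of_getD_ne (by rw [hk]; simp)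
  have hmem : k ∈ slotsOf (closedWord w) := by
    simp only [slotsOf, List.mem_filter, List.mem_range]
    exact ⟨hlen, by rw [hk]; rfl⟩
  rw [slotsOf_closedWord, List.mem_singleton] at hmem
  subst hmem
  have hA : (w.flatMap bumpGap).length = 2 * w.length := by
    simp [List.length_flatMap, bumpGap, mul_comm]
  have e : closedWord w = (Step.gap 1 :: w.flatMap bumpGap) ++
      (Step.slot :: Step.gap 1 :: (w.reverse.map negBump).flatMap bumpGap) := rfl
  refine ⟨by omega, ?_, ?_⟩
  · rw [e, List.getD_append _ _ _ _ (by simp only [List.length_cons, hA]; omega),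
      show 2 * w.length + 1 - 1 = 2 * w.length by omega]
    exact getD_gap_flatMap_bumpGap w
  · rw [e, List.getD_append_right _ _ _ _ (by simp only [List.length_cons, hA]; omega),
      List.length_cons, hA, show 2 * w.length + 1 + 1 - (2 * w.length + 1) = 1 by omega]
    simp

theorem slotGaps_composite (groups : ℕ) (words : List Word) :
    SlotGaps (composite groups words) := by
  have h := slotGaps_flatMap (fun _ : ℕ => words.flatMap closedWord)
    (fun _ => slotGaps_flatMap closedWord slotGaps_closedWord words) (List.range groups)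
  rwa [List.flatMap_def, List.map_const', List.length_range] at h

theorem slotGaps_periodSteps (groups : ℕ) (words : List Word) (cs : List Crossing) :
    SlotGaps (periodSteps groups words cs) :=
  slotGaps_flatMap _ (fun c => slotGaps_append (slotGaps_append
    (slotGaps_cons (by simp) (slotGaps_composite groups words))
    (slotGaps_cons (by simp) (slotGaps_composite groups words)))
    (slotGaps_cons (by simp) (slotGaps_composite groups words))) cs

theorem Recipe.slotGaps (R : Recipe) (N : ℕ) : SlotGaps (R.params N).list :=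
  slotGaps_append (slotGaps_periodSteps _ _ _) (slotGaps_cons (by simp) slotGaps_nil)

namespace Params

variable {p : Params}

/-- Round on `[t - N₀, t + 1 + N₀]` around a slot at `t`. -/
theorem slot_window (hg : SlotGaps p.list) {k : ℕ} (hk : p.step k = Step.slot) :
    (p.N0 : ℝ) ≤ p.time k - p.N0 ∧
      ∀ v ∈ Icc (p.time k - p.N0) (p.time k + 1 + p.N0), ∀ o, p.comp o v = 0 := by
  set r := k % p.len
  set i := k / p.len
  have hr : r < p.len := Nat.mod_lt _ p.len_pos
  have e : i * p.len + r = k := Nat.div_add_mod' k p.len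
  obtain ⟨h1, h2, h3⟩ := hg r (by rw [← hk]; rfl)
  have hr2 : r + 1 < p.len := lt_length_of_getD_ne (l := p.list) (by rw [h3]; simp)
  have sa : p.step (k - 1) = Step.gap 1 := by
    rw [show k - 1 = i * p.len + (r - 1) by omega, p.step_add i (r - 1) (by omega)]
    exact h2
  have sb : p.step (k + 1) = Step.gap 1 := by
    rw [show k + 1 = i * p.len + (r + 1) by omega, p.step_add i (r + 1) hr2]
    exact h3
  have hd : ∀ m, p.step m = Step.gap 1 → (p.N0 : ℝ) ≤ p.dur m := fun m hm => by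
    rw [dur, hm]
    simp only [Step.dur]
    norm_num
    linarith [p.N0_le_size m]
  have t1 : p.time k = p.time (k - 1) + p.dur (k - 1) := by
    rw [← p.time_succ, Nat.sub_add_cancel (show 1 ≤ k by omega)]
  have t2 : p.time (k + 1) = p.time k + 1 := by
    rw [p.time_succ, dur, hk]; rfl
  have t3 : p.time (k + 1 + 1) = p.time (k + 1) + p.dur (k + 1) := p.time_succ _
  refine ⟨by linarith [hd _ sa, p.N0_le_time (k - 1)], fun v hv o => ?_⟩
  have round : ∀ m, (p.step m).amp (p.size m) = 0 → p.time m ≤ v → v ≤ p.time (m + 1) →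
      p.comp o v = 0 := fun m hm a b => (p.comp_of_round a b hm o).eq_of_nhds
  rcases le_or_gt v (p.time k) with ha | ha
  · exact round (k - 1) (by rw [sa]; rfl) (by linarith [hv.1, hd _ sa])
      (by rwa [Nat.sub_add_cancel (show 1 ≤ k by omega)])
  rcases le_or_gt v (p.time (k + 1)) with hb | hb
  · exact round k (by rw [hk]; rfl) ha.le hb
  · exact round (k + 1) (by rw [sb]; rfl) hb.le (by linarith [hv.2, hd _ sb])

/-- The radius is final and the drift small after `N₀`. -/
theorem Ok.late_small (h : p.Ok) {t : ℝ} (ht : (p.N0 : ℝ) ≤ t) :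
    p.rate t ≤ (1 + p.C) / p.N0 ∧ 0 ≤ Real.log (8 / 7) - p.chi t ∧
      Real.log (8 / 7) - p.chi t ≤ 2 * ((1 + p.C) / p.N0) := by
  have h1 : 1 ≤ t := le_trans p.one_le_N0 ht
  have hN : (0 : ℝ) < p.N0 := by linarith [p.one_le_N0]
  have hC := p.one_le_C
  have he : Real.exp (-t / 4) ≤ 4 / p.N0 :=
    (exp_neg_quarter_le (by linarith)).trans (by gcongr)
  have a1 : p.A * Real.exp (-t / 4) ≤ 1 / 21 * (4 / p.N0) :=
    mul_le_mul h.A_le he (exp_pos _).le (by norm_num)
  have t1 := mul_le_mul_of_nonneg_left (p.tail_le (show 0 ≤ t by linarith))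
    (show 0 ≤ p.C by linarith)
  have t2 := mul_le_mul_of_nonneg_left (p.rpow_half_le (show 0 ≤ t by linarith))
    (show 0 ≤ p.C by linarith)
  have hinv : (0 : ℝ) ≤ 1 / p.N0 := by positivity
  have e : (1 + p.C) / (p.N0 : ℝ) = 1 / p.N0 + p.C * (1 / p.N0) := by ring
  rw [show (4 : ℝ) / p.N0 = 4 * (1 / p.N0) by ring] at a1
  refine ⟨by rw [rate_eq h1, e]; linarith, by linarith [(h.chi_bounds t).2], ?_⟩
  rw [chi_eq h1, e]
  linarith

variable (p)

/-- The constant of the round window in degree `j`. -/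
def roundErr (j : ℕ) : ℝ :=
  root (-(1 / 2)) (4 * ((j : ℝ) * (j + 2))) + rateInf j +
    9 * (1 + p.C) * ((j : ℝ) * (j + 2) + rateInf j)

theorem roundErr_congr {q : Params} (h : p.steps = q.steps) (j : ℕ) :
    p.roundErr j = q.roundErr j := by
  simp only [roundErr, C, K, durSum, levelSum, list, h]

variable {p}

theorem rateInf_nonneg (j : ℕ) : 0 ≤ rateInf j := root_nonneg (by positivity)

theorem rate_eq_rateInf (j : ℕ) : Control.rate (64 / 49) j = rateInf j := by
  simp [Control.rate, rateInf, root]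

theorem one_le_roundErr (p : Params) {j : ℕ} (hj : 1 ≤ j) : 1 ≤ p.roundErr j := by
  have hj' : (1 : ℝ) ≤ j := by exact_mod_cast hj
  have h0 : 0 ≤ root (-(1 / 2)) (4 * ((j : ℝ) * (j + 2))) := root_nonneg (by positivity)
  have := rateInf_nonneg j
  have := p.one_le_C
  have hJ1 : (1 : ℝ) ≤ (j : ℝ) * (j + 2) := by nlinarith
  unfold roundErr
  nlinarith [mul_le_mul (show (2 : ℝ) ≤ 1 + p.C by linarith)
    (show (1 : ℝ) ≤ (j : ℝ) * (j + 2) + rateInf j by linarith) zero_le_one (by linarith)]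

theorem one_add_C_le_roundErr (p : Params) {j : ℕ} (hj : 1 ≤ j) : 1 + p.C ≤ p.roundErr j := by
  have hj' : (1 : ℝ) ≤ j := by exact_mod_cast hj
  have h0 : 0 ≤ root (-(1 / 2)) (4 * ((j : ℝ) * (j + 2))) := root_nonneg (by positivity)
  have := rateInf_nonneg j
  have := p.one_le_C
  have hJ1 : (1 : ℝ) ≤ (j : ℝ) * (j + 2) := by nlinarith
  unfold roundErr
  nlinarith [mul_le_mul_of_nonneg_left
    (show (1 : ℝ) ≤ (j : ℝ) * (j + 2) + rateInf j by linarith) (show (0 : ℝ) ≤ 1 + p.C by linarith)]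

variable (H : Harm)

/-- Scalar barriers which are close to the limit rate late in a round window. -/
theorem Ok.round_barriers (h : p.Ok) (j : ℕ) {a b : ℝ} (ha : (p.N0 : ℝ) ≤ a)
    (hround : ∀ v ∈ Icc a b, ∀ o, p.comp o v = 0) :
    ∃ l u : ℝ → ℝ, (coeff H h j).Lower l ∧ (coeff H h j).Upper u ∧ (∀ v, 0 ≤ l v) ∧
      ∀ v ∈ Icc (a + p.N0) b, |l v - rateInf j| ≤ p.roundErr j / p.N0 ∧
        |u v - rateInf j| ≤ p.roundErr j / p.N0 := by
  set J := (j : ℝ) * (j + 2) with hJdef
  have hJ : 0 ≤ J := by positivity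
  set B : ℝ → ℝ := fun v => |p.shape.β v| + ∑ c, |p.shape.γ c v| with hB
  have hcB : Continuous B := by
    have := p.shape.smooth_β.continuous
    have := fun c => (p.shape.smooth_γ c).continuous
    simp only [hB]
    fun_prop
  have hcχ : Continuous p.chi := p.contDiff_chi.continuous
  have hB0 : ∀ v, 0 ≤ B v := fun v =>
    add_nonneg (abs_nonneg _) (Finset.sum_nonneg fun c _ => abs_nonneg _)
  have hB1 : ∀ v, B v ≤ 11 / 100 := fun v => by
    have e1 : |p.shape.β v| ≤ 1 / 20 := h.abs_comp_none v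
    have e2 : ∑ c, |p.shape.γ c v| ≤ 6 * (1 / 100) := by
      refine (Finset.sum_le_sum fun c _ => h.abs_comp_some c v).trans (le_of_eq ?_)
      simp
    simp only [hB]
    linarith
  have he2 : ∀ v, Real.exp (4 * B v) ≤ 2 := fun v => by
    have h1 := add_one_le_exp (-(4 * B v))
    rw [Real.exp_neg] at h1
    have h2 := exp_pos (4 * B v)
    have h3 : (1 : ℝ) / 2 ≤ (Real.exp (4 * B v))⁻¹ := by linarith [hB1 v]
    rw [one_div, inv_le_inv₀ (by norm_num) h2] at h3
    exact h3
  have hlo1 : ∀ v, Real.exp (-4 * B v) ≤ Real.exp (4 * B v) := fun v =>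
    exp_le_exp.2 (by linarith [hB0 v])
  have hform : ∀ v (x : V j),
      Real.exp (2 * p.chi v) * Real.exp (-4 * B v) * J * ‖x‖ ^ 2 ≤ ⟪x, (coeff H h j).lam v x⟫ ∧
        ⟪x, (coeff H h j).lam v x⟫ ≤ Real.exp (2 * p.chi v) * Real.exp (4 * B v) * J * ‖x‖ ^ 2 :=
    fun v x => form_lam_bounds p.shape H j v (B v) x
      (le_add_of_nonneg_right (Finset.sum_nonneg fun c _ => abs_nonneg _))
      fun c => le_add_of_nonneg_of_le (abs_nonneg _)
        (Finset.single_le_sum (fun c _ => abs_nonneg (p.shape.γ c v)) (Finset.mem_univ c))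
  have hbd : ∀ (f : ℝ → ℝ), (∀ v, 0 ≤ f v ∧ f v ≤ Real.exp (4 * B v)) → ∀ v,
      0 ≤ Real.exp (2 * p.chi v) * f v * J ∧ Real.exp (2 * p.chi v) * f v * J ≤ 4 * J :=
    fun f hf v => by
      refine ⟨mul_nonneg (mul_nonneg (exp_pos _).le (hf v).1) hJ, ?_⟩
      refine mul_le_mul_of_nonneg_right ?_ hJ
      calc Real.exp (2 * p.chi v) * f v ≤ 2 * 2 :=
            mul_le_mul (by linarith [(h.exp_chi_bounds v).2]) ((hf v).2.trans (he2 v)) (hf v).1
              (by norm_num)
        _ = 4 := by norm_num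
  have hst : ∀ t ≤ 0, B t = 0 ∧ p.chi t = 0 := fun t ht => by
    obtain ⟨s1, s2, s3⟩ := p.shape.start t ht
    exact ⟨by simp [hB, s2, s3], s1⟩
  have hs : ∀ t, |p.shape.drift t| ≤ 1 / 2 := h.shapeBounds.drift
  have hex : ∀ σ : ℝ, σ = -4 ∨ σ = 4 → ∃ q,
      IsRic p.shape.drift (fun v => Real.exp (2 * p.chi v) * Real.exp (σ * B v) * J) q ∧
        (∀ t ≤ 0, q t = j) ∧ ∀ t, 0 ≤ q t ∧ q t ≤ root (-(1 / 2)) (4 * J) := by
    intro σ hσ
    obtain ⟨q, q1, q2, q3⟩ := exists_riccati (s := p.shape.drift)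
      (lam := fun v => Real.exp (2 * p.chi v) * Real.exp (σ * B v) * J) (l₀ := 0) (l₁ := 4 * J) j
      (continuous_drift p.shape) hs (by fun_prop) le_rfl
      (hbd _ fun v => ⟨(exp_pos _).le, by rcases hσ with rfl | rfl; exacts [hlo1 v, le_rfl]⟩)
      (fun t ht => ⟨drift_start p.shape ht, by simp [(hst t ht).1, (hst t ht).2, hJdef]⟩)
    exact ⟨q, q1, q2, fun t => ⟨(root_nonneg le_rfl).trans (q3 t).1, (q3 t).2⟩⟩
  have near : ∀ σ q, IsRic p.shape.drift
      (fun v => Real.exp (2 * p.chi v) * Real.exp (σ * B v) * J) q →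
      (∀ t, 0 ≤ q t ∧ q t ≤ root (-(1 / 2)) (4 * J)) →
      ∀ v ∈ Icc (a + p.N0) b, |q v - rateInf j| ≤ p.roundErr j / p.N0 := by
    intro σ q hq hqb v hv
    set r := rateInf j with hr
    have hr0 : 0 ≤ r := rateInf_nonneg j
    have her : r ^ 2 + 2 * r = 64 / 49 * J := by
      have e : r ^ 2 + (2 + 0) * r = 64 / 49 * J := root_eq (by positivity)
      linarith
    set Q := (1 + p.C) / (p.N0 : ℝ) with hQ
    have hQ0 : 0 ≤ Q := by have := p.one_le_C; positivity
    have hN : (0 : ℝ) < p.N0 := by linarith [p.one_le_N0]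
    have key := decay_sup (e := fun u => q u - r) (c := fun u => q u + r + 2 + p.shape.drift u)
      (r := fun u => Real.exp (2 * p.chi u) * Real.exp (σ * B u) * J - r ^ 2 -
        (2 + p.shape.drift u) * r) (a := a) (b := b) (m := 3 / 2) (R := 9 * Q * (J + r))
      (by norm_num) (by positivity)
      (fun u _ => ((hq u).sub_const r).congr_deriv (by ring))
      (fun u _ => by linarith [(hqb u).1, (h.drift_bounds u).1])
      (fun u hu => ?_) ⟨by linarith [hv.1], hv.2⟩
    · refine key.trans ?_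
      have d1 : |q a - r| ≤ root (-(1 / 2)) (4 * J) + r :=
        abs_le.2 ⟨by linarith [(hqb a).1, (hqb a).2], by linarith [(hqb a).2]⟩
      have d2 : Real.exp (-(3 / 2) * (v - a)) ≤ 1 / p.N0 := by
        have h1 := add_one_le_exp (3 / 2 * (v - a))
        rw [neg_mul, Real.exp_neg, one_div]
        exact inv_anti₀ hN (by linarith [hv.1])
      have e1 : p.roundErr j / p.N0 =
          (root (-(1 / 2)) (4 * J) + r) * (1 / p.N0) + 9 * Q * (J + r) := by
        simp only [roundErr, ← hJdef, hQ, hr]; ring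
      rw [e1]
      refine add_le_add (mul_le_mul d1 d2 (exp_pos _).le ((abs_nonneg _).trans d1)) ?_
      exact div_le_self (by positivity) (by norm_num)
    · have hBu : B u = 0 := by
        have e1 : p.shape.β u = 0 := hround u hu none
        have e2 : ∀ c, p.shape.γ c u = 0 := fun c => hround u hu (some c)
        simp [hB, e1, e2]
      obtain ⟨g1, g2, g3⟩ := h.late_small (ha.trans hu.1)
      rw [← hQ] at g1 g3
      have hrate := h.rate_nonneg u
      have hx1 := (h.exp_chi_bounds u).2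
      have hx2 : 64 / 49 * (1 + 2 * (p.chi u - Real.log (8 / 7))) ≤ Real.exp (2 * p.chi u) := by
        rw [← exp_two_L, show Real.exp (2 * p.chi u) = Real.exp (2 * Real.log (8 / 7)) *
          Real.exp (2 * (p.chi u - Real.log (8 / 7))) by rw [← Real.exp_add]; ring_nf]
        exact mul_le_mul_of_nonneg_left
          (by linarith [add_one_le_exp (2 * (p.chi u - Real.log (8 / 7)))]) (exp_pos _).le
      have m1 := mul_le_mul_of_nonneg_right hx1 hJ
      have m2 := mul_le_mul_of_nonneg_right hx2 hJ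
      have m3 := mul_le_mul_of_nonneg_right g3 hJ
      have m4 := mul_le_mul_of_nonneg_right g1 hr0
      have m5 := mul_nonneg hrate hr0
      rw [hBu, mul_zero, Real.exp_zero, mul_one, p.shape_drift, abs_le]
      constructor <;> nlinarith [mul_nonneg hQ0 hJ, mul_nonneg hQ0 hr0]
  obtain ⟨l, l1, l2, l3⟩ := hex (-4) (Or.inl rfl)
  obtain ⟨u, u1, u2, u3⟩ := hex 4 (Or.inr rfl)
  exact ⟨l, u, Coeff.lower_of_isRic l1 (fun t ht => (l2 t ht).le) (fun t _ x => (hform t x).1),
    Coeff.upper_of_isRic u1 (fun t ht => (u2 t ht).ge) (fun t _ x => (hform t x).2),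
    fun v => (l3 v).1, fun v hv => ⟨near _ l l1 l3 v hv, near _ u u1 u3 v hv⟩⟩

end Params

end

end Vale.Agent.P225.Sched

namespace Vale.Agent.P225.ODE.Coeff

open Real Set ContinuousLinearMap
open scoped RealInnerProductSpace

noncomputable section

variable {E : Type*} [NormedAddCommGroup E] [InnerProductSpace ℝ E] [FiniteDimensional ℝ E]
  (c : Coeff E)

theorem norm_P_sub_le {l u : ℝ → ℝ} (hl : c.Lower l) (hu : c.Upper u) {v r η : ℝ} (hη : 0 ≤ η)
    (h1 : r - η ≤ l v) (h2 : u v ≤ r + η) : ‖c.P v - r • 1‖ ≤ η := by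
  refine opNorm_le_of_form _ (fun y z => ?_) hη fun y => ?_
  · simp [inner_sub_left, inner_sub_right, c.P_symm, real_inner_smul_left, inner_smul_right]
  · simp only [sub_apply, smul_apply, one_apply_eq_self, inner_sub_right, inner_smul_right,
      real_inner_self_eq_norm_sq]
    rw [abs_le]
    constructor <;> nlinarith [c.le_P hl v y, c.P_le hu v y, sq_nonneg ‖y‖]

theorem norm_prop_sub_exp_le [Nontrivial E] {t x r η : ℝ} (hr : 0 ≤ r) (hx : x ∈ Icc (0 : ℝ) 1)
    (hη : Real.exp (2 * r) * η ≤ 1) (hP : ∀ v ∈ Icc t (t + x), ‖c.P v - r • 1‖ ≤ η) :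
    ‖c.prop (t + x) t - Real.exp (r * x) • 1‖ ≤ 2 * Real.exp (3 * r) * η := by
  have hη0 : 0 ≤ η :=
    (norm_nonneg _).trans (hP t ⟨le_rfl, by linarith [hx.1]⟩)
  have hflow := Control.norm_flow_sub_exp_le (𝔸 := E →L[ℝ] E) (C := 1)
    (g := fun _ => r) (G := fun v => r * (v - t)) (D := fun v => c.P v - r • 1)
    (V := fun v => c.prop v t) (r := t) (t := t + x) (S := r) (δ := η) (by linarith [hx.1])
    (fun v _ => by simpa using ((hasDerivAt_id v).sub_const t).const_mul r)
    (by simp)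
    (fun v hv => by
      rw [abs_of_nonneg (mul_nonneg hr (by linarith [hv.1]))]
      exact mul_le_of_le_one_right hr (by linarith [hv.2, hx.2]))
    hP (c.prop_self t)
    (fun v _ => ((c.hasDerivAt_Phi v).mul_const (c.Psi t)).congr_deriv (by
      simp only [add_sub_cancel, Coeff.prop, mul_assoc]))
  have e : NormedSpace.exp ((r * x) • (1 : E →L[ℝ] E)) = Real.exp (r * x) • 1 := by
    rw [← Algebra.algebraMap_eq_smul_one, ← NormedSpace.algebraMap_exp_comm, ← Real.exp_eq_exp_ℝ,
      Algebra.algebraMap_eq_smul_one]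
  simp only [norm_one, mul_one, add_sub_cancel_left] at hflow
  rw [e] at hflow
  refine hflow.trans ?_
  set z := Real.exp (2 * r) * η * x
  have hz0 : 0 ≤ z := mul_nonneg (mul_nonneg (exp_pos _).le hη0) hx.1
  have hz1 : z ≤ Real.exp (2 * r) * η :=
    mul_le_of_le_one_right (mul_nonneg (exp_pos _).le hη0) hx.2
  have hz2 := (le_abs_self _).trans
    (Real.abs_exp_sub_one_le (x := z) (by rw [abs_of_nonneg hz0]; linarith))
  rw [abs_of_nonneg hz0] at hz2
  calc Real.exp r * (Real.exp z - 1) ≤ Real.exp r * (2 * (Real.exp (2 * r) * η)) :=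
        mul_le_mul_of_nonneg_left (by linarith) (exp_pos _).le
    _ = 2 * Real.exp (3 * r) * η := by
        rw [show 3 * r = r + 2 * r by ring, Real.exp_add]; ring

theorem window_scalar {r η T : ℝ} (hr : 0 ≤ r) (hη : η ≤ 1 / 8) (hT : 0 < T) (hTη : 1 / T ≤ η) :
    (1 - Real.exp (-((2 * (r - η) + 2 - 3 * η) * T))) / (2 * (r - η) + 2 - 3 * η) +
        2 / 3 * Real.exp (-((2 * (r - η) + 2 - 3 * η) * T)) ≤ 1 / (2 * r + 2) + 3 * η ∧
      1 / (2 * r + 2) - 3 * η ≤
        (1 - Real.exp (-((2 * (r + η) + 2 + 3 * η) * T))) / (2 * (r + η) + 2 + 3 * η) := by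
  have hη0 : 0 ≤ η := le_trans (by positivity) hTη
  set d := 2 * r + 2 with hd
  set a := 2 * (r - η) + 2 - 3 * η with ha
  set b := 2 * (r + η) + 2 + 3 * η with hb
  have hd2 : 2 ≤ d := by linarith
  have ha1 : 11 / 8 ≤ a := by linarith
  have hb2 : 2 ≤ b := by linarith
  have hexp : ∀ k, 1 ≤ k → Real.exp (-(k * T)) ≤ η := fun k hk => by
    refine le_trans ?_ hTη
    rw [Real.exp_neg, one_div]
    exact inv_anti₀ hT (by nlinarith [add_one_le_exp (k * T)])
  have ea := hexp a (by linarith)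
  have eb := hexp b (by linarith)
  constructor
  · have q1 : (1 - Real.exp (-(a * T))) / a ≤ 1 / a := by
      gcongr; linarith [exp_pos (-(a * T))]
    have q2 : 1 / a - 1 / d ≤ 2 * η := by
      rw [div_sub_div _ _ (by linarith) (by linarith), div_le_iff₀ (by positivity)]
      nlinarith [mul_le_mul ha1 hd2 (by norm_num) (by linarith)]
    linarith
  · have q2 : 1 / d - 1 / b ≤ 2 * η := by
      rw [div_sub_div _ _ (by linarith) (by linarith), div_le_iff₀ (by positivity)]
      nlinarith [mul_le_mul hb2 hd2 (by norm_num) (by linarith)]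
    rw [sub_div]
    have q3 : Real.exp (-(b * T)) / b ≤ Real.exp (-(b * T)) / 2 := by gcongr
    linarith

theorem norm_Phi_Omega_sub_le {l u : ℝ → ℝ} (hl : c.Lower l) (hu : c.Upper u) {t r η T : ℝ}
    (hr : 0 ≤ r) (hη : η ≤ 1 / 8) (hT : 0 < T) (hTη : 1 / T ≤ η) (hl0 : ∀ q, 0 ≤ l q)
    (hb : ∀ q ∈ Icc t (t + T), r - η ≤ l q ∧ u q ≤ r + η ∧ |c.s q| ≤ 3 * η) :
    ‖c.Phi t * c.Omega t - (1 / (2 * r + 2)) • 1‖ ≤ 3 * η := by
  have hη0 : 0 ≤ η := le_trans (by positivity) hTη
  obtain ⟨i1, i2⟩ := window_scalar hr hη hT hTη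
  refine opNorm_le_of_form _ (fun y z => ?_) (by positivity) fun y => ?_
  · simp [inner_sub_left, inner_sub_right, real_inner_smul_left, inner_smul_right,
      c.Phi_Omega_symm t y z]
  have up := c.norm_Phi_Omega_le hl (t := t) (T := T) (L := r - η) (δ := 3 * η) hT.le
    (by linarith) (fun q hq => (hb q hq).1) (fun q hq => (abs_le.1 (hb q hq).2.2).1)
    (fun q _ => hl0 q) y
  have lo := c.le_inner_Phi_Omega hu (t := t) (T := T) (H := r + η) (δ := 3 * η) hT.le
    (by linarith) (fun q hq => (hb q hq).2.1) (fun q hq => (abs_le.1 (hb q hq).2.2).2) y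
  have up' : ⟪y, c.Phi t (c.Omega t y)⟫ ≤ (1 / (2 * r + 2) + 3 * η) * ‖y‖ ^ 2 := by
    refine (real_inner_le_norm _ _).trans ?_
    calc ‖y‖ * ‖c.Phi t (c.Omega t y)‖ ≤ ‖y‖ * ((1 / (2 * r + 2) + 3 * η) * ‖y‖) :=
          mul_le_mul_of_nonneg_left (up.trans (mul_le_mul_of_nonneg_right i1 (norm_nonneg y)))
            (norm_nonneg y)
      _ = _ := by ring
  have lo' := (mul_le_mul_of_nonneg_right i2 (sq_nonneg ‖y‖)).trans lo
  simp only [sub_apply, smul_apply, one_apply_eq_self, mul_apply_eq_comp, inner_sub_right,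
    inner_smul_right, real_inner_self_eq_norm_sq]
  rw [abs_le]
  constructor <;> linarith

theorem norm_Phi_mul_Omega_sub_le {t x r η : ℝ} (hr : 0 ≤ r) (hη : 0 ≤ η)
    (hx : x ∈ Icc (0 : ℝ) 1)
    (hprop : ‖c.prop (t + x) t - Real.exp (r * x) • 1‖ ≤ 2 * Real.exp (3 * r) * η)
    (hA : ‖c.Phi (t + x) * c.Omega (t + x) - (1 / (2 * r + 2)) • 1‖ ≤ 3 * η) :
    ‖c.Phi t * c.Omega (t + x) - (Real.exp (-r * x) / (2 * r + 2)) • 1‖ ≤
      (2 * Real.exp (3 * r) + 3) * η := by
  have hA2 : ‖c.Phi (t + x) * c.Omega (t + x)‖ ≤ 2 / 3 :=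
    opNorm_le_bound _ (by norm_num) fun y => c.norm_Phi_Omega_le_two_thirds _ y
  have hX : c.Phi t * c.Omega (t + x) = c.prop t (t + x) * (c.Phi (t + x) * c.Omega (t + x)) := by
    rw [Coeff.prop, mul_assoc, ← mul_assoc (c.Psi (t + x)), c.Psi_mul_Phi, one_mul]
  have he1 : Real.exp (-r * x) ≤ 1 := exp_le_one_iff.2 (by nlinarith [hx.1])
  have hback : ‖c.prop t (t + x) - Real.exp (-r * x) • 1‖ ≤ 2 * Real.exp (3 * r) * η := by
    have e : c.prop t (t + x) - Real.exp (-r * x) • 1 =
        Real.exp (-r * x) • (c.prop t (t + x) * (Real.exp (r * x) • 1 - c.prop (t + x) t)) := by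
      rw [mul_sub, c.prop_mul, c.prop_self, smul_sub, mul_smul_comm, mul_one, smul_smul,
        ← Real.exp_add, show -r * x + r * x = 0 by ring, Real.exp_zero, one_smul]
    rw [e, norm_smul, Real.norm_eq_abs, abs_of_pos (exp_pos _)]
    refine (mul_le_of_le_one_left (norm_nonneg _) he1).trans ((norm_mul_le _ _).trans ?_)
    rw [norm_sub_rev]
    exact (mul_le_of_le_one_left (norm_nonneg _)
      (c.norm_prop_le_one (by linarith [hx.1]))).trans hprop
  generalize c.Phi (t + x) * c.Omega (t + x) = A at hX hA hA2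
  have e : c.prop t (t + x) * A - (Real.exp (-r * x) / (2 * r + 2)) • 1 =
      (c.prop t (t + x) - Real.exp (-r * x) • 1) * A +
        Real.exp (-r * x) • (A - (1 / (2 * r + 2)) • 1) := by
    rw [sub_mul, smul_mul_assoc, one_mul, smul_sub, smul_smul, mul_one_div]
    abel
  rw [hX, e]
  refine (norm_add_le _ _).trans ?_
  rw [norm_smul, Real.norm_eq_abs, abs_of_pos (exp_pos _)]
  have h1 := (norm_mul_le (c.prop t (t + x) - Real.exp (-r * x) • 1) A).trans
    (mul_le_mul hback hA2 (norm_nonneg _) (by positivity))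
  have h2 := (mul_le_of_le_one_left (norm_nonneg _) he1).trans hA
  nlinarith [mul_nonneg (exp_pos (3 * r)).le hη]

end

end Vale.Agent.P225.ODE.Coeff

namespace Vale.Agent.P225.Sched

open Real Filter Set
open Vale.Agent.P225.Barrier Vale.Agent.P225.ODE
open scoped RealInnerProductSpace Topology

noncomputable section

namespace Params

variable {p : Params} (H : Harm)

/-- The four round fields of a slot in one degree. -/
theorem Ok.slot_round (h : p.Ok) {j : ℕ} (hj : 1 ≤ j) {t η : ℝ}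
    (ht : (p.N0 : ℝ) ≤ t - p.N0)
    (hround : ∀ v ∈ Icc (t - p.N0) (t + 1 + p.N0), ∀ o, p.comp o v = 0)
    (hη : p.roundErr j / p.N0 ≤ η) (hη1 : η ≤ 1 / 8) (hη2 : Real.exp (2 * rateInf j) * η ≤ 1)
    {x : ℝ} (hx : x ∈ Icc (0 : ℝ) 1) :
    |p.shape.drift (t + x)| ≤ 3 * η ∧ ‖(coeff H h j).P (t + x) - rateInf j • 1‖ ≤ η ∧
      ‖(coeff H h j).prop (t + x) t - Real.exp (rateInf j * x) • 1‖ ≤
        2 * Real.exp (3 * rateInf j) * η ∧
      ‖(coeff H h j).Phi t * (coeff H h j).Omega (t + x) -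
        (Real.exp (-rateInf j * x) / (2 * rateInf j + 2)) • 1‖ ≤
        (2 * Real.exp (3 * rateInf j) + 3) * η := by
  obtain ⟨l, u, hl, hu, hl0, hwin⟩ := h.round_barriers H j ht hround
  have hr0 : 0 ≤ rateInf j := rateInf_nonneg j
  have hN' : (0 : ℝ) < p.N0 := by linarith [p.one_le_N0]
  have hinv : 1 / (p.N0 : ℝ) ≤ η :=
    le_trans (by gcongr; exact p.one_le_roundErr hj) hη
  have hη0 : 0 ≤ η := le_trans (by positivity) hinv
  have hb : ∀ v ∈ Icc t (t + 1 + p.N0),
      rateInf j - η ≤ l v ∧ u v ≤ rateInf j + η ∧ |p.shape.drift v| ≤ 3 * η := fun v hv => by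
    obtain ⟨a, b⟩ := hwin v ⟨by linarith [hv.1], hv.2⟩
    obtain ⟨g1, -, -⟩ := h.late_small (t := v) (by linarith [hv.1])
    refine ⟨by linarith [abs_le.1 a], by linarith [abs_le.1 b], ?_⟩
    rw [p.shape_drift, abs_mul, abs_neg, abs_of_nonneg (h.rate_nonneg v)]
    norm_num
    exact g1.trans (le_trans (by gcongr; exact p.one_add_C_le_roundErr hj) hη)
  have hxw : t + x ∈ Icc t (t + 1 + p.N0) := ⟨by linarith [hx.1], by linarith [hx.2]⟩
  have : Nonempty (Fin ((j + 1) ^ 2)) := ⟨⟨0, by positivity⟩⟩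
  have hP : ∀ v ∈ Icc t (t + 1 + p.N0), ‖(coeff H h j).P v - rateInf j • 1‖ ≤ η := fun v hv =>
    Coeff.norm_P_sub_le _ hl hu hη0 (hb v hv).1 (hb v hv).2.1
  have hprop : ‖(coeff H h j).prop (t + x) t - Real.exp (rateInf j * x) • 1‖ ≤
      2 * Real.exp (3 * rateInf j) * η :=
    Coeff.norm_prop_sub_exp_le _ hr0 hx hη2 fun v hv => hP v ⟨hv.1, by linarith [hv.2, hx.2]⟩
  refine ⟨(hb _ hxw).2.2, hP _ hxw, hprop, ?_⟩
  refine Coeff.norm_Phi_mul_Omega_sub_le _ hr0 hη0 hx hprop
    (Coeff.norm_Phi_Omega_sub_le _ hl hu hr0 hη1 hN' hinv hl0 fun q hq => ?_)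
  exact hb q ⟨by linarith [hq.1, hx.1], by linarith [hq.2, hx.2]⟩

end Params

end

end Vale.Agent.P225.Sched

namespace Vale.Agent.P225.Control

open Real Filter Set Sched

noncomputable section

/-- For large `N` every slot of the schedule is round up to `ε` in the degrees `1, …, n`: the
fields `out`, `inn`, `exponent` and `drift` of `SlotNear`. -/
theorem exists_slot_round (H : Harm) (R : Recipe) (n : ℕ) {ε : ℝ} (hε : 0 < ε) :
    ∃ N₁ : ℕ, ∀ N, N₁ ≤ N → ∀ (h : (R.params N).Ok) {C : FP.Consts} (hC : Params.FlowOk C)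
      (m : ℕ),
      let F := Params.flow H h hC
      let t := (R.params N).slotPos m
      let c : ℝ := 64 / 49
      (∀ b : Fin n, ∀ x ∈ Set.Icc (0 : ℝ) 1,
        ‖(F.Φ (b.val + 1) t).comp (F.Ω (b.val + 1) (t + x)) -
          (Real.exp (-(rate c (b.val + 1)) * x) / (2 * rate c (b.val + 1) + 2)) •
            ContinuousLinearMap.id ℝ (V (b.val + 1))‖ ≤ ε) ∧
      (∀ a : Fin n, ∀ x ∈ Set.Icc (0 : ℝ) 1,
        ‖(F.Φ (a.val + 1) (t + x)).comp (F.Φi (a.val + 1) t) -
          Real.exp (rate c (a.val + 1) * x) • ContinuousLinearMap.id ℝ (V (a.val + 1))‖ ≤ ε) ∧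
      (∀ a : Fin n, ∀ x ∈ Set.Icc (0 : ℝ) 1,
        ‖F.Pj (a.val + 1) (t + x) -
          rate c (a.val + 1) • ContinuousLinearMap.id ℝ (V (a.val + 1))‖ ≤ ε) ∧
      ∀ x ∈ Set.Icc (0 : ℝ) 1, |(R.params N).shape.drift (t + x)| ≤ ε := by
  set M : ℝ := 2 * Real.exp (3 * rateInf (n + 1)) + 4
  have hmono : ∀ j, j ≤ n + 1 → rateInf j ≤ rateInf (n + 1) := fun j hj => by
    refine Barrier.root_mono 0 (mul_le_mul_of_nonneg_left ?_ (by norm_num))
    have : (j : ℝ) ≤ ((n + 1 : ℕ) : ℝ) := by exact_mod_cast hj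
    nlinarith [Nat.cast_nonneg (α := ℝ) j]
  set η := min (ε / M) (min (1 / 8) (Real.exp (-(2 * rateInf (n + 1)))))
  have hM : 0 < M := by positivity
  have hη : 0 < η := lt_min (div_pos hε hM) (lt_min (by norm_num) (exp_pos _))
  set S : ℝ := ∑ j ∈ Finset.Icc 1 (n + 1), (R.params 0).roundErr j
  obtain ⟨N₁, hN₁⟩ := exists_nat_ge (S / η)
  refine ⟨N₁, fun N hN h C hC m => ?_⟩
  intro F t c
  set p := R.params N with hp
  obtain ⟨k, hk, hks, -⟩ := p.slotPos_step (R.slotList_ne N) m
  obtain ⟨w1, w2⟩ := Params.slot_window (p := p) (R.slotGaps N) hks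
  rw [← hk] at w1 w2
  have key : ∀ j, 1 ≤ j → j ≤ n + 1 → ∀ x ∈ Set.Icc (0 : ℝ) 1,
      |p.shape.drift (t + x)| ≤ ε ∧
        ‖(Params.coeff H h j).P (t + x) - rateInf j • 1‖ ≤ ε ∧
        ‖(Params.coeff H h j).prop (t + x) t - Real.exp (rateInf j * x) • 1‖ ≤ ε ∧
        ‖(Params.coeff H h j).Phi t * (Params.coeff H h j).Omega (t + x) -
          (Real.exp (-rateInf j * x) / (2 * rateInf j + 2)) • 1‖ ≤ ε := by
    intro j h1 h2 x hx
    have hb : p.roundErr j / p.N0 ≤ η := by
      have e : p.roundErr j = (R.params 0).roundErr j := p.roundErr_congr rfl j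
      have hs : (R.params 0).roundErr j ≤ S := Finset.single_le_sum
        (fun i hi => (zero_le_one.trans
          ((R.params 0).one_le_roundErr (Finset.mem_Icc.1 hi).1)))
        (Finset.mem_Icc.2 ⟨h1, h2⟩)
      have hN0 : (N₁ : ℝ) ≤ p.N0 := by
        have : N₁ ≤ p.N0 := by
          show N₁ ≤ N + 1
          omega
        exact_mod_cast this
      rw [e, div_le_iff₀ (by linarith [p.one_le_N0])]
      have := (div_le_iff₀ hη).1 (hN₁.trans hN0)
      linarith
    have he : Real.exp (2 * rateInf j) * η ≤ 1 := by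
      refine (mul_le_mul (exp_le_exp.2 (mul_le_mul_of_nonneg_left (hmono j h2) (by norm_num)))
        ((min_le_right _ _).trans (min_le_right _ _)) hη.le (exp_pos _).le).trans ?_
      rw [← Real.exp_add, add_neg_cancel, Real.exp_zero]
    obtain ⟨a, b, c', d⟩ := h.slot_round H h1 w1 w2 hb
      ((min_le_right _ _).trans (min_le_left _ _)) he hx
    have hMj : 2 * Real.exp (3 * rateInf j) + 4 ≤ M := by
      have := exp_le_exp.2 (mul_le_mul_of_nonneg_left (hmono j h2) (show (0 : ℝ) ≤ 3 by norm_num))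
      simp only [M]; linarith
    have hME : M * η ≤ ε := by
      have := mul_le_mul_of_nonneg_left (min_le_left (ε / M) _ : η ≤ ε / M) hM.le
      rwa [mul_div_cancel₀ _ hM.ne'] at this
    have hpos := exp_pos (3 * rateInf j)
    exact ⟨a.trans (by nlinarith), b.trans (by nlinarith), c'.trans (by nlinarith),
      d.trans (by nlinarith)⟩
  simp only [c, Params.rate_eq_rateInf]
  exact ⟨fun b x hx => (key _ (by omega) (by omega) x hx).2.2.2,
    fun a x hx => (key _ (by omega) (by omega) x hx).2.2.1,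
    fun a x hx => (key _ (by omega) (by omega) x hx).2.1,
    fun x hx => (key 1 le_rfl (by omega) x hx).1⟩

end

end Vale.Agent.P225.Control
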