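import Vale.Agent.P225.Control.LieDefs

/-!
P225, control: one composite.

A composite has one copy of the finite word list per group `g` of equal rate differences, in
increasing `g`. Its slot `(h, w)` sees the entry `(a, b)` through the factor `exp (gap a b * τ h w)`
and, up to `ε`, through `conjWord w` of the limit jump. With the weights of
`exists_group_weight` the copies decouple, so every prescription on the selected subspaces `S a`
is reached exactly, at the crude cost `exp (Λ L)`, `L` the length of the composite.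
-/

namespace Vale.Agent.P225.Control

open scoped RealInnerProductSpace

-- needed to find the operator norm on maps between the product spaces below
set_option maxSynthPendingDepth 3

noncomputable section

/-- Weights which make copies arranged in increasing order decouple. -/
theorem exists_group_weight {W : Type*} [Fintype W] [Nonempty W] (G : Finset ℝ) (τ : ℝ → W → ℝ)
    {R L : ℝ} (hR : ∀ g ∈ G, |g| ≤ R) (hL : ∀ g ∈ G, ∀ w, |τ g w| ≤ L)
    (hord : ∀ g ∈ G, ∀ g' ∈ G, g < g' → ∀ w w', τ g w ≤ τ g' w') :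
    ∃ F : ℝ → ℝ, (∀ g ∈ G, ∀ h ∈ G, ∀ w, F g - F h + (g - h) * τ h w ≤ 0) ∧
      ∀ g ∈ G, |F g| ≤ 2 * R * L * (G.card : ℝ) := by
  classical
  induction G using Finset.induction_on_max with
  | empty => exact ⟨fun _ => 0, by simp, by simp⟩
  | @insert a s ha ih =>
    have hnot : a ∉ s := fun h => lt_irrefl a (ha a h)
    obtain ⟨F, hF, hFb⟩ := ih (fun g hg => hR g (Finset.mem_insert_of_mem hg))
      (fun g hg => hL g (Finset.mem_insert_of_mem hg))
      (fun g hg g' hg' => hord g (Finset.mem_insert_of_mem hg) g' (Finset.mem_insert_of_mem hg'))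
    have hRL : 0 ≤ 2 * R * L := by
      have h1 := hR a (Finset.mem_insert_self a s)
      have h2 := hL a (Finset.mem_insert_self a s) (Classical.arbitrary W)
      have := (abs_nonneg a).trans h1
      have := (abs_nonneg _).trans h2
      positivity
    by_cases hs : s = ∅
    · subst hs
      exact ⟨fun _ => 0, by simp, by simpa using hRL⟩
    have hne : s.Nonempty := Finset.nonempty_iff_ne_empty.2 hs
    set m := s.max' hne with hmdef
    have hm : m ∈ s := s.max'_mem hne
    obtain ⟨p₀, hp₀, hmax⟩ := Finset.exists_max_image (s ×ˢ (Finset.univ : Finset W))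
      (fun p => τ p.1 p.2) (hne.product Finset.univ_nonempty)
    set σ := τ p₀.1 p₀.2 with hσdef
    have hp : p₀.1 ∈ s := (Finset.mem_product.1 hp₀).1
    have hσle : ∀ h ∈ s, ∀ w, τ h w ≤ σ := fun h hh w =>
      hmax (h, w) (Finset.mem_product.2 ⟨hh, Finset.mem_univ w⟩)
    have hσge : ∀ w, σ ≤ τ a w := fun w => hord _ (Finset.mem_insert_of_mem hp) a
      (Finset.mem_insert_self a s) (ha _ hp) _ w
    have hσ : |σ| ≤ L := hL _ (Finset.mem_insert_of_mem hp) _
    have hma : m < a := ha m hm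
    refine ⟨Function.update F a (F m - (a - m) * σ), ?_, ?_⟩
    · intro g hg h hh w
      rcases Finset.mem_insert.1 hg with rfl | hgs <;>
        rcases Finset.mem_insert.1 hh with rfl | hhs
      · simp
      · rw [Function.update_self, Function.update_of_ne (ne_of_mem_of_not_mem hhs hnot)]
        nlinarith [hF m hm h hhs w, mul_nonneg (sub_nonneg.2 hma.le) (sub_nonneg.2 (hσle h hhs w))]
      · rw [Function.update_self, Function.update_of_ne (ne_of_mem_of_not_mem hgs hnot)]
        have hgm : g ≤ m := s.le_max' g hgs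
        nlinarith [hF g hgs m hm w, mul_nonneg (sub_nonneg.2 hgm) (sub_nonneg.2 (hσle m hm w)),
          mul_nonneg (sub_nonneg.2 (hgm.trans hma.le)) (sub_nonneg.2 (hσge w))]
      · rw [Function.update_of_ne (ne_of_mem_of_not_mem hgs hnot),
          Function.update_of_ne (ne_of_mem_of_not_mem hhs hnot)]
        exact hF g hgs h hhs w
    · intro g hg
      rw [Finset.card_insert_of_notMem hnot]
      push_cast
      rcases Finset.mem_insert.1 hg with rfl | hgs
      · rw [Function.update_self]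
        have h1 := hR g (Finset.mem_insert_self g s)
        have h2 := hR m (Finset.mem_insert_of_mem hm)
        have h3 : |(g - m) * σ| ≤ 2 * R * L := by
          rw [abs_mul]
          refine mul_le_mul ((abs_sub g m).trans (by linarith)) hσ (abs_nonneg _) ?_
          linarith [abs_nonneg g]
        linarith [abs_sub (F m) ((g - m) * σ), hFb m hm]
      · rw [Function.update_of_ne (ne_of_mem_of_not_mem hgs hnot)]
        linarith [hFb g hgs]

variable (H : Harm)

/-- Multiplication is additive in the multiplier. -/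
theorem mul_add_vec (d : ℕ) (w w' : V d) (i j : ℕ) :
    H.mul d (w + w') i j = H.mul d w i j + H.mul d w' i j := by
  refine ContinuousLinearMap.ext fun v => ext_inner_left ℝ fun u => ?_
  rw [add_apply, inner_add_right, H.mul_swap d (w + w'), H.mul_swap d w, H.mul_swap d w',
    inner_add_left]

/-- Multiplication is homogeneous in the multiplier. -/
theorem mul_smul_vec (d : ℕ) (r : ℝ) (w : V d) (i j : ℕ) :
    H.mul d (r • w) i j = r • H.mul d w i j := by
  refine ContinuousLinearMap.ext fun v => ext_inner_left ℝ fun u => ?_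
  rw [smul_apply, inner_smul_right, H.mul_swap d (r • w), H.mul_swap d w, real_inner_smul_left]

/-- The group kick as a linear function of the harmonic. -/
def groupKickₗ (c g : ℝ) (kind : Option (Fin 3)) (d n : ℕ) : V d →ₗ[ℝ] Block n where
  toFun w := groupKick H c g kind d w
  map_add' w w' := by
    funext a b
    simp only [groupKick, nkick, Pi.add_apply]
    by_cases h : gap c (a.val + 1) (b.val + 1) = g
    · simp only [if_pos h]
      cases kind <;>
        simp [kick, mul_add_vec, ContinuousLinearMap.comp_add, ContinuousLinearMap.add_comp,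
          Finset.sum_add_distrib] <;> module
    · simp [h]
  map_smul' r w := by
    funext a b
    simp only [groupKick, nkick, Pi.smul_apply, RingHom.id_apply]
    by_cases h : gap c (a.val + 1) (b.val + 1) = g
    · simp only [if_pos h]
      cases kind <;>
        simp [kick, mul_smul_vec, ContinuousLinearMap.smul_comp,
          ← Finset.smul_sum] <;> module
    · simp only [if_neg h]; module

/-- The groups: rate differences of the controlled degrees. -/
def groups (c : ℝ) (n : ℕ) : Finset ℝ :=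
  (Finset.univ : Finset (Fin n × Fin n)).image fun p => gap c (p.1.val + 1) (p.2.val + 1)

theorem gap_mem_groups (c : ℝ) (n : ℕ) (a b : Fin n) :
    gap c (a.val + 1) (b.val + 1) ∈ groups c n :=
  Finset.mem_image.2 ⟨(a, b), Finset.mem_univ _, rfl⟩

/-- Kinds and harmonics of the control pulses. -/
abbrev Spatial (n : ℕ) := Option (Fin 3) × (Σ d : Fin (2 * n + 1), Fin ((d.val + 1) ^ 2))

/-- One control pulse: a dual profile times a basis harmonic. -/
def ctrlPulse (c : ℝ) (n : ℕ) (h : groups c n) (i : Spatial n) : Pulse where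
  kind := i.1
  deg := i.2.1.val
  vec := EuclideanSpace.single i.2.2 (1 : ℝ)
  prof := profile (groups c n) (h : ℝ)
  smooth := profile_smooth _ _
  supp := profile_supp _ _

/-- All control pulses. -/
def ctrlPulses (c : ℝ) (n : ℕ) : Pulses where
  n := Fintype.card (groups c n × Spatial n)
  item l := ctrlPulse c n ((Fintype.equivFin _).symm l).1 ((Fintype.equivFin _).symm l).2

/-- The limit jump of a control pulse is minus a group kick. -/
theorem limitJump_ctrlPulse (c : ℝ) (n : ℕ) (h : groups c n) (i : Spatial n) :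
    limitJump H c (ctrlPulse c n h i) =
      -groupKick (n := n) H c h i.1 i.2.1.val (EuclideanSpace.single i.2.2 (1 : ℝ)) := by
  funext a b
  simp only [limitJump, groupKick, ctrlPulse, Pi.neg_apply,
    mom_profile _ h.2 (gap_mem_groups c n a b)]
  by_cases e : gap c (a.val + 1) (b.val + 1) = (h : ℝ)
  · simp only [if_pos e.symm, if_pos e]; module
  · simp only [if_neg (fun e' => e (Eq.symm e')), if_neg e]; module

variable (σ δ : ℕ → ℝ)

theorem conjWord_add {n : ℕ} (w : List (Fin 6 × ℝ)) (X Y : Block n) :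
    conjWord H σ δ w (X + Y) = conjWord H σ δ w X + conjWord H σ δ w Y := by
  funext a b; simp [conjWord, ContinuousLinearMap.comp_add, ContinuousLinearMap.add_comp]

theorem conjWord_smul {n : ℕ} (w : List (Fin 6 × ℝ)) (r : ℝ) (X : Block n) :
    conjWord H σ δ w (r • X) = r • conjWord H σ δ w X := by
  funext a b; simp [conjWord, ContinuousLinearMap.smul_comp]

/-- Conjugation by a word as a linear map. -/
def conjWordₗ (n : ℕ) (w : List (Fin 6 × ℝ)) : Block n →ₗ[ℝ] Block n where
  toFun := conjWord H σ δ w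
  map_add' := conjWord_add H σ δ w
  map_smul' := conjWord_smul H σ δ w

theorem conjWord_masked {n : ℕ} (w : List (Fin 6 × ℝ)) (X : Block n) {a b : Fin n}
    (h : X a b = 0) : conjWord H σ δ w X a b = 0 := by
  simp [conjWord, h]

variable {n : ℕ} (S : (a : Fin n) → Submodule ℝ (V (a.val + 1)))

/-- Prescriptions of one group. -/
abbrev GroupTarget (c : ℝ) (h : groups c n) :=
  (p : {p : Fin n × Fin n // gap c (p.1.val + 1) (p.2.val + 1) = (h : ℝ)}) →
    (S p.1.1 →L[ℝ] V (p.1.2.val + 1))

/-- The limit map of one copy. -/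
def limitMap (c : ℝ) (W : Finset (List (Fin 6 × ℝ))) (h : groups c n) :
    (W × Spatial n → ℝ) →L[ℝ] GroupTarget S c h :=
  ∑ i : W × Spatial n, (ContinuousLinearMap.proj (R := ℝ) i).smulRight
    (fun p : {p : Fin n × Fin n // gap c (p.1.val + 1) (p.2.val + 1) = (h : ℝ)} =>
      (conjWord H σ δ i.1 (limitJump H c (ctrlPulse c n h i.2)) p.1.1 p.1.2).comp (S p.1.1).subtypeL)

/-- At the limit every copy is surjective onto its group. -/
theorem limitMap_surjective {c : ℝ} (hC : Completion H c n)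
    (hS : ∀ a, ∀ v ∈ S a, ⟪H.zonal (a.val + 1), v⟫ = 0)
    {W : Finset (List (Fin 6 × ℝ))} (hinv : LeftInvariant H (wordSpan H σ δ c n))
    (hmem : ∀ g kind d w, d ≤ 2 * n → groupKick H c g kind d w ∈ wordSpan H σ δ c n)
    (hW : wordSpan H σ δ c n =
      Submodule.span ℝ {Y | ∃ w ∈ W, ∃ X ∈ kickSet H c n, conjWord H σ δ w X = Y})
    (h : groups c n) : Function.Surjective (limitMap H σ δ S c W h) := by
  classical
  intro y
  -- restriction to the group
  let π : Block n →ₗ[ℝ] GroupTarget S c h :=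
    { toFun := fun X p => (X p.1.1 p.1.2).comp (S p.1.1).subtypeL
      map_add' := fun X Y => by funext p; simp [ContinuousLinearMap.add_comp]
      map_smul' := fun r X => by funext p; simp [ContinuousLinearMap.smul_comp] }
  have hT : ∃ T : Block n, π T = y := by
    refine ⟨fun a b => if e : gap c (a.val + 1) (b.val + 1) = (h : ℝ) then
      (y ⟨(a, b), e⟩).comp (S a).orthogonalProjectionOnto else 0, ?_⟩
    funext p
    obtain ⟨⟨a, b⟩, e⟩ := p
    refine ContinuousLinearMap.ext fun v => ?_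
    simp [π, dif_pos e, Submodule.orthogonalProjectionOnto_mem_subspace_eq_self]
  obtain ⟨T, rfl⟩ := hT
  obtain ⟨X, hX, hXT⟩ := hC _ hinv hmem S hS T
  have hπ : π X = π T := by
    funext p
    exact ContinuousLinearMap.ext fun v => by simpa [π] using hXT p.1.1 p.1.2 v v.2
  rw [← hπ]
  rw [hW] at hX
  change π X ∈ LinearMap.range (limitMap H σ δ S c W h).toLinearMap
  refine (Submodule.span_le
    (p := Submodule.comap π (LinearMap.range (limitMap H σ δ S c W h).toLinearMap))).2 ?_ hX
  rintro Y ⟨w, hw, Z, ⟨g, kind, d, v, hd, rfl⟩, rfl⟩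
  rw [SetLike.mem_coe, Submodule.mem_comap]
  by_cases hg : g = (h : ℝ)
  · subst hg
    have hv : v = ∑ i, v i • EuclideanSpace.single i (1 : ℝ) := by
      ext k; simp [Pi.single_apply, Finset.sum_apply]
    rw [hv, show groupKick H c (h : ℝ) kind d (∑ i, v i • EuclideanSpace.single i (1 : ℝ)) =
      groupKickₗ H c (h : ℝ) kind d n (∑ i, v i • EuclideanSpace.single i (1 : ℝ)) from rfl, map_sum]
    simp only [map_smul]
    change π (conjWordₗ H σ δ n w _) ∈ _
    rw [map_sum, map_sum]
    refine Submodule.sum_mem _ fun i _ => ?_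
    rw [map_smul, map_smul]
    refine Submodule.smul_mem _ _ ⟨-Pi.single (⟨w, hw⟩, (kind, ⟨⟨d, by omega⟩, i⟩)) 1, ?_⟩
    funext p
    simp only [map_neg, ContinuousLinearMap.coe_coe, Pi.neg_apply, limitMap,
      FunLike.coe_sum, Finset.sum_apply, ContinuousLinearMap.smulRight_apply,
      ContinuousLinearMap.proj_apply]
    rw [Finset.sum_eq_single (⟨w, hw⟩, (kind, (⟨⟨d, by omega⟩, i⟩ :
      Σ d : Fin (2 * n + 1), Fin ((d.val + 1) ^ 2))))
      (fun b _ hb => by simp [Pi.single_eq_of_ne hb]) (by simp)]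
    simp [π, limitJump_ctrlPulse, conjWordₗ, conjWord, groupKickₗ]
  · have : π (conjWord H σ δ w (groupKick H c g kind d v)) = 0 := by
      funext p
      have hp := p.2
      simp [π, conjWord_masked H σ δ w (groupKick (n := n) H c g kind d v) (a := p.1.1) (b := p.1.2)
        (by simp [groupKick, hp, Ne.symm hg])]
    rw [this]
    exact Submodule.zero_mem _

/-- The block of copy `h` in group `g`, with the times taken at the slots. -/
def blockMap (c : ℝ) (W : Finset (List (Fin 6 × ℝ))) (τ : groups c n → W → ℝ)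
    (M : groups c n → W → Spatial n → Block n) (Γ : (a : Fin n) → S a →L[ℝ] V (a.val + 1))
    (g h : groups c n) : (W × Spatial n → ℝ) →L[ℝ] GroupTarget S c g :=
  ∑ q : W × Spatial n, (ContinuousLinearMap.proj (R := ℝ) q).smulRight
    (fun p : {p : Fin n × Fin n // gap c (p.1.val + 1) (p.2.val + 1) = (g : ℝ)} =>
      Real.exp (((g : ℝ) - h) * τ h q.1) • (M h q.1 q.2 p.1.1 p.1.2).comp (Γ p.1.1))

theorem blockMap_apply (c : ℝ) (W : Finset (List (Fin 6 × ℝ))) (τ : groups c n → W → ℝ)
    (M : groups c n → W → Spatial n → Block n) (Γ : (a : Fin n) → S a →L[ℝ] V (a.val + 1))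
    (g h : groups c n) (x : W × Spatial n → ℝ)
    (p : {p : Fin n × Fin n // gap c (p.1.val + 1) (p.2.val + 1) = (g : ℝ)}) :
    blockMap S c W τ M Γ g h x p = ∑ q : W × Spatial n,
      (x q * Real.exp (((g : ℝ) - h) * τ h q.1)) • (M h q.1 q.2 p.1.1 p.1.2).comp (Γ p.1.1) := by
  simp [blockMap, Finset.sum_apply, smul_smul]

theorem limitMap_apply (c : ℝ) (W : Finset (List (Fin 6 × ℝ))) (h : groups c n)
    (x : W × Spatial n → ℝ)
    (p : {p : Fin n × Fin n // gap c (p.1.val + 1) (p.2.val + 1) = (h : ℝ)}) :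
    limitMap H σ δ S c W h x p = ∑ q : W × Spatial n, x q •
      (conjWord H σ δ q.1 (limitJump H c (ctrlPulse c n h q.2)) p.1.1 p.1.2).comp
        (S p.1.1).subtypeL := by
  simp [limitMap, Finset.sum_apply]

/-- A block through a right inverse of its limit, seen in one entry. -/
theorem blockMap_sub (c : ℝ) (W : Finset (List (Fin 6 × ℝ))) (τ : groups c n → W → ℝ)
    (M : groups c n → W → Spatial n → Block n) (Γ : (a : Fin n) → S a →L[ℝ] V (a.val + 1))
    (g h : groups c n) (Rh : GroupTarget S c h →L[ℝ] (W × Spatial n → ℝ))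
    (hRh : ∀ y, limitMap H σ δ S c W h (Rh y) = y) (y : GroupTarget S c h)
    (p : {p : Fin n × Fin n // gap c (p.1.val + 1) (p.2.val + 1) = (g : ℝ)}) :
    ((blockMap S c W τ M Γ g h).comp Rh - (if e : h = g then
        e ▸ ContinuousLinearMap.id ℝ (GroupTarget S c h) else 0)) y p =
      ∑ q : W × Spatial n, (Rh y q * Real.exp (((g : ℝ) - h) * τ h q.1)) •
        ((M h q.1 q.2 p.1.1 p.1.2).comp (Γ p.1.1) -
          (conjWord H σ δ q.1 (limitJump H c (ctrlPulse c n h q.2)) p.1.1 p.1.2).comp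
            (S p.1.1).subtypeL) := by
  simp only [sub_apply, ContinuousLinearMap.comp_apply, Pi.sub_apply, blockMap_apply, smul_sub,
    Finset.sum_sub_distrib]
  congr 1
  by_cases e : h = g
  · subst e
    simp only [dif_pos, sub_self, zero_mul, Real.exp_zero, mul_one]
    rw [← limitMap_apply, hRh]
    rfl
  · rw [dif_neg e]
    symm
    refine Finset.sum_eq_zero fun q _ => ?_
    have hne : ¬((g : ℝ) = (h : ℝ)) := fun e' => e (Subtype.ext e'.symm)
    have h0 : limitJump H c (ctrlPulse c n h q.2) p.1.1 p.1.2 = 0 := by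
      rw [limitJump_ctrlPulse, Pi.neg_apply, Pi.neg_apply, groupKick, if_neg (by rw [p.2]; exact hne)]
      exact neg_zero
    rw [conjWord_masked H σ δ q.1 _ h0, ContinuousLinearMap.zero_comp, smul_zero]

/-- The weighted size of one block. -/
theorem blockMap_le (c : ℝ) (W : Finset (List (Fin 6 × ℝ))) (τ : groups c n → W → ℝ)
    (M : groups c n → W → Spatial n → Block n) (Γ : (a : Fin n) → S a →L[ℝ] V (a.val + 1))
    (g h : groups c n) (Rh : GroupTarget S c h →L[ℝ] (W × Spatial n → ℝ))
    (hRh : ∀ y, limitMap H σ δ S c W h (Rh y) = y) {κ E η : ℝ} (hκ : ‖Rh‖ ≤ κ) (hE : 0 < E)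
    (hexp : ∀ w, E * Real.exp (((g : ℝ) - h) * τ h w) ≤ 1)
    (hnear : ∀ (q : W × Spatial n) (a b : Fin n), ‖(M h q.1 q.2 a b).comp (Γ a) -
      (conjWord H σ δ q.1 (limitJump H c (ctrlPulse c n h q.2)) a b).comp (S a).subtypeL‖ ≤ η)
    (hη : 0 ≤ η) :
    E * ‖(blockMap S c W τ M Γ g h).comp Rh - (if e : h = g then
        e ▸ ContinuousLinearMap.id ℝ (GroupTarget S c h) else 0)‖ ≤
      Fintype.card (W × Spatial n) * κ * η := by
  have hκ0 : 0 ≤ κ := (norm_nonneg _).trans hκ
  rw [← le_div_iff₀' hE]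
  refine ContinuousLinearMap.opNorm_le_bound _ (by positivity) fun y => ?_
  refine (pi_norm_le_iff_of_nonneg (by positivity)).2 fun p => ?_
  rw [blockMap_sub H σ δ S c W τ M Γ g h Rh hRh y p]
  refine (norm_sum_le (E := S p.1.1 →L[ℝ] V (p.1.2.val + 1)) _ _).trans ?_
  refine (Finset.sum_le_card_nsmul _ _ (κ * η / E * ‖y‖) fun q _ => ?_).trans
    (le_of_eq (by rw [nsmul_eq_mul, Finset.card_univ]; ring))
  have hR1 : |Rh y q| ≤ κ * ‖y‖ := by
    refine (le_of_eq_of_le (Real.norm_eq_abs _).symm (norm_le_pi_norm (Rh y) q)).trans ?_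
    exact (Rh.le_opNorm y).trans (mul_le_mul_of_nonneg_right hκ (norm_nonneg _))
  have hexp' : Real.exp (((g : ℝ) - h) * τ h q.1) ≤ 1 / E := by
    rw [le_div_iff₀' hE]; exact hexp q.1
  rw [norm_smul, Real.norm_eq_abs, abs_mul, Real.abs_exp]
  calc |Rh y q| * Real.exp (((g : ℝ) - h) * τ h q.1) * _
      ≤ κ * ‖y‖ * (1 / E) * η :=
        mul_le_mul (mul_le_mul hR1 hexp' (Real.exp_nonneg _) (by positivity))
          (hnear q p.1.1 p.1.2) (norm_nonneg _) (by positivity)
    _ = _ := by ring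

/-- The prescription split into groups. -/
def toGroups (c : ℝ) :
    ((a b : Fin n) → S a →L[ℝ] V (b.val + 1)) →ₗ[ℝ] (∀ g, GroupTarget S c g) where
  toFun T _ p := T p.1.1 p.1.2
  map_add' _ _ := rfl
  map_smul' _ _ := rfl

/-- The entries of the blocks, with the times measured from the start of the composite. -/
theorem sum_blockMap (c : ℝ) (W : Finset (List (Fin 6 × ℝ))) (τ : groups c n → W → ℝ)
    (M : groups c n → W → Spatial n → Block n) (Γ : (a : Fin n) → S a →L[ℝ] V (a.val + 1))
    (x : groups c n → W × Spatial n → ℝ) (a b : Fin n) :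
    ∑ h, blockMap S c W τ M Γ ⟨_, gap_mem_groups c n a b⟩ h (x h) ⟨(a, b), rfl⟩ =
      ∑ h : groups c n, ∑ w : W, ∑ i : Spatial n, (Real.exp (-((h : ℝ) * τ h w)) * x h (w, i) *
        Real.exp (gap c (a.val + 1) (b.val + 1) * τ h w)) • (M h w i a b).comp (Γ a) := by
  refine Finset.sum_congr rfl fun h _ => ?_
  rw [blockMap_apply, Fintype.sum_prod_type]
  refine Finset.sum_congr rfl fun w _ => Finset.sum_congr rfl fun i _ => ?_
  congr 1
  rw [mul_comm (Real.exp _) (x h (w, i)), mul_assoc, ← Real.exp_add]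
  congr 2
  ring

/-- From weighted right inverses to a composite. -/
theorem exists_composite (c : ℝ) (W : Finset (List (Fin 6 × ℝ))) (τ : groups c n → W → ℝ)
    (M : groups c n → W → Spatial n → Block n) (Γ : (a : Fin n) → S a →L[ℝ] V (a.val + 1))
    (Rl : ∀ h, GroupTarget S c h →L[ℝ] (W × Spatial n → ℝ)) (F : ℝ → ℝ) {κ : ℝ}
    (hκ : ∀ h, ‖Rl h‖ ≤ κ) (Rg L Fm : ℝ) (hRg : ∀ g : groups c n, |(g : ℝ)| ≤ Rg)
    (hτ : ∀ h w, |τ h w| ≤ L) (hFb : ∀ g : groups c n, |F g| ≤ Fm)
    (hsum : ∀ g : groups c n, ∑ h : groups c n, Real.exp (F g) / Real.exp (F h) *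
      ‖(blockMap S c W τ M Γ g h).comp (Rl h) - (if e : h = g then
        e ▸ ContinuousLinearMap.id ℝ (GroupTarget S c h) else 0)‖ ≤ 1 / 2) :
    ∃ R : ((a b : Fin n) → S a →L[ℝ] V (b.val + 1)) →ₗ[ℝ]
        (groups c n → W → Spatial n → ℝ),
      (∀ T a b, ∑ h, ∑ w, ∑ i, (R T h w i * Real.exp (gap c (a.val + 1) (b.val + 1) * τ h w)) •
          (M h w i a b).comp (Γ a) = T a b) ∧
      ∀ T (r : ℝ), 0 ≤ r → (∀ a b, ‖T a b‖ ≤ r) → ∀ h w i,
        |R T h w i| ≤ 2 * κ * (Real.exp (Rg * L) * Real.exp (2 * Fm)) * r := by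
  obtain ⟨Sv, hSv, hSb⟩ := exists_weighted_rightInverse
    (E := fun _ : groups c n => W × Spatial n → ℝ) (F := fun g => GroupTarget S c g)
    (fun g h => blockMap S c W τ M Γ g h) Rl (fun g => Real.exp (F g))
    (fun g => Real.exp_pos _) hsum
  refine ⟨{ toFun := fun T h w i => Real.exp (-((h : ℝ) * τ h w)) * Sv (toGroups S c T) h (w, i)
            map_add' := fun T T' => by funext h w i; simp [mul_add]
            map_smul' := fun r T => by funext h w i; simp; ring }, ?_, ?_⟩
  · intro T a b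
    refine (sum_blockMap S c W τ M Γ (Sv (toGroups S c T)) a b).symm.trans ?_
    have := congrFun (hSv (toGroups S c T) ⟨_, gap_mem_groups c n a b⟩) ⟨(a, b), rfl⟩
    rw [Finset.sum_apply] at this
    exact this
  · intro T r hr hT h w i
    have hκ0 : 0 ≤ κ := (norm_nonneg _).trans (hκ h)
    have hc : ∀ g : groups c n, Real.exp (F g) * ‖toGroups S c T g‖ ≤ Real.exp Fm * r := fun g => by
      refine mul_le_mul (Real.exp_le_exp.2 ((le_abs_self _).trans (hFb g))) ?_ (norm_nonneg _)
        (Real.exp_nonneg _)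
      exact (pi_norm_le_iff_of_nonneg hr).2 fun p => hT p.1.1 p.1.2
    have h1 := hSb (toGroups S c T) _ (by positivity) hc h
    have hx : ‖Sv (toGroups S c T) h‖ ≤ Real.exp (2 * Fm) * (2 * κ * r) := by
      have h2 : ‖Sv (toGroups S c T) h‖ ≤ Real.exp (-F h) * (2 * ‖Rl h‖ * (Real.exp Fm * r)) := by
        rw [Real.exp_neg, inv_mul_eq_div, le_div_iff₀' (Real.exp_pos _)]
        exact h1
      refine h2.trans ?_
      calc Real.exp (-F h) * (2 * ‖Rl h‖ * (Real.exp Fm * r))
          ≤ Real.exp Fm * (2 * κ * (Real.exp Fm * r)) := by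
            gcongr
            · exact (neg_le_abs _).trans (hFb h)
            · exact hκ h
        _ = _ := by rw [two_mul Fm, Real.exp_add]; ring
    simp only [LinearMap.coe_mk, AddHom.coe_mk]
    rw [abs_mul, Real.abs_exp]
    calc Real.exp (-((h : ℝ) * τ h w)) * |Sv (toGroups S c T) h (w, i)|
        ≤ Real.exp (Rg * L) * (Real.exp (2 * Fm) * (2 * κ * r)) := by
          refine mul_le_mul (Real.exp_le_exp.2 ((neg_le_abs _).trans ?_))
            ((le_of_eq_of_le (Real.norm_eq_abs _).symm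
              (norm_le_pi_norm (Sv (toGroups S c T) h) (w, i))).trans hx) (abs_nonneg _)
            (Real.exp_nonneg _)
          rw [abs_mul]
          exact mul_le_mul (hRg h) (hτ h w) (abs_nonneg _) ((abs_nonneg _).trans (hRg h))
      _ = 2 * κ * (Real.exp (Rg * L) * Real.exp (2 * Fm)) * r := by ring

/-- One composite reaches every prescription on the selected subspaces, exactly. -/
theorem composite_rightInverse {c : ℝ} (hσ : ∀ a, a < n → σ (a + 1) ≠ 0)
    (hC : Completion H c n) (hL : WordsLeftInvariant H σ δ c n)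
    (hS : ∀ a, ∀ v ∈ S a, ⟪H.zonal (a.val + 1), v⟫ = 0) :
    ∃ W : Finset (List (Fin 6 × ℝ)), [] ∈ W ∧ ∃ ε₀ > (0 : ℝ), ∃ K Λ : ℝ, 0 ≤ K ∧ 0 ≤ Λ ∧
      ∀ (τ : groups c n → W → ℝ) (L : ℝ) (M : groups c n → W → Spatial n → Block n)
        (Γ : (a : Fin n) → S a →L[ℝ] V (a.val + 1)),
        (∀ h w, |τ h w| ≤ L) →
        (∀ h h' : groups c n, (h : ℝ) < (h' : ℝ) → ∀ w w', τ h w ≤ τ h' w') →
        (∀ h w i a b,
          ‖M h w i a b - conjWord H σ δ w (limitJump H c (ctrlPulse c n h i)) a b‖ ≤ ε₀) →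
        (∀ a, ‖Γ a - (S a).subtypeL‖ ≤ ε₀) →
        ∃ R : ((a b : Fin n) → S a →L[ℝ] V (b.val + 1)) →ₗ[ℝ]
            (groups c n → W → Spatial n → ℝ),
          (∀ T a b, ∑ h, ∑ w, ∑ i, (R T h w i * Real.exp (gap c (a.val + 1) (b.val + 1) * τ h w)) •
              (M h w i a b).comp (Γ a) = T a b) ∧
          ∀ T (r : ℝ), 0 ≤ r → (∀ a b, ‖T a b‖ ≤ r) → ∀ h w i,
            |R T h w i| ≤ K * Real.exp (Λ * L) * r := by
  obtain ⟨hinv, hmem, W, hnil, hW⟩ := hL hσ
  refine ⟨W, hnil, ?_⟩
  have : Nonempty W := ⟨⟨[], hnil⟩⟩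
  choose Rl hRl using fun h : groups c n =>
    exists_rightInverse (E := W × Spatial n → ℝ) (F := GroupTarget S c h)
      (limitMap H σ δ S c W h) (limitMap_surjective H σ δ S hC hS hinv hmem hW h)
  obtain ⟨B, hB0, hB⟩ : ∃ B : ℝ, 0 ≤ B ∧ ∀ (h : groups c n) (q : W × Spatial n) (a b : Fin n),
      ‖conjWord H σ δ (q.1 : List (Fin 6 × ℝ)) (limitJump H c (ctrlPulse c n h q.2)) a b‖ ≤ B := by
    refine ⟨∑ h, ∑ q : W × Spatial n, ∑ a : Fin n, ∑ b : Fin n,
        ‖conjWord H σ δ (q.1 : List (Fin 6 × ℝ)) (limitJump H c (ctrlPulse c n h q.2)) a b‖,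
      by positivity, fun h q a b => ?_⟩
    refine le_trans ?_ (Finset.single_le_sum (fun h _ => by positivity) (Finset.mem_univ h))
    refine le_trans ?_ (Finset.single_le_sum (fun q _ => by positivity) (Finset.mem_univ q))
    refine le_trans ?_ (Finset.single_le_sum (fun a _ => by positivity) (Finset.mem_univ a))
    exact Finset.single_le_sum (f := fun b =>
      ‖conjWord H σ δ (q.1 : List (Fin 6 × ℝ)) (limitJump H c (ctrlPulse c n h q.2)) a b‖)
      (fun b _ => norm_nonneg _) (Finset.mem_univ b)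
  obtain ⟨κ, hκ0, hκ⟩ : ∃ κ : ℝ, 0 ≤ κ ∧ ∀ h, ‖Rl h‖ ≤ κ :=
    ⟨∑ h : groups c n, ‖Rl h‖, Finset.sum_nonneg fun q _ => norm_nonneg (Rl q),
      fun h => Finset.single_le_sum (fun q _ => norm_nonneg (Rl q)) (Finset.mem_univ h)⟩
  obtain ⟨Rg, hRg0, hRg⟩ : ∃ Rg : ℝ, 0 ≤ Rg ∧ ∀ g ∈ groups c n, |g| ≤ Rg :=
    ⟨∑ g ∈ groups c n, |g|, Finset.sum_nonneg fun g _ => abs_nonneg g,
      fun g hg => Finset.single_le_sum (f := fun g : ℝ => |g|) (fun g _ => abs_nonneg g) hg⟩
  obtain ⟨N, hN⟩ : ∃ N : ℝ, ((groups c n).card : ℝ) = N := ⟨_, rfl⟩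
  obtain ⟨I, hI⟩ : ∃ I : ℝ, ((Fintype.card (W × Spatial n) : ℕ) : ℝ) = I := ⟨_, rfl⟩
  have hI0 : 0 ≤ I := hI ▸ Nat.cast_nonneg _
  have hN0 : 0 ≤ N := hN ▸ Nat.cast_nonneg _
  obtain ⟨ε₀, hε0, hε1, hε2⟩ : ∃ ε : ℝ, 0 < ε ∧ ε ≤ 1 ∧
      ε ≤ 1 / (2 * (N * (I * κ * (2 + B)) + 1)) :=
    ⟨min 1 (1 / (2 * (N * (I * κ * (2 + B)) + 1))), lt_min one_pos (by positivity),
      min_le_left _ _, min_le_right _ _⟩
  refine ⟨ε₀, hε0, 2 * κ, 4 * Rg * N + Rg, by positivity, by positivity,
    fun τ L M Γ hτ hord hM hΓ => ?_⟩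
  let τ' : ℝ → W → ℝ := fun g w => if hg : g ∈ groups c n then τ ⟨g, hg⟩ w else 0
  obtain ⟨F, hF, hFb⟩ := exists_group_weight (groups c n) τ' hRg
    (fun g hg w => by simp only [τ', dif_pos hg]; exact hτ _ _)
    (fun g hg g' hg' hlt w w' => by
      simp only [τ', dif_pos hg, dif_pos hg']; exact hord _ _ hlt w w')
  have hnear : ∀ (h : groups c n) (q : W × Spatial n) (a b : Fin n),
      ‖(M h q.1 q.2 a b).comp (Γ a) -
        (conjWord H σ δ q.1 (limitJump H c (ctrlPulse c n h q.2)) a b).comp (S a).subtypeL‖ ≤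
        (2 + B) * ε₀ := by
    intro h q a b
    set X := conjWord H σ δ q.1 (limitJump H c (ctrlPulse c n h q.2)) a b with hX
    have hXB : ‖X‖ ≤ B := hB h q a b
    have e : (M h q.1 q.2 a b).comp (Γ a) - X.comp (S a).subtypeL =
        (M h q.1 q.2 a b - X).comp (Γ a) + X.comp (Γ a - (S a).subtypeL) := by
      simp [ContinuousLinearMap.sub_comp, ContinuousLinearMap.comp_sub]
    have hΓn : ‖Γ a‖ ≤ 2 := by
      have h1 := norm_le_norm_add_norm_sub' (Γ a) (S a).subtypeL
      have h2 : ‖(S a).subtypeL‖ ≤ 1 := Submodule.norm_subtypeL_le _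
      linarith [hΓ a]
    rw [e]
    refine (norm_add_le _ _).trans ?_
    calc _ ≤ ε₀ * 2 + B * ε₀ := add_le_add
          ((ContinuousLinearMap.opNorm_comp_le _ _).trans
            (mul_le_mul (hM h q.1 q.2 a b) hΓn (norm_nonneg _) hε0.le))
          ((ContinuousLinearMap.opNorm_comp_le _ _).trans
            (mul_le_mul hXB (hΓ a) (norm_nonneg _) hB0))
      _ = (2 + B) * ε₀ := by ring
  have hblock : ∀ g h : groups c n, Real.exp (F g) / Real.exp (F h) *
      ‖(blockMap S c W τ M Γ g h).comp (Rl h) - (if e : h = g then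
        e ▸ ContinuousLinearMap.id ℝ (GroupTarget S c h) else 0)‖ ≤ I * κ * ((2 + B) * ε₀) := by
    intro g h
    refine (blockMap_le H σ δ S c W τ M Γ g h (Rl h) (hRl h) (hκ h) (by positivity) (fun w => ?_)
      (fun q a b => hnear h q a b) (by positivity)).trans (le_of_eq (by rw [hI]))
    rw [← Real.exp_sub, ← Real.exp_add, Real.exp_le_one_iff]
    have := hF g g.2 h h.2 w
    simp only [τ', dif_pos h.2] at this
    linarith
  obtain ⟨R, hR1, hR2⟩ := exists_composite S c W τ M Γ Rl F hκ Rg L (2 * Rg * L * N)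
    (fun g => hRg g g.2) hτ (fun g => hN ▸ hFb g g.2) (fun g => by
      refine (Finset.sum_le_sum fun h _ => hblock g h).trans ?_
      rw [Finset.sum_const, Finset.card_univ, Fintype.card_coe, nsmul_eq_mul]
      rw [le_div_iff₀ (by positivity)] at hε2
      rw [hN]
      linarith)
  refine ⟨R, hR1, fun T r hr hT h w i => (hR2 T r hr hT h w i).trans (le_of_eq ?_)⟩
  rw [show (4 * Rg * N + Rg) * L = Rg * L + 2 * (2 * Rg * L * N) by ring, Real.exp_add]

end

end Vale.Agent.P225.Control
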