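import Vale.Agent.P225.Control.BridgeJump
import Vale.Agent.P225.Control.Composite

/-!
P225, control: from slots near their limits to exact right inverses of `FP.jump`.

The composite `[a₀, b₀]` consists of the slots `idx h w`; the frozen value `X` reads, at `a₀`,
`Φ X = Γ ∘ Cm` with `Γ` near the inclusions of the selected subspaces and `Cm` invertible on the
parameter space. Then every `Z` is the image of an amplitude family supported in the composite,
of size `K exp (Λ L)` times the relative size of `Z`.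
-/

namespace Vale.Agent.P225.Control

open Set
open scoped RealInnerProductSpace

noncomputable section

-- needed to find the operator norm on maps between products
set_option maxSynthPendingDepth 3

variable {n : ℕ}

/-- Amplitudes per copy, word and harmonic, spread over the slots. -/
def spread (c : ℝ) (n : ℕ) {W : Finset (List (Fin 6 × ℝ))} (idx : groups c n → W → ℕ) :
    (groups c n → W → Spatial n → ℝ) →ₗ[ℝ] (ℕ → Fin (ctrlPulses c n).n → ℝ) where
  toFun r k l := ∑ w : W, if idx ((Fintype.equivFin (groups c n × Spatial n)).symm l).1 w = k then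
    r ((Fintype.equivFin (groups c n × Spatial n)).symm l).1 w
      ((Fintype.equivFin (groups c n × Spatial n)).symm l).2 else 0
  map_add' r r' := by
    funext k l
    simp only [Pi.add_apply, ← Finset.sum_add_distrib]
    exact Finset.sum_congr rfl fun w _ => by split_ifs <;> simp
  map_smul' t r := by
    funext k l
    simp only [Pi.smul_apply, smul_eq_mul, RingHom.id_apply, Finset.mul_sum]
    exact Finset.sum_congr rfl fun w _ => by split_ifs <;> simp

theorem spread_supp {c : ℝ} {W : Finset (List (Fin 6 × ℝ))} (idx : groups c n → W → ℕ) {m₀ m₁ : ℕ}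
    (hidx : ∀ h w, m₀ ≤ idx h w ∧ idx h w < m₁) (r : groups c n → W → Spatial n → ℝ) (k : ℕ)
    (l : Fin (ctrlPulses c n).n) (hk : k < m₀ ∨ m₁ ≤ k) : spread c n idx r k l = 0 := by
  refine Finset.sum_eq_zero fun w _ => if_neg fun e => ?_
  obtain ⟨h1, h2⟩ := hidx ((Fintype.equivFin (groups c n × Spatial n)).symm l).1 w
  omega

theorem abs_spread_le {c : ℝ} {W : Finset (List (Fin 6 × ℝ))} (idx : groups c n → W → ℕ)
    (r : groups c n → W → Spatial n → ℝ) {B : ℝ} (hB0 : 0 ≤ B) (hB : ∀ h w i, |r h w i| ≤ B)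
    (k : ℕ) (l : Fin (ctrlPulses c n).n) : |spread c n idx r k l| ≤ Fintype.card W * B := by
  refine (Finset.abs_sum_le_sum_abs _ _).trans ?_
  refine (Finset.sum_le_card_nsmul _ _ B fun w _ => ?_).trans
    (le_of_eq (by rw [nsmul_eq_mul, Finset.card_univ]))
  split_ifs
  · exact hB _ _ _
  · simpa using hB0

theorem sum_spread {c : ℝ} {W : Finset (List (Fin 6 × ℝ))} (idx : groups c n → W → ℕ) {m₀ m₁ : ℕ}
    (hidx : ∀ h w, m₀ ≤ idx h w ∧ idx h w < m₁) (r : groups c n → W → Spatial n → ℝ)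
    {M : Type*} [AddCommGroup M] [Module ℝ M] (f : ℕ → Pulse → M) :
    ∑ k ∈ Finset.Ico m₀ m₁, ∑ l, spread c n idx r k l • f k ((ctrlPulses c n).item l) =
      ∑ h : groups c n, ∑ w : W, ∑ i : Spatial n,
        r h w i • f (idx h w) (ctrlPulse c n h i) := by
  rw [Finset.sum_comm]
  have e : ∀ l, ∑ k ∈ Finset.Ico m₀ m₁, spread c n idx r k l • f k ((ctrlPulses c n).item l) =
      ∑ w : W, r ((Fintype.equivFin (groups c n × Spatial n)).symm l).1 w
        ((Fintype.equivFin (groups c n × Spatial n)).symm l).2 •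
          f (idx ((Fintype.equivFin (groups c n × Spatial n)).symm l).1 w)
            ((ctrlPulses c n).item l) := by
    intro l
    simp only [spread, LinearMap.coe_mk, AddHom.coe_mk, Finset.sum_smul]
    rw [Finset.sum_comm]
    refine Finset.sum_congr rfl fun w _ => ?_
    simp only [ite_smul, zero_smul]
    rw [Finset.sum_ite_eq, if_pos (Finset.mem_Ico.2 (hidx _ w))]
  simp only [e]
  refine ((Fintype.equivFin (groups c n × Spatial n)).sum_comp _).symm.trans ?_
  simp only [ctrlPulses, Equiv.symm_apply_apply]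
  rw [Fintype.sum_prod_type]
  refine Finset.sum_congr rfl fun h _ => ?_
  rw [Finset.sum_comm]

/-- Slots near their limits give exact right inverses of the jump. -/
theorem composite_jump (H : Harm) (σ δ : ℕ → ℝ) {c : ℝ} (hc : 0 ≤ c)
    (hσ : ∀ a, a < n → σ (a + 1) ≠ 0) (hC : Completion H c n)
    (hL : WordsLeftInvariant H σ δ c n) (S : (a : Fin n) → Submodule ℝ (V (a.val + 1)))
    (hS : ∀ a, ∀ v ∈ S a, ⟪H.zonal (a.val + 1), v⟫ = 0) :
    ∃ W : Finset (List (Fin 6 × ℝ)), [] ∈ W ∧ ∃ ε₀ > (0 : ℝ), ∃ K Λ : ℝ, 0 ≤ K ∧ 0 ≤ Λ ∧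
      ∀ {sh : Shape} {C : FP.Consts} (F : FP.Flow H sh C), C.J = n + 1 →
      ∀ {d d' : ℕ} (pos : ℕ → ℝ) (m₀ m₁ : ℕ) (a₀ b₀ : ℝ) (idx : groups c n → W → ℕ)
        (τ : groups c n → W → ℝ) (L : ℝ) (X : (j : ℕ) → FP.EE d →L[ℝ] V j)
        (Γ : (a : Fin n) → S a →L[ℝ] V (a.val + 1)) (Cm : (a : Fin n) → FP.EE d →L[ℝ] S a)
        (Cinv : (a : Fin n) → S a →L[ℝ] FP.EE d) (Nm : FP.EE d →L[ℝ] FP.EE d') (KN : ℝ),
        (∀ h w, m₀ ≤ idx h w ∧ idx h w < m₁) →
        (∀ k, m₀ ≤ k → k < m₁ → a₀ ≤ pos k ∧ pos k + 1 ≤ b₀) →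
        (∀ h w, |τ h w| ≤ L) →
        (∀ h h' : groups c n, (h : ℝ) < (h' : ℝ) → ∀ w w', τ h w ≤ τ h' w') →
        (∀ h w, SlotNear F σ δ c n a₀ (pos (idx h w)) (τ h w) ε₀ w) →
        (∀ j, j = 0 ∨ C.J ≤ j → X j = 0) →
        (∀ a, (F.Φ (a.val + 1) a₀).comp (X (a.val + 1)) = (Γ a).comp (Cm a)) →
        (∀ a, ‖Γ a - (S a).subtypeL‖ ≤ ε₀) →
        (∑ a, (Cinv a).comp (Cm a) = ContinuousLinearMap.id ℝ (FP.EE d)) →
        0 ≤ KN → (∀ a z, ‖Nm (Cinv a z)‖ ≤ KN * ‖z‖) →
        ∃ R : ((j : ℕ) → FP.EE d →L[ℝ] V j) →ₗ[ℝ] (ℕ → Fin (ctrlPulses c n).n → ℝ),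
          (∀ Z k l, (k < m₀ ∨ m₁ ≤ k) → R Z k l = 0) ∧
          (∀ Z j, 1 ≤ j → j < C.J → (F.Φ j a₀).comp
            (FP.jump F pos (R Z) a₀ b₀ (FP.frozen F X) (FP.frozenD F X) j) = Z j) ∧
          ∀ Z (r : ℕ → ℝ), (∀ j, j < C.J → 0 ≤ r j) →
            (∀ j, j < C.J → ∀ x, ‖Z j x‖ ≤ r j * ‖Nm x‖) →
            ∀ k l, |R Z k l| ≤ K * KN * Real.exp (Λ * L) * ∑ j ∈ Finset.range C.J, r j := by
  obtain ⟨W, hnil, ε₁, hε₁, K₁, Λ, hK₁, hΛ, hR⟩ := composite_rightInverse H σ δ S hσ hC hL hS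
  choose Ks hKs0 hKs using fun q : W × (groups c n × Spatial n) × Fin n × Fin n =>
    slot_matrix_near H σ δ hc (ctrlPulse c n q.2.1.1 q.2.1.2) q.2.2.1 q.2.2.2 q.1
  obtain ⟨Kb, hKb0, hKb⟩ : ∃ Kb : ℝ, 0 ≤ Kb ∧ ∀ q, Ks q ≤ Kb :=
    ⟨∑ q, Ks q, Finset.sum_nonneg fun q _ => hKs0 q,
      fun q => Finset.single_le_sum (fun q _ => hKs0 q) (Finset.mem_univ q)⟩
  refine ⟨W, hnil, min 1 (ε₁ / (Kb + 1)), lt_min one_pos (by positivity),
    Fintype.card W * K₁, Λ, by positivity, hΛ, ?_⟩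
  intro sh C F hJ d d' pos m₀ m₁ a₀ b₀ idx τ L X Γ Cm Cinv Nm KN hidx hmem hτ hord hslot hX hΦX hΓ
    hCC hKN hNm
  have hεK : Kb * min 1 (ε₁ / (Kb + 1)) ≤ ε₁ ∧ min 1 (ε₁ / (Kb + 1)) ≤ ε₁ := by
    have h2 : min 1 (ε₁ / (Kb + 1)) * (Kb + 1) ≤ ε₁ :=
      (le_div_iff₀ (by positivity)).1 (min_le_right _ _)
    have h3 : 0 < min 1 (ε₁ / (Kb + 1)) := lt_min one_pos (by positivity)
    constructor <;> nlinarith
  let M : groups c n → W → Spatial n → Block n := fun h w i a b =>
    Real.exp (-(gap c (a.val + 1) (b.val + 1) * τ h w)) • ((F.Φ (b.val + 1) a₀).comp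
      ((-slotInt F (ctrlPulse c n h i) (pos (idx h w)) (a.val + 1) (b.val + 1)).comp
        (F.Φi (a.val + 1) a₀)))
  obtain ⟨R₀, hR₀, hR₀b⟩ := hR τ L M Γ hτ hord (fun h w i a b => by
      refine (hKs (w, (h, i), a, b) F (by omega) a₀ _ _ _ (min_le_left _ _) (hslot h w)).trans ?_
      exact (mul_le_mul_of_nonneg_right (hKb _) (le_min zero_le_one (by positivity))).trans hεK.1)
    (fun a => (hΓ a).trans hεK.2)
  let toT : ((j : ℕ) → FP.EE d →L[ℝ] V j) →ₗ[ℝ] ((a b : Fin n) → S a →L[ℝ] V (b.val + 1)) :=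
    { toFun := fun Z a b => (-Z (b.val + 1)).comp (Cinv a)
      map_add' := fun Z Z' => by
        funext a b; ext z; simp; abel
      map_smul' := fun t Z => by
        funext a b; ext z; simp }
  refine ⟨(spread c n idx).comp (R₀.comp toT), fun Z k l hk => spread_supp idx hidx _ k l hk, ?_, ?_⟩
  · intro Z j h1 h2
    obtain ⟨b, rfl⟩ : ∃ b : Fin n, j = b.val + 1 := ⟨⟨j - 1, by omega⟩, by simp; omega⟩
    simp only [LinearMap.comp_apply]
    set r := R₀ (toT Z)
    rw [jump_frozen F hJ pos (spread c n idx r) (m₀ := m₀) (m₁ := m₁)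
      (fun k l hk => spread_supp idx hidx r k l hk) hmem X hX b]
    rw [sum_spread idx hidx r fun k q => ∑ a : Fin n,
      (slotInt F q (pos k) (a.val + 1) (b.val + 1)).comp (X (a.val + 1))]
    have hXa : ∀ a : Fin n, (F.Φi (a.val + 1) a₀).comp ((Γ a).comp (Cm a)) = X (a.val + 1) :=
      fun a => by rw [← hΦX a, ← ContinuousLinearMap.comp_assoc, F.Φi_Φ, ContinuousLinearMap.id_comp]
    have key : ∀ a : Fin n, (F.Φ (b.val + 1) a₀).comp
        (∑ h : groups c n, ∑ w : W, ∑ i : Spatial n, r h w i •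
          (slotInt F (ctrlPulse c n h i) (pos (idx h w)) (a.val + 1) (b.val + 1)).comp
            (X (a.val + 1))) = ((Z (b.val + 1)).comp (Cinv a)).comp (Cm a) := by
      intro a
      have := congrArg (fun T : S a →L[ℝ] V (b.val + 1) => -(T.comp (Cm a))) (hR₀ (toT Z) a b)
      simp only [toT, LinearMap.coe_mk, AddHom.coe_mk, ContinuousLinearMap.neg_comp, neg_neg] at this
      rw [← this]
      simp only [ContinuousLinearMap.finsetSum_comp, ← Finset.sum_neg_distrib,
        ContinuousLinearMap.comp_finsetSum, ContinuousLinearMap.smul_comp,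
        ContinuousLinearMap.comp_smul, M, smul_smul, ContinuousLinearMap.neg_comp,
        ContinuousLinearMap.comp_neg, smul_neg, neg_neg, ContinuousLinearMap.comp_assoc, hXa]
      refine Finset.sum_congr rfl fun h _ => Finset.sum_congr rfl fun w _ =>
        Finset.sum_congr rfl fun i _ => ?_
      rw [mul_assoc, ← Real.exp_add, add_neg_cancel, Real.exp_zero, mul_one]
      rfl
    have hswap : ∑ h : groups c n, ∑ w : W, ∑ i : Spatial n, r h w i • ∑ a : Fin n,
        (slotInt F (ctrlPulse c n h i) (pos (idx h w)) (a.val + 1) (b.val + 1)).comp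
          (X (a.val + 1)) =
        ∑ a : Fin n, ∑ h : groups c n, ∑ w : W, ∑ i : Spatial n, r h w i •
          (slotInt F (ctrlPulse c n h i) (pos (idx h w)) (a.val + 1) (b.val + 1)).comp
            (X (a.val + 1)) := by
      simp only [Finset.smul_sum]
      calc _ = ∑ h : groups c n, ∑ a : Fin n, ∑ w : W, ∑ i : Spatial n, r h w i •
            (slotInt F (ctrlPulse c n h i) (pos (idx h w)) (a.val + 1) (b.val + 1)).comp
              (X (a.val + 1)) := by
            refine Finset.sum_congr rfl fun h _ => ?_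
            rw [Finset.sum_comm (γ := Fin n)]
            exact Finset.sum_congr rfl fun w _ => Finset.sum_comm
        _ = _ := Finset.sum_comm
    rw [hswap, ContinuousLinearMap.comp_finsetSum, Finset.sum_congr rfl fun a _ => key a]
    simp only [ContinuousLinearMap.comp_assoc, ← ContinuousLinearMap.comp_finsetSum, hCC,
      ContinuousLinearMap.comp_id]
  · intro Z r hr hZ k l
    have hT : ∀ a b, ‖toT Z a b‖ ≤ KN * ∑ j ∈ Finset.range C.J, r j := fun a b => by
      have hs : r (b.val + 1) ≤ ∑ j ∈ Finset.range C.J, r j :=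
        Finset.single_le_sum (fun j hj => hr j (Finset.mem_range.1 hj))
          (Finset.mem_range.2 (by omega))
      have hs0 : 0 ≤ ∑ j ∈ Finset.range C.J, r j :=
        Finset.sum_nonneg fun j hj => hr j (Finset.mem_range.1 hj)
      refine ContinuousLinearMap.opNorm_le_bound _ (by positivity) fun z => ?_
      simp only [toT, LinearMap.coe_mk, AddHom.coe_mk, ContinuousLinearMap.comp_apply, neg_apply,
        norm_neg]
      refine (hZ _ (by omega) _).trans ?_
      calc r (b.val + 1) * ‖Nm (Cinv a z)‖ ≤ (∑ j ∈ Finset.range C.J, r j) * (KN * ‖z‖) :=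
            mul_le_mul hs (hNm a z) (norm_nonneg _) hs0
        _ = _ := by ring
    have hs0 : 0 ≤ ∑ j ∈ Finset.range C.J, r j :=
      Finset.sum_nonneg fun j hj => hr j (Finset.mem_range.1 hj)
    have hb := abs_spread_le idx (R₀ (toT Z)) (B := K₁ * Real.exp (Λ * L) *
      (KN * ∑ j ∈ Finset.range C.J, r j)) (by positivity)
      (hR₀b _ _ (by positivity) hT) k l
    simp only [LinearMap.comp_apply]
    exact hb.trans (le_of_eq (by ring))

end

end Vale.Agent.P225.Control
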