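import Vale.Agent.P225.Control.BridgeDefs
import Vale.Agent.P225.Control.SlotLimit

/-!
P225, control: `FP.jump` at frozen values is a finite sum of slot integrals, and a slot close to
round has slot integral close to the limit jump seen through its word.
-/

namespace Vale.Agent.P225.Control

open MeasureTheory Set
open scoped ContDiff

noncomputable section

-- needed to find the operator norm on maps between products
set_option maxSynthPendingDepth 3

variable {H : Harm} {sh : Shape} {C : FP.Consts} (F : FP.Flow H sh C)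

theorem deriv_prof_eq_zero (q : Pulse) {τ : ℝ} (h : τ ∉ Ioo (0 : ℝ) 1) : deriv q.prof τ = 0 := by
  have hd : HasDerivAt q.prof (deriv q.prof τ) τ :=
    (q.smooth.differentiable (by simp) τ).hasDerivAt
  rcases not_and_or.1 h with h' | h' <;> rw [not_lt] at h'
  · refine (uniqueDiffWithinAt_Iic τ).eq_deriv _ hd.hasDerivWithinAt ?_
    refine (hasDerivWithinAt_const τ _ (0 : ℝ)).congr (fun y hy => q.supp y ?_) (q.supp τ h)
    exact fun hy' => absurd (lt_of_lt_of_le hy'.1 (hy.trans h')) (lt_irrefl 0)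
  · refine (uniqueDiffWithinAt_Ici τ).eq_deriv _ hd.hasDerivWithinAt ?_
    refine (hasDerivWithinAt_const τ _ (0 : ℝ)).congr (fun y hy => q.supp y ?_) (q.supp τ h)
    exact fun hy' => absurd (lt_of_le_of_lt (le_trans h' hy) hy'.2) (lt_irrefl 1)

theorem forceOp_outside (q : Pulse) {τ : ℝ} (h : τ ∉ Ioo (0 : ℝ) 1) (s : ℝ) {j : ℕ} (P : Op j j)
    (j' : ℕ) : forceOp H q s τ P j' = 0 := by
  unfold forceOp
  cases q.kind <;> simp [q.supp τ h, deriv_prof_eq_zero q h]

theorem forceOp_band (q : Pulse) (s τ : ℝ) {j : ℕ} (P : Op j j) {j' : ℕ} (h : j' + q.deg < j) :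
    forceOp H q s τ P j' = 0 := by
  have hm := H.mul_band q.deg q.vec j j' (Or.inl h)
  unfold forceOp
  cases q.kind <;> simp [hm]

theorem pulseOp_frozen {E : Type} [NormedAddCommGroup E] [NormedSpace ℝ E] (q : Pulse)
    (s τ : ℝ) {j : ℕ} (P : Op j j) (j' : ℕ) (u : E →L[ℝ] V j) :
    FP.pulseOp H q s τ j j' u (P.comp u) = (forceOp H q s τ P j').comp u := by
  unfold FP.pulseOp forceOp
  cases q.kind <;>
    (dsimp only; ext v; simp)

/-- The integrand of a slot which starts at `t₀`, in absolute time. -/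
def slotFun (q : Pulse) (t₀ : ℝ) (j j' : ℕ) (t : ℝ) : Op j j' :=
  (F.Ω j' t).comp ((forceOp H q (sh.drift t) (t - t₀) (F.Pj j t) j').comp (F.Φ j t))

/-- The integral over one slot. -/
def slotInt (q : Pulse) (t₀ : ℝ) (j j' : ℕ) : Op j j' :=
  ∫ x in (0 : ℝ)..1, slotFun F q t₀ j j' (t₀ + x)

theorem continuous_slotFun (q : Pulse) (t₀ : ℝ) (j : ℕ) {j' : ℕ} (h1 : 1 ≤ j') (h2 : j' < C.J) :
    Continuous (slotFun F q t₀ j j') := by
  have hΩ : Continuous (F.Ω j') :=
    continuous_iff_continuousAt.2 fun t => (F.deriv_Ω j' h1 h2 t).continuousAt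
  have hP : Continuous (F.Pj j) :=
    continuous_iff_continuousAt.2 fun t => (F.deriv_P j t).continuousAt
  have hΦ : Continuous (F.Φ j) :=
    continuous_iff_continuousAt.2 fun t => (F.deriv_Φ j t).continuousAt
  have hs : Continuous sh.drift :=
    continuous_const.mul (sh.smooth_χ.continuous_deriv (by simp))
  have hρ : Continuous q.prof := q.smooth.continuous
  have hρ' : Continuous (deriv q.prof) := q.smooth.continuous_deriv (by simp)
  have hf : Continuous fun t => forceOp H q (sh.drift t) (t - t₀) (F.Pj j t) j' := by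
    unfold forceOp
    cases q.kind <;> (dsimp only; fun_prop)
  exact hΩ.clm_comp (hf.clm_comp hΦ)

theorem integral_slotFun (q : Pulse) {t₀ a b : ℝ} (j : ℕ) {j' : ℕ} (h1 : 1 ≤ j') (h2 : j' < C.J)
    (ha : a ≤ t₀) (hb : t₀ + 1 ≤ b) :
    ∫ t in a..b, slotFun F q t₀ j j' t = slotInt F q t₀ j j' := by
  have hi : ∀ x y : ℝ, IntervalIntegrable (slotFun F q t₀ j j') volume x y := fun x y =>
    (continuous_slotFun F q t₀ j h1 h2).intervalIntegrable x y
  have hz : ∀ t : ℝ, t ≤ t₀ ∨ t₀ + 1 ≤ t → slotFun F q t₀ j j' t = 0 := fun t ht => by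
    rw [slotFun, forceOp_outside q (fun h => ?_)]
    · simp
    · rcases ht with ht | ht
      · linarith [h.1]
      · linarith [h.2]
  rw [← intervalIntegral.integral_add_adjacent_intervals (hi a t₀) (hi t₀ b),
    ← intervalIntegral.integral_add_adjacent_intervals (hi t₀ (t₀ + 1)) (hi (t₀ + 1) b),
    intervalIntegral.integral_congr (g := fun _ => (0 : Op j j')) fun t ht => hz t (Or.inl ?_),
    intervalIntegral.integral_congr (a := t₀ + 1) (g := fun _ => (0 : Op j j'))
      fun t ht => hz t (Or.inr ?_)]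
  · rw [slotInt, intervalIntegral.integral_comp_add_left]
    simp
  · rw [uIcc_of_le hb] at ht; exact ht.1
  · rw [uIcc_of_le ha] at ht; exact ht.2

/-- The jump at frozen values, as a finite sum over slots, pulses and source degrees. -/
theorem jump_frozen {d n : ℕ} (hJ : C.J = n + 1) {P : Pulses} (pos : ℕ → ℝ)
    (θ : ℕ → Fin P.n → ℝ) {m₀ m₁ : ℕ} {a₀ b₀ : ℝ}
    (hθ : ∀ k l, (k < m₀ ∨ m₁ ≤ k) → θ k l = 0)
    (hmem : ∀ k, m₀ ≤ k → k < m₁ → a₀ ≤ pos k ∧ pos k + 1 ≤ b₀)
    (X : (j : ℕ) → FP.EE d →L[ℝ] V j) (hX : ∀ j, j = 0 ∨ C.J ≤ j → X j = 0) (b : Fin n) :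
    FP.jump F pos θ a₀ b₀ (FP.frozen F X) (FP.frozenD F X) (b.val + 1) =
      ∑ k ∈ Finset.Ico m₀ m₁, ∑ l, θ k l •
        ∑ a : Fin n, (slotInt F (P.item l) (pos k) (a.val + 1) (b.val + 1)).comp (X (a.val + 1)) := by
  have h1 : 1 ≤ b.val + 1 := Nat.le_add_left 1 _
  have h2 : b.val + 1 < C.J := by rw [hJ]; omega
  have hcore : ∀ t, (F.Ω (b.val + 1) t).comp
      (FP.forceOp H sh pos θ (FP.frozen F X) (FP.frozenD F X) (b.val + 1) t) =
      ∑ k ∈ Finset.Ico m₀ m₁, ∑ l, θ k l •
        ∑ a : Fin n, (slotFun F (P.item l) (pos k) (a.val + 1) (b.val + 1) t).comp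
          (X (a.val + 1)) := by
    intro t
    rw [FP.forceOp, tsum_eq_sum (s := Finset.Ico m₀ m₁) fun k hk => ?_,
      ContinuousLinearMap.comp_finsetSum]
    · refine Finset.sum_congr rfl fun k _ => ?_
      rw [ContinuousLinearMap.comp_finsetSum]
      refine Finset.sum_congr rfl fun l _ => ?_
      rw [ContinuousLinearMap.comp_smul, ContinuousLinearMap.comp_finsetSum]
      congr 1
      set j' := b.val + 1
      set f : ℕ → (FP.EE d →L[ℝ] V j') := fun j =>
        (slotFun F (P.item l) (pos k) j j' t).comp (X j)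
      have e1 : ∀ j, (F.Ω j' t).comp (FP.pulseOp H (P.item l) (sh.drift t) (t - pos k) j j'
          (FP.frozen F X j t) (FP.frozenD F X j t)) = f j := fun j => by
        simp only [f, slotFun, FP.frozen, FP.frozenD, pulseOp_frozen, ContinuousLinearMap.comp_assoc]
      simp only [e1]
      have hband : ∀ j, j' + (P.item l).deg < j → f j = 0 := fun j hj => by
        simp [f, slotFun, forceOp_band _ _ _ _ hj]
      have hout : ∀ j, (j = 0 ∨ C.J ≤ j) → f j = 0 := fun j hj => by simp [f, hX j hj]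
      change ∑ j ∈ Finset.range (j' + (P.item l).deg + 1), f j = ∑ a : Fin n, f (a.val + 1)
      rw [Fin.sum_univ_eq_sum_range (fun a => f (a + 1))]
      calc ∑ j ∈ Finset.range (j' + (P.item l).deg + 1), f j
          = ∑ j ∈ Finset.range (j' + (P.item l).deg + 1 + (n + 1)), f j :=
            Finset.sum_subset (Finset.range_mono (by omega)) fun j _ hj =>
              hband j (by simp only [Finset.mem_range, not_lt] at hj; omega)
        _ = ∑ j ∈ Finset.range (n + 1), f j :=
            (Finset.sum_subset (Finset.range_mono (by omega)) fun j _ hj =>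
              hout j (Or.inr (by simp only [Finset.mem_range, not_lt] at hj; omega))).symm
        _ = _ := by rw [Finset.sum_range_succ', hout 0 (Or.inl rfl), add_zero]
    · refine Finset.sum_eq_zero fun l _ => ?_
      rw [hθ k l (by simp only [Finset.mem_Ico] at hk; omega), zero_smul]
  simp only [FP.jump, hcore]
  have hc : ∀ k l (a : Fin n), Continuous fun t =>
      (slotFun F (P.item l) (pos k) (a.val + 1) (b.val + 1) t).comp (X (a.val + 1)) := fun k l a =>
    (continuous_slotFun F _ _ _ h1 h2).clm_comp continuous_const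
  have hc2 : ∀ k l, Continuous fun t => θ k l • ∑ a : Fin n,
      (slotFun F (P.item l) (pos k) (a.val + 1) (b.val + 1) t).comp (X (a.val + 1)) := fun k l =>
    (continuous_finsetSum _ fun a _ => hc k l a).const_smul (θ k l)
  have hc3 : ∀ k, Continuous fun t => ∑ l, θ k l • ∑ a : Fin n,
      (slotFun F (P.item l) (pos k) (a.val + 1) (b.val + 1) t).comp (X (a.val + 1)) := fun k =>
    continuous_finsetSum _ fun l _ => hc2 k l
  rw [intervalIntegral.integral_finsetSum fun k _ => (hc3 k).intervalIntegrable _ _]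
  refine Finset.sum_congr rfl fun k hk => ?_
  rw [intervalIntegral.integral_finsetSum fun l _ => (hc2 k l).intervalIntegrable _ _]
  refine Finset.sum_congr rfl fun l _ => ?_
  rw [intervalIntegral.integral_smul, intervalIntegral.integral_finsetSum fun a _ =>
    (hc k l a).intervalIntegrable _ _]
  congr 1
  refine Finset.sum_congr rfl fun a _ => ?_
  obtain ⟨ha, hb⟩ := hmem k (Finset.mem_Ico.1 hk).1 (Finset.mem_Ico.1 hk).2
  rw [← integral_slotFun F (P.item l) (a.val + 1) h1 h2 ha hb]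
  exact ((ContinuousLinearMap.compL ℝ (FP.EE d) (V (a.val + 1)) (V (b.val + 1))).flip
    (X (a.val + 1))).intervalIntegral_comp_comm
      ((continuous_slotFun F _ _ _ h1 h2).intervalIntegrable _ _)

/-- Slots near their limits have slot matrices near the limit jumps seen through the words. -/
theorem slot_matrix_near (H : Harm) (σ δ : ℕ → ℝ) {c : ℝ} (hc : 0 ≤ c) (q : Pulse) {n : ℕ}
    (a b : Fin n) (w : List (Fin 6 × ℝ)) :
    ∃ K : ℝ, 0 ≤ K ∧ ∀ {sh : Shape} {C : FP.Consts} (F : FP.Flow H sh C), n < C.J →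
      ∀ (a₀ t τ ε : ℝ), ε ≤ 1 → SlotNear F σ δ c n a₀ t τ ε w →
        ‖Real.exp (-(gap c (a.val + 1) (b.val + 1) * τ)) •
            ((F.Φ (b.val + 1) a₀).comp
              ((-slotInt F q t (a.val + 1) (b.val + 1)).comp (F.Φi (a.val + 1) a₀))) -
          conjWord H σ δ w (limitJump H c q) a b‖ ≤ K * ε := by
  obtain ⟨K₀, hK₀, hnear⟩ := slot_near H c hc q (a.val + 1) (b.val + 1)
  set Jl := (-mom q.prof (gap c (a.val + 1) (b.val + 1))) •
    nkick H c q.kind q.deg q.vec (a.val + 1) (b.val + 1) with hJdef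
  set Ll := wordOp H σ δ w (b.val + 1)
  set Rl := wordOp H σ δ (undoWord w) (a.val + 1)
  refine ⟨(‖Jl‖ + K₀) * (‖Rl‖ + 1) + ‖Ll‖ * K₀ * (‖Rl‖ + 1) + ‖Ll‖ * ‖Jl‖, by positivity,
    fun {sh C} F hJ a₀ t τ ε hε hS => ?_⟩
  have h2 : b.val + 1 < C.J := by omega
  have h0 : 0 ≤ ε := (norm_nonneg _).trans (hS.fwd a)
  set pa := rate c (a.val + 1)
  set pb := rate c (b.val + 1)
  set L := Real.exp (pb * τ) • (F.Φ (b.val + 1) a₀).comp (F.Φi (b.val + 1) t)
  set R := Real.exp (-(pa * τ)) • (F.Φ (a.val + 1) t).comp (F.Φi (a.val + 1) a₀)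
  set g : ℝ → Op (a.val + 1) (b.val + 1) := fun x =>
    ((F.Φ (b.val + 1) t).comp (F.Ω (b.val + 1) (t + x))).comp
      ((forceOp H q (sh.drift (t + x)) x (F.Pj (a.val + 1) (t + x)) (b.val + 1)).comp
        ((F.Φ (a.val + 1) (t + x)).comp (F.Φi (a.val + 1) t))) with hg
  set J := -(∫ x in (0 : ℝ)..1, g x)
  have hcont : Continuous fun x => slotFun F q t (a.val + 1) (b.val + 1) (t + x) :=
    (continuous_slotFun F q t _ (Nat.le_add_left 1 _) h2).comp (continuous_const.add continuous_id)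
  have hgeq : g = fun x => (F.Φ (b.val + 1) t).comp
      ((slotFun F q t (a.val + 1) (b.val + 1) (t + x)).comp (F.Φi (a.val + 1) t)) := by
    funext x
    simp only [hg, slotFun, add_sub_cancel_left, ContinuousLinearMap.comp_assoc]
  have hgcont : Continuous g := by
    rw [hgeq]; exact continuous_const.clm_comp (hcont.clm_comp continuous_const)
  have hJn : ‖J - Jl‖ ≤ K₀ * ε :=
    hnear (fun x => (F.Φ (b.val + 1) t).comp (F.Ω (b.val + 1) (t + x)))
      (fun x => (F.Φ (a.val + 1) (t + x)).comp (F.Φi (a.val + 1) t))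
      (fun x => F.Pj (a.val + 1) (t + x)) (fun x => sh.drift (t + x)) ε hε
      (hS.out b) (hS.inn a) (hS.exponent a) hS.drift (hgcont.intervalIntegrable _ _)
  have hJint : J = (F.Φ (b.val + 1) t).comp
      ((-slotInt F q t (a.val + 1) (b.val + 1)).comp (F.Φi (a.val + 1) t)) := by
    simp only [J, hgeq, slotInt, ContinuousLinearMap.neg_comp, ContinuousLinearMap.comp_neg]
    congr 1
    exact ((ContinuousLinearMap.compL ℝ (V (a.val + 1)) (V (b.val + 1)) (V (b.val + 1))
        (F.Φ (b.val + 1) t)).comp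
      ((ContinuousLinearMap.compL ℝ (V (a.val + 1)) (V (a.val + 1)) (V (b.val + 1))).flip
        (F.Φi (a.val + 1) t))).intervalIntegral_comp_comm (hcont.intervalIntegrable _ _)
  have hexp : Real.exp (pb * τ) * Real.exp (-(pa * τ)) =
      Real.exp (-(gap c (a.val + 1) (b.val + 1) * τ)) := by
    rw [← Real.exp_add]; congr 1; rw [gap]; ring
  have e : Real.exp (-(gap c (a.val + 1) (b.val + 1) * τ)) •
      ((F.Φ (b.val + 1) a₀).comp
        ((-slotInt F q t (a.val + 1) (b.val + 1)).comp (F.Φi (a.val + 1) a₀))) =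
      L.comp (J.comp R) := by
    rw [hJint, ← hexp]
    simp only [L, R, ContinuousLinearMap.smul_comp, ContinuousLinearMap.comp_smul, smul_smul,
      mul_comm (Real.exp (pb * τ))]
    congr 1
    ext v
    have h3 : ∀ u, F.Φi (b.val + 1) t (F.Φ (b.val + 1) t u) = u := fun u => by
      simpa using congrArg (fun T : Op _ _ => T u) (F.Φi_Φ (b.val + 1) t)
    have h4 : ∀ u, F.Φi (a.val + 1) t (F.Φ (a.val + 1) t u) = u := fun u => by
      simpa using congrArg (fun T : Op _ _ => T u) (F.Φi_Φ (a.val + 1) t)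
    simp [h3, h4]
  rw [e, show conjWord H σ δ w (limitJump H c q) a b = Ll.comp (Jl.comp Rl) from rfl]
  have e2 : L.comp (J.comp R) - Ll.comp (Jl.comp Rl) = (L - Ll).comp (J.comp R) +
      Ll.comp ((J - Jl).comp R) + Ll.comp (Jl.comp (R - Rl)) := by
    simp only [ContinuousLinearMap.sub_comp, ContinuousLinearMap.comp_sub]; abel
  have hRn : ‖R‖ ≤ ‖Rl‖ + 1 := by
    have := norm_le_norm_add_norm_sub' R Rl
    linarith [hS.fwd a]
  have hJn2 : ‖J‖ ≤ ‖Jl‖ + K₀ := by
    have := norm_le_norm_add_norm_sub' J Jl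
    nlinarith
  rw [e2]
  refine (norm_add_le _ _).trans ((add_le_add (norm_add_le _ _) le_rfl).trans ?_)
  have n1 : ‖(L - Ll).comp (J.comp R)‖ ≤ ε * ((‖Jl‖ + K₀) * (‖Rl‖ + 1)) :=
    (ContinuousLinearMap.opNorm_comp_le _ _).trans (mul_le_mul (hS.bwd b)
      ((ContinuousLinearMap.opNorm_comp_le _ _).trans (mul_le_mul hJn2 hRn (norm_nonneg _)
        (by positivity))) (norm_nonneg _) h0)
  have n2 : ‖Ll.comp ((J - Jl).comp R)‖ ≤ ‖Ll‖ * (K₀ * ε * (‖Rl‖ + 1)) :=
    (ContinuousLinearMap.opNorm_comp_le _ _).trans (mul_le_mul_of_nonneg_left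
      ((ContinuousLinearMap.opNorm_comp_le _ _).trans (mul_le_mul hJn hRn (norm_nonneg _)
        (by positivity))) (norm_nonneg _))
  have n3 : ‖Ll.comp (Jl.comp (R - Rl))‖ ≤ ‖Ll‖ * (‖Jl‖ * ε) :=
    (ContinuousLinearMap.opNorm_comp_le _ _).trans (mul_le_mul_of_nonneg_left
      ((ContinuousLinearMap.opNorm_comp_le _ _).trans
        (mul_le_mul_of_nonneg_left (hS.fwd a) (norm_nonneg _))) (norm_nonneg _))
  calc _ ≤ ε * ((‖Jl‖ + K₀) * (‖Rl‖ + 1)) + ‖Ll‖ * (K₀ * ε * (‖Rl‖ + 1)) +
        ‖Ll‖ * (‖Jl‖ * ε) := add_le_add (add_le_add n1 n2) n3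
    _ = _ := by ring

end

end Vale.Agent.P225.Control
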