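import Vale.Agent.P225.Control.LimitDefs

/-!
P225, control: words of micro squashes (definitions and interface).

One micro squash along axis `a` with amount `s` acts on degree `j` by `exp (s • microGen a j)`,
`microGen a j = σ j • (EL_a)² + δ j • 1`; the scalar part is the same for all axes.
-/

namespace Vale.Agent.P225.Control

noncomputable section

variable (H : Harm) (σ δ : ℕ → ℝ)

/-- The generator of a micro squash along an axis. -/
def microGen (a : Fin 6) (j : ℕ) : Op j j :=
  σ j • (Shape.elAxis H j a).comp (Shape.elAxis H j a) + δ j • ContinuousLinearMap.id ℝ (V j)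

/-- A word of micro squashes; the head is the last one applied. -/
def wordOp : List (Fin 6 × ℝ) → (j : ℕ) → Op j j
  | [], j => ContinuousLinearMap.id ℝ (V j)
  | p :: w, j => (NormedSpace.exp (p.2 • microGen H σ δ p.1 j)).comp (wordOp w j)

/-- The word undoing a word. -/
def undoWord (w : List (Fin 6 × ℝ)) : List (Fin 6 × ℝ) := (w.map fun p => (p.1, -p.2)).reverse

/-- A block family seen through a word. -/
def conjWord {n : ℕ} (w : List (Fin 6 × ℝ)) (X : Block n) : Block n := fun a b =>
  (wordOp H σ δ w (b.val + 1)).comp ((X a b).comp (wordOp H σ δ (undoWord w) (a.val + 1)))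

/-- All kicks. -/
def kickSet (c : ℝ) (n : ℕ) : Set (Block n) :=
  {X | ∃ g kind d w, d ≤ 2 * n ∧ groupKick H c g kind d w = X}

/-- The span of the kicks seen through all words. -/
def wordSpan (c : ℝ) (n : ℕ) : Submodule ℝ (Block n) :=
  Submodule.span ℝ {Y | ∃ w, ∃ X ∈ kickSet H c n, conjWord H σ δ w X = Y}

/-- Finitely many words suffice for a left invariant space containing all kicks. -/
def WordsLeftInvariant (c : ℝ) (n : ℕ) : Prop :=
  (∀ a, a < n → σ (a + 1) ≠ 0) →
    LeftInvariant H (wordSpan H σ δ c n) ∧
      (∀ g kind d w, d ≤ 2 * n → groupKick H c g kind d w ∈ wordSpan H σ δ c n) ∧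
        ∃ W : Finset (List (Fin 6 × ℝ)), [] ∈ W ∧
          wordSpan H σ δ c n =
            Submodule.span ℝ {Y | ∃ w ∈ W, ∃ X ∈ kickSet H c n, conjWord H σ δ w X = Y}

end

end Vale.Agent.P225.Control
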