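import Vale.Agent.P225.Control.Profiles

/-!
P225, control: the jump matrices of the slots at the limit round shape, and the statement of
their range.

At round with `c = exp (2χ∞)` the degree `j` rate is `p = √(1 + c j(j+2)) - 1`, and a pulse at a
slot takes `e^{pτ} v` of degree `j` to the jump `-mom ρ (p - p') • nkick` in degree `j'`.
-/

namespace Vale.Agent.P225.Control

open scoped RealInnerProductSpace

noncomputable section

/-- The growth rate of degree `j` at the round shape `c = exp (2χ)`. -/
def rate (c : ℝ) (j : ℕ) : ℝ := Real.sqrt (1 + c * ((j : ℝ) * (j + 2))) - 1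

/-- The rate difference from degree `j` to degree `j'`. -/
def gap (c : ℝ) (j j' : ℕ) : ℝ := rate c j - rate c j'

variable (H : Harm)

/-- The unnormalised kick of one pulse, from degree `j` to degree `j'`. -/
def kick (c : ℝ) : Option (Fin 3) → (d : ℕ) → V d → (j j' : ℕ) → Op j j'
  | some k, d, w, j, j' => (rate c j' + 2) • (H.mul d w j j').comp (H.EL j k) +
      rate c j • (H.EL j' k).comp (H.mul d w j j')
  | none, d, w, j, j' => ∑ k, (H.EL j' k).comp ((H.mul d w j j').comp (H.EL j k))

/-- The normalised kick. -/
def nkick (c : ℝ) (kind : Option (Fin 3)) (d : ℕ) (w : V d) (j j' : ℕ) : Op j j' :=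
  (2 * rate c j' + 2)⁻¹ • kick H c kind d w j j'

/-- Blocks between the degrees `1, …, n`; the first index is the source. -/
abbrev Block (n : ℕ) := (a b : Fin n) → Op (a.val + 1) (b.val + 1)

/-- The jump of one pulse at the limit. -/
def limitJump {n : ℕ} (c : ℝ) (p : Pulse) : Block n := fun a b =>
  (-mom p.prof (gap c (a.val + 1) (b.val + 1))) • nkick H c p.kind p.deg p.vec (a.val + 1) (b.val + 1)

/-- The kick restricted to one group of equal rate differences. -/
def groupKick {n : ℕ} (c g : ℝ) (kind : Option (Fin 3)) (d : ℕ) (w : V d) : Block n := fun a b =>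
  if gap c (a.val + 1) (b.val + 1) = g then nkick H c kind d w (a.val + 1) (b.val + 1) else 0

/-- The algebra generated by the left fields of one degree. -/
def leftAlg (j : ℕ) : Subalgebra ℝ (Op j j) := Algebra.adjoin ℝ (Set.range (H.EL j))

/-- The trace. -/
def opTrace {j : ℕ} (A : Op j j) : ℝ :=
  ∑ i, ⟪EuclideanSpace.single i (1 : ℝ), A (EuclideanSpace.single i 1)⟫

/-- The Frobenius pairing. -/
def frob {i j : ℕ} (A B : Op i j) : ℝ :=
  ∑ a, ⟪A (EuclideanSpace.single a 1), B (EuclideanSpace.single a 1)⟫

/-- The bracket with a degree preserving operator. -/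
def adDiag {n : ℕ} (L : (a : Fin n) → Op (a.val + 1) (a.val + 1)) (X : Block n) : Block n :=
  fun a b => (L b).comp (X a b) - (X a b).comp (L a)

/-- Invariance under the brackets with traceless left operators, degree by degree. -/
def LeftInvariant {n : ℕ} (M : Submodule ℝ (Block n)) : Prop :=
  ∀ L : (a : Fin n) → Op (a.val + 1) (a.val + 1),
    (∀ a, L a ∈ leftAlg H (a.val + 1) ∧ opTrace (L a) = 0) → ∀ X ∈ M, adDiag L X ∈ M

/-- The commutant of the left fields. -/
def IsRight (j : ℕ) (A : Op j j) : Prop := ∀ k v, A (H.EL j k v) = H.EL j k (A v)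

/-- The range: a left invariant space with all group kicks contains every block family whose
diagonal blocks are orthogonal to the commutants. -/
def RangeFull (c : ℝ) (n : ℕ) : Prop :=
  ∀ M : Submodule ℝ (Block n), LeftInvariant H M →
    (∀ g kind d w, d ≤ 2 * n → groupKick H c g kind d w ∈ M) →
      ∀ X : Block n, (∀ a A, IsRight H (a.val + 1) A → frob A (X a a) = 0) → X ∈ M

/-- The completion: anything can be prescribed on vectors orthogonal to the zonal ones. -/
def Completion (c : ℝ) (n : ℕ) : Prop :=
  ∀ M : Submodule ℝ (Block n), LeftInvariant H M →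
    (∀ g kind d w, d ≤ 2 * n → groupKick H c g kind d w ∈ M) →
      ∀ W : (a : Fin n) → Submodule ℝ (V (a.val + 1)),
        (∀ a, ∀ v ∈ W a, ⟪H.zonal (a.val + 1), v⟫ = 0) →
          ∀ T : Block n, ∃ X ∈ M, ∀ a b, ∀ v ∈ W a, X a b v = T a b v

end

end Vale.Agent.P225.Control
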