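import Vale.Agent.P225.Core

/-!
P225, control: time profiles and finite right inverses.

* `mom ρ d` is the exponential moment `∫₀¹ ρ(τ) e^{dτ}`.
* For every finite set `S` of rates, `profile S c` is smooth, vanishes outside `(0,1)`, and has
  moments `δ_{cd}` on `S`. So every function of the rate is a moment of some profile, and the
  attainable kicks are invariant under rescaling the groups of equal rate differences.
* A right inverse survives small perturbations, with twice the norm.
-/

namespace Vale.Agent.P225.Control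

open scoped ContDiff Topology
open MeasureTheory Set Filter

noncomputable section

/-- The exponential moment on the unit interval. -/
def mom (ρ : ℝ → ℝ) (d : ℝ) : ℝ := ∫ τ in (0 : ℝ)..1, ρ τ * Real.exp (d * τ)

/-- A nonnegative smooth weight supported in `(0,1)`, equal to one in `[1/3, 2/3]`. -/
def weightBump : ContDiffBump (1 / 2 : ℝ) := ⟨1 / 6, 1 / 3, by norm_num, by norm_num⟩

/-- The weight as a function. -/
def weight (τ : ℝ) : ℝ := weightBump τ

theorem weight_smooth : ContDiff ℝ ∞ weight := weightBump.contDiff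

theorem weight_nonneg (τ : ℝ) : 0 ≤ weight τ := weightBump.nonneg

theorem weight_supp {τ : ℝ} (h : τ ∉ Ioo (0 : ℝ) 1) : weight τ = 0 := by
  refine weightBump.zero_of_le_dist ?_
  simp only [weightBump, Real.dist_eq]
  rcases not_and_or.1 h with h | h <;> rw [not_lt] at h
  · rw [abs_of_nonpos (by linarith)]; linarith
  · rw [abs_of_nonneg (by linarith)]; linarith

theorem weight_one {τ : ℝ} (h : τ ∈ Icc (1 / 3 : ℝ) (2 / 3)) : weight τ = 1 := by
  refine weightBump.one_of_mem_closedBall ?_
  simp only [weightBump, Metric.mem_closedBall, Real.dist_eq, abs_le]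
  constructor <;> linarith [h.1, h.2]

/-- Exponentials with distinct rates are independent on every open interval. -/
theorem exp_indep {ι : Type*} [Fintype ι] {r : ι → ℝ} (hr : Function.Injective r) {a : ι → ℝ}
    {s : Set ℝ} (hs : IsOpen s) {x : ℝ} (hx : x ∈ s)
    (h : ∀ τ ∈ s, ∑ i, a i * Real.exp (r i * τ) = 0) : a = 0 := by
  classical
  let e := Fintype.equivFin ι
  have hk : ∀ k : ℕ, ∀ τ ∈ s, ∑ i, a i * r i ^ k * Real.exp (r i * τ) = 0 := by
    intro k
    induction k with
    | zero => simpa using h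
    | succ k ih =>
      intro τ hτ
      have hd : HasDerivAt (fun t => ∑ i, a i * r i ^ k * Real.exp (r i * t))
          (∑ i, a i * r i ^ (k + 1) * Real.exp (r i * τ)) τ := by
        refine HasDerivAt.fun_sum fun i _ => ?_
        have := (((hasDerivAt_id τ).const_mul (r i)).exp).const_mul (a i * r i ^ k)
        simp only [id, mul_one] at this
        exact this.congr_deriv (by ring)
      have hz : HasDerivAt (fun t => ∑ i, a i * r i ^ k * Real.exp (r i * t)) 0 τ :=
        (hasDerivAt_const τ (0 : ℝ)).congr_of_eventuallyEq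
          (Filter.eventuallyEq_of_mem (hs.mem_nhds hτ) ih)
      exact hd.unique hz
  have hv : (fun j => a (e.symm j) * Real.exp (r (e.symm j) * x)) = 0 := by
    refine Matrix.eq_zero_of_forall_pow_sum_mul_pow_eq_zero
      (f := fun j => r (e.symm j)) (hr.comp e.symm.injective) fun k => ?_
    rw [← hk k x hx, ← e.symm.sum_comp]
    exact Finset.sum_congr rfl fun j _ => by ring
  funext i
  have := congrFun hv (e i)
  simpa using this

variable (S : Finset ℝ)

/-- The Gram matrix of the weighted exponentials. -/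
def gram : Matrix S S ℝ := fun c d => mom (fun τ => weight τ * Real.exp ((c : ℝ) * τ)) d

theorem gram_isUnit : IsUnit (gram S) := by
  rw [← Matrix.mulVec_injective_iff_isUnit]
  change Function.Injective (gram S).mulVecLin
  rw [← LinearMap.ker_eq_bot, LinearMap.ker_eq_bot']
  intro a ha
  set q : ℝ → ℝ := fun τ => ∑ c : S, a c * Real.exp ((c : ℝ) * τ) with hq
  have hqc : Continuous q := by fun_prop
  have hwc : Continuous weight := weight_smooth.continuous
  have hzero : ∫ τ in (0 : ℝ)..1, weight τ * q τ ^ 2 = 0 := by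
    have h1 : ∀ τ, weight τ * q τ ^ 2 =
        ∑ c : S, ∑ d : S, a c * (weight τ * Real.exp ((c : ℝ) * τ) * Real.exp ((d : ℝ) * τ) * a d) := by
      intro τ
      rw [hq, sq, Finset.sum_mul_sum, Finset.mul_sum]
      refine Finset.sum_congr rfl fun c _ => ?_
      rw [Finset.mul_sum]
      exact Finset.sum_congr rfl fun d _ => by ring
    simp only [h1]
    rw [intervalIntegral.integral_finsetSum fun c _ =>
      (by fun_prop : Continuous _).intervalIntegrable _ _]
    refine Finset.sum_eq_zero fun c _ => ?_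
    rw [intervalIntegral.integral_finsetSum fun d _ =>
      (by fun_prop : Continuous _).intervalIntegrable _ _]
    simp only [intervalIntegral.integral_const_mul, intervalIntegral.integral_mul_const,
      ← Finset.mul_sum]
    have := congrFun ha c
    simp only [Matrix.mulVecLin_apply, Matrix.mulVec, dotProduct, gram, mom,
      Pi.zero_apply] at this
    rw [this, mul_zero]
  have hoff : ∀ τ ∈ Ioo (1 / 3 : ℝ) (2 / 3), q τ = 0 := by
    intro τ hτ
    by_contra hne
    have hpos : 0 < ∫ t in (0 : ℝ)..1, weight t * q t ^ 2 := by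
      refine intervalIntegral.integral_pos one_pos (by fun_prop) (fun t _ => ?_)
        ⟨τ, ⟨by linarith [hτ.1], by linarith [hτ.2]⟩, ?_⟩
      · exact mul_nonneg (weight_nonneg t) (sq_nonneg _)
      · rw [weight_one ⟨hτ.1.le, hτ.2.le⟩, one_mul]; positivity
    linarith
  exact exp_indep Subtype.val_injective isOpen_Ioo (x := (1 / 2 : ℝ))
    ⟨by norm_num, by norm_num⟩ hoff

/-- The dual profile of the rate `c` among the rates of `S`. -/
def profile (c : ℝ) (τ : ℝ) : ℝ :=
  if hc : c ∈ S then
    ∑ d : S, (gram S)⁻¹ ⟨c, hc⟩ d * (weight τ * Real.exp ((d : ℝ) * τ))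
  else 0

theorem profile_smooth (c : ℝ) : ContDiff ℝ ∞ (profile S c) := by
  by_cases hc : c ∈ S
  · have : profile S c = fun τ =>
        ∑ d : S, (gram S)⁻¹ ⟨c, hc⟩ d * (weight τ * Real.exp ((d : ℝ) * τ)) := by
      funext τ; simp [profile, hc]
    rw [this]
    exact ContDiff.sum fun d _ => contDiff_const.mul
      (weight_smooth.mul (contDiff_const.mul contDiff_id).exp)
  · have : profile S c = fun _ => 0 := by funext τ; simp [profile, hc]
    rw [this]; exact contDiff_const

theorem profile_supp (c : ℝ) (τ : ℝ) (h : τ ∉ Ioo (0 : ℝ) 1) : profile S c τ = 0 := by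
  simp [profile, weight_supp h]

theorem mom_profile {c d : ℝ} (hc : c ∈ S) (hd : d ∈ S) :
    mom (profile S c) d = if c = d then 1 else 0 := by
  have hU : IsUnit (gram S).det := (Matrix.isUnit_iff_isUnit_det _).1 (gram_isUnit S)
  have h := congrFun₂ (Matrix.nonsing_inv_mul (gram S) hU) ⟨c, hc⟩ ⟨d, hd⟩
  rw [Matrix.one_apply] at h
  simp only [Subtype.mk.injEq] at h
  rw [← h, Matrix.mul_apply]
  simp only [mom, profile, dif_pos hc, Finset.sum_mul, gram]
  rw [intervalIntegral.integral_finsetSum]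
  · refine Finset.sum_congr rfl fun b _ => ?_
    simp only [mul_assoc, intervalIntegral.integral_const_mul]
  · intro b _
    have : Continuous weight := weight_smooth.continuous
    exact (by fun_prop : Continuous _).intervalIntegrable _ _

/-- Every function of the rate is realised by the dual profiles. -/
theorem sum_mul_mom_profile (f : ℝ → ℝ) {d : ℝ} (hd : d ∈ S) :
    ∑ c ∈ S, f c * mom (profile S c) d = f d := by
  rw [Finset.sum_eq_single_of_mem d hd fun c hc hne => by simp [mom_profile S hc hd, hne]]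
  simp [mom_profile S hd hd]

/-- Rescaling invariance: a subspace which contains the kicks of the dual profiles contains every
rescaling of the kick by a function of the rate. -/
theorem rescale_mem {A : Type*} (r : A → ℝ) (hr : ∀ a, r a ∈ S) (K : A → ℝ)
    (M : Submodule ℝ (A → ℝ))
    (hM : ∀ c ∈ S, (fun a => mom (profile S c) (r a) * K a) ∈ M) (f : ℝ → ℝ) :
    (fun a => f (r a) * K a) ∈ M := by
  have h : (fun a => f (r a) * K a) =
      ∑ c ∈ S, f c • fun a => mom (profile S c) (r a) * K a := by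
    funext a
    rw [Finset.sum_apply, ← sum_mul_mom_profile S f (hr a), Finset.sum_mul]
    exact Finset.sum_congr rfl fun c _ => by simp [mul_assoc]
  rw [h]
  exact M.sum_mem fun c hc => M.smul_mem _ (hM c hc)

end

noncomputable section

/-- The moment of the derivative, by parts. -/
theorem mom_deriv {ρ : ℝ → ℝ} (hρ : ContDiff ℝ ∞ ρ) (hs : ∀ t, t ∉ Ioo (0 : ℝ) 1 → ρ t = 0)
    (d : ℝ) : mom (deriv ρ) d = -d * mom ρ d := by
  have hd : ∀ t, HasDerivAt ρ (deriv ρ t) t := fun t =>
    (hρ.differentiable (by simp) t).hasDerivAt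
  have he : ∀ t : ℝ, HasDerivAt (fun τ => Real.exp (d * τ)) (d * Real.exp (d * t)) t := fun t => by
    simpa [mul_comm] using ((hasDerivAt_id t).const_mul d).exp
  have h := intervalIntegral.integral_mul_deriv_eq_deriv_mul (a := (0 : ℝ)) (b := 1)
    (u := fun τ => Real.exp (d * τ)) (v := ρ) (fun t _ => he t) (fun t _ => hd t)
    ((by fun_prop : Continuous _).intervalIntegrable _ _)
    ((hρ.continuous_deriv (by simp)).intervalIntegrable _ _)
  rw [hs 1 (by simp), hs 0 (by simp)] at h
  simp only [mom]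
  rw [show (fun τ => deriv ρ τ * Real.exp (d * τ)) = fun τ => Real.exp (d * τ) * deriv ρ τ from
    funext fun τ => mul_comm _ _, h, ← intervalIntegral.integral_const_mul]
  simp only [mul_zero, sub_zero, zero_sub, ← intervalIntegral.integral_neg]
  exact intervalIntegral.integral_congr fun τ _ => by ring

/-- The moment of the radial part of a mixed pulse. -/
theorem mom_deriv_add {ρ : ℝ → ℝ} (hρ : ContDiff ℝ ∞ ρ)
    (hs : ∀ t, t ∉ Ioo (0 : ℝ) 1 → ρ t = 0) (q d : ℝ) :
    mom (fun τ => deriv ρ τ + q * ρ τ) d = (q - d) * mom ρ d := by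
  have hc : Continuous ρ := hρ.continuous
  have hc' : Continuous (deriv ρ) := hρ.continuous_deriv (by simp)
  have h := mom_deriv hρ hs d
  simp only [mom] at h ⊢
  simp only [add_mul, mul_assoc]
  rw [intervalIntegral.integral_add ((by fun_prop : Continuous _).intervalIntegrable _ _)
    ((by fun_prop : Continuous _).intervalIntegrable _ _), h,
    intervalIntegral.integral_const_mul]
  ring

/-- Moments depend continuously on the rate. -/
theorem mom_continuous {ρ : ℝ → ℝ} (hρ : Continuous ρ) : Continuous (mom ρ) :=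
  intervalIntegral.continuous_parametric_intervalIntegral_of_continuous' (by fun_prop) 0 1

/-- Moments are insensitive to small changes of the integrand. -/
theorem abs_mom_sub_le {ρ σ : ℝ → ℝ} (hρ : Continuous ρ) (hσ : Continuous σ) (d : ℝ) {ε : ℝ}
    (h : ∀ τ ∈ Icc (0 : ℝ) 1, |ρ τ - σ τ| ≤ ε) : |mom ρ d - mom σ d| ≤ ε * Real.exp |d| := by
  have e : mom ρ d - mom σ d = ∫ τ in (0 : ℝ)..1, (ρ τ - σ τ) * Real.exp (d * τ) := by
    simp only [mom, sub_mul]
    rw [intervalIntegral.integral_sub ((by fun_prop : Continuous _).intervalIntegrable _ _)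
      ((by fun_prop : Continuous _).intervalIntegrable _ _)]
  have h2 : ∀ τ ∈ uIoc (0 : ℝ) 1, ‖(ρ τ - σ τ) * Real.exp (d * τ)‖ ≤ ε * Real.exp |d| := by
    intro τ hτ
    rw [uIoc_of_le zero_le_one] at hτ
    have h0 := h τ ⟨hτ.1.le, hτ.2⟩
    rw [Real.norm_eq_abs, abs_mul, Real.abs_exp]
    refine mul_le_mul h0 (Real.exp_le_exp.2 ?_) (Real.exp_nonneg _) ((abs_nonneg _).trans h0)
    calc d * τ ≤ |d| * τ := mul_le_mul_of_nonneg_right (le_abs_self d) hτ.1.le
      _ ≤ |d| * 1 := mul_le_mul_of_nonneg_left hτ.2 (abs_nonneg d)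
      _ = |d| := mul_one _
  simpa [e] using intervalIntegral.norm_integral_le_of_norm_le_const h2

variable {E F : Type*} [NormedAddCommGroup E] [NormedSpace ℝ E] [NormedAddCommGroup F]
  [NormedSpace ℝ F]

/-- A right inverse survives a small perturbation, with at most twice the norm. -/
theorem exists_rightInverse_of_near [CompleteSpace F] (L L' : E →L[ℝ] F) (R : F →L[ℝ] E)
    (hR : ∀ y, L (R y) = y) (h : ‖L' - L‖ * ‖R‖ ≤ 1 / 2) :
    ∃ R' : F →L[ℝ] E, (∀ y, L' (R' y) = y) ∧ ‖R'‖ ≤ 2 * ‖R‖ := by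
  set T : F →L[ℝ] F := (L - L').comp R
  have hT : ‖T‖ ≤ 1 / 2 := le_trans (ContinuousLinearMap.opNorm_comp_le _ _)
    (by rwa [norm_sub_rev])
  have hT1 : ‖T‖ < 1 := by linarith
  let u := Units.oneSub T hT1
  refine ⟨R.comp (↑u⁻¹ : F →L[ℝ] F), fun y => ?_, ?_⟩
  · have hu : ((1 - T) * ↑u⁻¹ : F →L[ℝ] F) = 1 := u.mul_inv
    have := congrArg (fun A : F →L[ℝ] F => A y) hu
    simpa [T, hR, ContinuousLinearMap.mul_def] using this
  · refine ContinuousLinearMap.opNorm_le_bound _ (by positivity) fun y => ?_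
    set z := (↑u⁻¹ : F →L[ℝ] F) y
    have hu : ((1 - T) * ↑u⁻¹ : F →L[ℝ] F) = 1 := u.mul_inv
    have hz : z - T z = y := by
      simpa [ContinuousLinearMap.mul_def] using congrArg (fun A : F →L[ℝ] F => A y) hu
    have hz2 : ‖z‖ ≤ 2 * ‖y‖ := by
      have h1 : ‖z‖ ≤ ‖y‖ + ‖T z‖ := by
        conv_lhs => rw [show z = y + T z by rw [← hz]; abel]
        exact norm_add_le _ _
      have h2 : ‖T z‖ ≤ 1 / 2 * ‖z‖ :=
        (T.le_opNorm z).trans (mul_le_mul_of_nonneg_right hT (norm_nonneg _))
      linarith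
    calc ‖R z‖ ≤ ‖R‖ * ‖z‖ := R.le_opNorm z
      _ ≤ ‖R‖ * (2 * ‖y‖) := mul_le_mul_of_nonneg_left hz2 (norm_nonneg _)
      _ = 2 * ‖R‖ * ‖y‖ := by ring

/-- A surjective linear map into a finite-dimensional space has a bounded right inverse. -/
theorem exists_rightInverse [FiniteDimensional ℝ F] (L : E →L[ℝ] F)
    (hL : Function.Surjective L) : ∃ R : F →L[ℝ] E, ∀ y, L (R y) = y := by
  obtain ⟨R, hR⟩ := (L : E →ₗ[ℝ] F).exists_rightInverse_of_surjective (LinearMap.range_eq_top.2 hL)
  exact ⟨LinearMap.toContinuousLinearMap R, fun y => LinearMap.congr_fun hR y⟩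

/-- Maps converging to a surjection eventually have uniformly bounded right inverses. -/
theorem eventually_rightInverse [FiniteDimensional ℝ F] {α : Type*} {l : Filter α}
    {L : α → E →L[ℝ] F} {L₀ : E →L[ℝ] F} (hL : Tendsto L l (𝓝 L₀))
    (h₀ : Function.Surjective L₀) :
    ∃ K : ℝ, ∀ᶠ i in l, ∃ R : F →L[ℝ] E, (∀ y, L i (R y) = y) ∧ ‖R‖ ≤ K := by
  have : CompleteSpace F := FiniteDimensional.complete ℝ F
  obtain ⟨R, hR⟩ := exists_rightInverse L₀ h₀
  refine ⟨2 * ‖R‖, ?_⟩
  have hε : (0 : ℝ) < 1 / (2 * (‖R‖ + 1)) := by positivity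
  filter_upwards [Metric.tendsto_nhds.1 hL _ hε] with i hi
  refine exists_rightInverse_of_near L₀ (L i) R hR ?_
  rw [dist_eq_norm] at hi
  calc ‖L i - L₀‖ * ‖R‖ ≤ 1 / (2 * (‖R‖ + 1)) * ‖R‖ :=
        mul_le_mul_of_nonneg_right hi.le (norm_nonneg _)
    _ ≤ 1 / 2 := by
        rw [div_mul_eq_mul_div, div_le_div_iff₀ (by positivity) two_pos]
        linarith [norm_nonneg R]

/-- Weighted block form: almost diagonal blocks with right-invertible diagonal limits have an
exact right inverse, bounded in the weighted supremum norm. -/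
theorem exists_weighted_rightInverse {ι : Type*} [Fintype ι] [DecidableEq ι] {E F : ι → Type*}
    [∀ g, NormedAddCommGroup (E g)] [∀ g, NormedSpace ℝ (E g)]
    [∀ g, NormedAddCommGroup (F g)] [∀ g, NormedSpace ℝ (F g)] [∀ g, CompleteSpace (F g)]
    (A : ∀ g h, E h →L[ℝ] F g) (R : ∀ h, F h →L[ℝ] E h) (w : ι → ℝ) (hw : ∀ g, 0 < w g)
    (hd : ∀ g, ∑ h, w g / w h *
      ‖(A g h).comp (R h) - (if e : h = g then e ▸ ContinuousLinearMap.id ℝ (F h) else 0)‖ ≤ 1 / 2) :
    ∃ S : (∀ g, F g) →L[ℝ] (∀ g, E g), (∀ y g, ∑ h, A g h (S y h) = y g) ∧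
      ∀ y (c : ℝ), 0 ≤ c → (∀ g, w g * ‖y g‖ ≤ c) → ∀ h, w h * ‖S y h‖ ≤ 2 * ‖R h‖ * c := by
  let B : ∀ g h, F h →L[ℝ] F g := fun g h =>
    (A g h).comp (R h) - (if e : h = g then e ▸ ContinuousLinearMap.id ℝ (F h) else 0)
  let T : (∀ g, F g) →L[ℝ] (∀ g, F g) := ContinuousLinearMap.pi fun g =>
    -∑ h, (w g / w h) • (B g h).comp (ContinuousLinearMap.proj h)
  have hT : ‖T‖ ≤ 1 / 2 := by
    refine ContinuousLinearMap.opNorm_le_bound _ (by norm_num) fun z => ?_
    refine (pi_norm_le_iff_of_nonneg (by positivity)).2 fun g => ?_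
    simp only [T, ContinuousLinearMap.pi_apply, neg_apply, norm_neg]
    simp only [FunLike.coe_sum, Finset.sum_apply, FunLike.coe_smul,
      Pi.smul_apply, ContinuousLinearMap.coe_comp, Function.comp_apply,
      ContinuousLinearMap.proj_apply]
    refine (norm_sum_le _ _).trans ?_
    calc ∑ h, ‖(w g / w h) • B g h (z h)‖ ≤ ∑ h, w g / w h * ‖B g h‖ * ‖z‖ :=
          Finset.sum_le_sum fun h _ => by
            rw [norm_smul, Real.norm_eq_abs, abs_of_pos (div_pos (hw g) (hw h)), mul_assoc]
            exact mul_le_mul_of_nonneg_left (((B g h).le_opNorm _).trans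
              (mul_le_mul_of_nonneg_left (norm_le_pi_norm z h) (norm_nonneg _)))
              (div_pos (hw g) (hw h)).le
      _ = (∑ h, w g / w h * ‖B g h‖) * ‖z‖ := (Finset.sum_mul _ _ _).symm
      _ ≤ 1 / 2 * ‖z‖ := mul_le_mul_of_nonneg_right (hd g) (norm_nonneg _)
  have hT1 : ‖T‖ < 1 := by linarith
  let u := Units.oneSub T hT1
  let M : (∀ g, F g) →L[ℝ] (∀ g, F g) := ContinuousLinearMap.pi fun g =>
    w g • ContinuousLinearMap.proj g
  let N : (∀ g, F g) →L[ℝ] (∀ g, E g) := ContinuousLinearMap.pi fun g =>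
    (w g)⁻¹ • (R g).comp (ContinuousLinearMap.proj g)
  refine ⟨N.comp ((↑u⁻¹ : (∀ g, F g) →L[ℝ] (∀ g, F g)).comp M), ?_⟩
  have key : ∀ y, ∃ z, (↑u⁻¹ : (∀ g, F g) →L[ℝ] (∀ g, F g)) (M y) = z ∧ z - T z = M y := fun y => by
    refine ⟨_, rfl, ?_⟩
    have hu : ((1 - T) * ↑u⁻¹ : (∀ g, F g) →L[ℝ] (∀ g, F g)) = 1 := u.mul_inv
    simpa [ContinuousLinearMap.mul_def] using congrArg (fun Q => Q (M y)) hu
  constructor
  · intro y g
    obtain ⟨z, hz, hzT⟩ := key y
    have hg := congrFun hzT g
    have e1 : ∀ h, A g h (R h (z h)) = B g h (z h) +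
        (if e : h = g then e ▸ ContinuousLinearMap.id ℝ (F h) else 0 : F h →L[ℝ] F g) (z h) := by
      intro h; simp [B]
    have e2 : ∑ h, ((w g / w h) •
        (if e : h = g then e ▸ ContinuousLinearMap.id ℝ (F h) else 0 : F h →L[ℝ] F g)) (z h) =
          z g := by
      rw [Finset.sum_eq_single g (fun h _ hne => by simp [hne]) (by simp)]
      simp [div_self (hw g).ne']
    simp only [ContinuousLinearMap.coe_comp, Function.comp_apply, hz, N,
      ContinuousLinearMap.pi_apply, FunLike.coe_smul, Pi.smul_apply,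
      ContinuousLinearMap.proj_apply, map_smul, e1]
    simp only [T, M, ContinuousLinearMap.pi_apply, Pi.sub_apply, neg_apply, sub_neg_eq_add,
      FunLike.coe_sum, Finset.sum_apply, FunLike.coe_smul,
      Pi.smul_apply, ContinuousLinearMap.coe_comp, Function.comp_apply,
      ContinuousLinearMap.proj_apply] at hg
    refine smul_right_injective (F g) (hw g).ne' ?_
    simp only [Finset.smul_sum, smul_smul, ← div_eq_mul_inv, smul_add, Finset.sum_add_distrib]
    rw [← hg, add_comm]
    congr 1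
  · intro y c hc hy h
    obtain ⟨z, hz, hzT⟩ := key y
    have hM : ‖M y‖ ≤ c := (pi_norm_le_iff_of_nonneg hc).2 fun g => by
      simpa [M, norm_smul, abs_of_pos (hw g)] using hy g
    have hz2 : ‖z‖ ≤ 2 * c := by
      have h1 : ‖z‖ ≤ ‖M y‖ + ‖T z‖ := by
        conv_lhs => rw [show z = M y + T z by rw [← hzT]; abel]
        exact norm_add_le _ _
      have h2 : ‖T z‖ ≤ 1 / 2 * ‖z‖ :=
        (T.le_opNorm z).trans (mul_le_mul_of_nonneg_right hT (norm_nonneg _))
      linarith
    simp only [ContinuousLinearMap.coe_comp, Function.comp_apply, hz, N,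
      ContinuousLinearMap.pi_apply, FunLike.coe_smul, Pi.smul_apply,
      ContinuousLinearMap.proj_apply]
    rw [norm_smul, norm_inv, Real.norm_eq_abs, abs_of_pos (hw h), ← mul_assoc,
      mul_inv_cancel₀ (hw h).ne', one_mul]
    calc ‖R h (z h)‖ ≤ ‖R h‖ * ‖z h‖ := (R h).le_opNorm _
      _ ≤ ‖R h‖ * (2 * c) := mul_le_mul_of_nonneg_left
          ((norm_le_pi_norm z h).trans hz2) (norm_nonneg _)
      _ = 2 * ‖R h‖ * c := by ring

end

end Vale.Agent.P225.Control
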