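import Mathlib

/-!
P225, control: an elementary generation lemma for `sl₂`.

If `e ^ N` lies in a subspace stable under the brackets with `f` and with `h f + f h`, and the
Casimir element is `N (N + 2)` with `e ^ (N + 1) = 0`, then the subspace contains, up to scalars,
the whole algebra generated by `e`, `f`, `h`.
-/

namespace Vale.Agent.P225.Control.Sl2

variable {R : Type*} [Ring R] [Algebra ℂ R]

/-- The bracket. -/
def br (x y : R) : R := x * y - y * x

omit [Algebra ℂ R] in
theorem br_mul (x y z : R) : br x (y * z) = br x y * z + y * br x z := by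
  simp only [br]; noncomm_ring

theorem br_smul (x y : R) (c : ℂ) : br x (c • y) = c • br x y := by
  simp [br, smul_sub]

omit [Algebra ℂ R] in
theorem br_add (x y z : R) : br x (y + z) = br x y + br x z := by
  simp only [br]; noncomm_ring

omit [Algebra ℂ R] in
theorem br_sub (x y z : R) : br x (y - z) = br x y - br x z := by
  simp only [br]; noncomm_ring

/-- The relations of `sl₂` with a scalar Casimir element. -/
structure Rel (e f h : R) (C : ℂ) : Prop where
  he : br h e = (2 : ℂ) • e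
  hf : br h f = (-2 : ℂ) • f
  ef : br e f = h
  cas : (4 : ℂ) • (e * f) + h * h - (2 : ℂ) • h = C • 1

variable {e f h : R} {C : ℂ} (r : Rel e f h C)

include r

theorem br_fe : br f e = -h := by rw [← r.ef]; simp [br]

theorem br_fh : br f h = (2 : ℂ) • f := by
  have := r.hf
  simp only [br] at this ⊢
  calc f * h - h * f = -(h * f - f * h) := by noncomm_ring
    _ = (2 : ℂ) • f := by rw [this]; module

theorem br_h_pow (m : ℕ) : br h (e ^ m) = (2 * (m : ℂ)) • e ^ m := by
  induction m with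
  | zero => simp [br]
  | succ m ih =>
    rw [pow_succ, br_mul, ih, r.he, smul_mul_assoc, mul_smul_comm]
    push_cast; module

theorem h_mul_pow (m : ℕ) : h * e ^ m = e ^ m * h + (2 * (m : ℂ)) • e ^ m := by
  rw [← br_h_pow r m, br]; abel

theorem br_f_pow (m : ℕ) : br f (e ^ (m + 1)) =
    -((m + 1 : ℂ) • (e ^ m * h)) - ((m : ℂ) * (m + 1)) • e ^ m := by
  induction m with
  | zero => simp [br_fe r]
  | succ m ih =>
    have h2 : e ^ m * h * e = e ^ (m + 1) * h + (2 : ℂ) • e ^ (m + 1) := by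
      have h1 := h_mul_pow r 1
      simp only [pow_one, Nat.cast_one, mul_one] at h1
      rw [mul_assoc, h1, mul_add, mul_smul_comm, ← mul_assoc, ← pow_succ]
    rw [pow_succ e (m + 1), br_mul, ih, br_fe r, sub_mul, neg_mul, smul_mul_assoc, smul_mul_assoc,
      h2, ← pow_succ, mul_neg]
    push_cast; module

theorem pow_mul_f (m : ℕ) : (4 : ℂ) • (e ^ (m + 1) * f) =
    C • e ^ m - e ^ m * h * h + (2 : ℂ) • (e ^ m * h) := by
  have h1 : (4 : ℂ) • (e * f) = C • (1 : R) - h * h + (2 : ℂ) • h := by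
    rw [← r.cas]; abel
  calc (4 : ℂ) • (e ^ (m + 1) * f) = e ^ m * ((4 : ℂ) • (e * f)) := by
        rw [mul_smul_comm, pow_succ, mul_assoc]
    _ = _ := by rw [h1, mul_add, mul_sub, mul_smul_comm, mul_smul_comm, mul_one, mul_assoc]

theorem br_f_pow_h (m : ℕ) : br f (e ^ (m + 1) * h) =
    (-((m : ℂ) + 3 / 2)) • (e ^ m * h * h) + (1 - (m : ℂ) * (m + 1)) • (e ^ m * h) +
      (C / 2) • e ^ m := by
  rw [br_mul, br_f_pow r, br_fh r, mul_smul_comm, sub_mul, neg_mul, smul_mul_assoc, smul_mul_assoc]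
  have h1 : (2 : ℂ) • (e ^ (m + 1) * f) = (2⁻¹ : ℂ) • ((4 : ℂ) • (e ^ (m + 1) * f)) := by
    rw [smul_smul]; norm_num
  rw [h1, pow_mul_f r]
  module

theorem br_ff (m : ℕ) : br f (br f (e ^ (m + 2))) =
    ((m + 2 : ℂ) * ((m : ℂ) + 3 / 2)) • (e ^ m * h * h) +
      ((m + 2 : ℂ) * (2 * (m : ℂ) ^ 2 + 3 * m)) • (e ^ m * h) +
      ((m + 2 : ℂ) * ((m : ℂ) * (m + 1) ^ 2 - C / 2)) • e ^ m := by
  rw [br_f_pow r (m + 1), br_sub, ← neg_smul, br_smul, br_smul, br_f_pow_h r, br_f_pow r]
  push_cast; module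

theorem br_g_pow (m : ℕ) : br (h * f + f * h) (e ^ (m + 1)) =
    (m + 1 : ℂ) • ((C - (m : ℂ) * (4 * m + 2)) • e ^ m + (-6 * (m : ℂ)) • (e ^ m * h) +
      (-3 : ℂ) • (e ^ m * h * h)) := by
  have e0 : br (h * f + f * h) (e ^ (m + 1)) =
      h * br f (e ^ (m + 1)) + br h (e ^ (m + 1)) * f + f * br h (e ^ (m + 1)) +
        br f (e ^ (m + 1)) * h := by
    simp only [br]; noncomm_ring
  have e1 : f * e ^ (m + 1) = e ^ (m + 1) * f + br f (e ^ (m + 1)) := by simp [br]
  have e2 : h * (e ^ m * h) = e ^ m * h * h + (2 * (m : ℂ)) • (e ^ m * h) := by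
    rw [← mul_assoc, h_mul_pow r, add_mul, smul_mul_assoc]
  have e3 : e ^ (m + 1) * f = (4⁻¹ : ℂ) • (C • e ^ m - e ^ m * h * h + (2 : ℂ) • (e ^ m * h)) := by
    rw [← pow_mul_f r, smul_smul]; norm_num
  rw [e0, br_h_pow r, smul_mul_assoc, mul_smul_comm, e1, e3, br_f_pow r]
  simp only [mul_sub, sub_mul, mul_neg, neg_mul, mul_smul_comm, smul_mul_assoc, e2, h_mul_pow r m]
  push_cast; module

theorem descent (m : ℕ) :
    ((2 * (m : ℂ) + 3) * (m + 2)) • br (h * f + f * h) (e ^ (m + 1)) +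
      (6 * (m + 1 : ℂ)) • br f (br f (e ^ (m + 2))) =
      (2 * (m : ℂ) * (m + 1) * (m + 2) * (C - (m : ℂ) ^ 2 - 2 * m)) • e ^ m := by
  rw [br_g_pow r, br_ff r]
  module

theorem pow_mem {N : ℕ} (hC : C = (N : ℂ) * (N + 2)) (hN : e ^ (N + 1) = 0) (S : Submodule ℂ R)
    (hf : ∀ x ∈ S, br f x ∈ S) (hg : ∀ x ∈ S, br (h * f + f * h) x ∈ S) (htop : e ^ N ∈ S) :
    ∀ m, 1 ≤ m → e ^ m ∈ S := by
  have big : ∀ m, N + 1 ≤ m → e ^ m = 0 := fun m hm => by
    rw [← Nat.add_sub_cancel' hm, pow_add, hN, zero_mul]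
  suffices H : ∀ k m, 1 ≤ m → N ≤ m + k → e ^ m ∈ S from fun m hm => H N m hm (by omega)
  intro k
  induction k with
  | zero =>
    intro m _ hm
    rcases eq_or_lt_of_le (show N ≤ m by omega) with h1 | h1
    · rw [← h1]; exact htop
    · rw [big m (by omega)]; exact S.zero_mem
  | succ k ih =>
    intro m h1 hm
    by_cases hk : N ≤ m + k
    · exact ih m h1 hk
    · have hmN : m < N := by omega
      have := S.add_mem (S.smul_mem ((2 * (m : ℂ) + 3) * (m + 2))
          (hg _ (ih (m + 1) (by omega) (by omega))))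
        (S.smul_mem (6 * (m + 1 : ℂ)) (hf _ (hf _ (ih (m + 2) (by omega) (by omega)))))
      rw [descent r m, hC] at this
      refine (Submodule.smul_mem_iff S ?_).mp this
      have hre : 2 * (m : ℝ) * (m + 1) * (m + 2) * ((N : ℝ) * (N + 2) - (m : ℝ) ^ 2 - 2 * m) ≠ 0 := by
        have a1 : (1 : ℝ) ≤ m := by exact_mod_cast h1
        have a2 : (m : ℝ) + 1 ≤ N := by exact_mod_cast hmN
        have : 0 < (N : ℝ) * (N + 2) - (m : ℝ) ^ 2 - 2 * m := by nlinarith
        positivity
      exact_mod_cast hre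

theorem adjoin_le_span {W : Submodule ℂ R} (hW : W = Submodule.span ℂ
      (Set.range fun p : ℕ × ℕ => (br f)^[p.1] (e ^ p.2))) :
    ∀ a ∈ Algebra.adjoin ℂ ({e, f, h} : Set R), a ∈ W := by
  have gen : ∀ i m, (br f)^[i] (e ^ m) ∈ W := fun i m => hW ▸ Submodule.subset_span ⟨(i, m), rfl⟩
  have hpow : ∀ m, e ^ m ∈ W := fun m => gen 0 m
  have hff : ∀ w ∈ W, br f w ∈ W := by
    intro w hw
    rw [hW] at hw
    induction hw using Submodule.span_induction with
    | mem y hy =>
      obtain ⟨⟨i, m⟩, rfl⟩ := hy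
      rw [← Function.iterate_succ_apply' (f := br f)]
      exact gen (i + 1) m
    | zero => simp [br]
    | add y z _ _ hy hz => rw [br_add]; exact W.add_mem hy hz
    | smul t y _ hy => rw [br_smul]; exact W.smul_mem t hy
  have hh : ∀ m, e ^ m * h ∈ W := by
    intro m
    have h1 := W.add_mem (hff _ (hpow (m + 1))) (W.smul_mem ((m : ℂ) * (m + 1)) (hpow m))
    rw [br_f_pow r, sub_add_cancel, neg_mem_iff] at h1
    refine (W.smul_mem_iff ?_).mp h1
    exact_mod_cast Nat.succ_ne_zero m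
  have hhh : ∀ m, e ^ m * h * h ∈ W := by
    intro m
    have h1 := W.sub_mem (W.sub_mem (hff _ (hff _ (hpow (m + 2))))
      (W.smul_mem ((m + 2 : ℂ) * ((m : ℂ) * (m + 1) ^ 2 - C / 2)) (hpow m)))
      (W.smul_mem ((m + 2 : ℂ) * (2 * (m : ℂ) ^ 2 + 3 * m)) (hh m))
    rw [br_ff r, add_sub_cancel_right, add_sub_cancel_right] at h1
    refine (W.smul_mem_iff ?_).mp h1
    refine mul_ne_zero ?_ ?_
    · exact_mod_cast (show m + 2 ≠ 0 by omega)
    · intro hz
      have h2 := congrArg Complex.re hz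
      norm_num at h2
      linarith [(Nat.cast_nonneg m : (0 : ℝ) ≤ m)]
  have base : ∀ m, e * e ^ m ∈ W ∧ h * e ^ m ∈ W ∧ f * e ^ m ∈ W := by
    intro m
    refine ⟨by rw [← pow_succ']; exact hpow _, by
      rw [h_mul_pow r]; exact W.add_mem (hh m) (W.smul_mem _ (hpow m)), ?_⟩
    cases m with
    | zero =>
      have := hff _ (hff _ (hpow 1))
      rw [pow_one, br_fe r, show br f (-h) = -br f h by simp [br]; abel, br_fh r, neg_mem_iff,
        W.smul_mem_iff two_ne_zero] at this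
      simpa using this
    | succ m =>
      have e1 : f * e ^ (m + 1) = (4⁻¹ : ℂ) • (C • e ^ m - e ^ m * h * h + (2 : ℂ) • (e ^ m * h)) +
          br f (e ^ (m + 1)) := by
        rw [← pow_mul_f r, smul_smul]; norm_num [br]
      rw [e1]
      exact W.add_mem (W.smul_mem _ (W.add_mem (W.sub_mem (W.smul_mem _ (hpow m)) (hhh m))
        (W.smul_mem _ (hh m)))) (hff _ (hpow (m + 1)))
  have step : ∀ i m, e * (br f)^[i] (e ^ m) ∈ W ∧ h * (br f)^[i] (e ^ m) ∈ W ∧
      f * (br f)^[i] (e ^ m) ∈ W := by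
    intro i
    induction i with
    | zero => exact base
    | succ i ih =>
      intro m
      obtain ⟨he, hh', hf'⟩ := ih m
      rw [Function.iterate_succ_apply']
      set w := (br f)^[i] (e ^ m)
      have k : ∀ x : R, x * br f w = br f (x * w) - br f x * w := fun x => by rw [br_mul]; abel
      refine ⟨?_, ?_, ?_⟩
      · rw [k, br_fe r, neg_mul, sub_neg_eq_add]; exact W.add_mem (hff _ he) hh'
      · rw [k, br_fh r, smul_mul_assoc]; exact W.sub_mem (hff _ hh') (W.smul_mem _ hf')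
      · rw [k, show br f f = 0 by simp [br], zero_mul, sub_zero]; exact hff _ hf'
  intro a ha
  suffices H : ∀ w ∈ W, a * w ∈ W by simpa using H 1 (by simpa using hpow 0)
  induction ha using Algebra.adjoin_induction with
  | mem x hx =>
    intro w hw
    rw [hW] at hw
    induction hw using Submodule.span_induction with
    | mem y hy =>
      obtain ⟨⟨i, m⟩, rfl⟩ := hy
      rcases hx with rfl | rfl | rfl
      · exact (step i m).1
      · exact (step i m).2.2
      · exact (step i m).2.1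
    | zero => simp
    | add y z _ _ hy hz => rw [mul_add]; exact W.add_mem hy hz
    | smul t y _ hy => rw [mul_smul_comm]; exact W.smul_mem t hy
  | algebraMap t => intro w hw; rw [← Algebra.smul_def]; exact W.smul_mem t hw
  | add x y _ _ hx hy => intro w hw; rw [add_mul]; exact W.add_mem (hx w hw) (hy w hw)
  | mul x y _ _ hx hy => intro w hw; rw [mul_assoc]; exact hx _ (hy w hw)

/-- Up to scalars, a stable subspace containing `e ^ N` contains the generated algebra. -/
theorem adjoin_mem {N : ℕ} (hC : C = (N : ℂ) * (N + 2)) (hN : e ^ (N + 1) = 0) (S : Submodule ℂ R)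
    (hf : ∀ x ∈ S, br f x ∈ S) (hg : ∀ x ∈ S, br (h * f + f * h) x ∈ S) (htop : e ^ N ∈ S)
    {a : R} (ha : a ∈ Algebra.adjoin ℂ ({e, f, h} : Set R)) :
    ∃ c : ℂ, ∃ s ∈ S, a = c • 1 + s := by
  have hp := pow_mem r hC hN S hf hg htop
  have key : ∀ i m, ∃ c : ℂ, ∃ s ∈ S, (br f)^[i] (e ^ m) = c • (1 : R) + s := by
    intro i
    induction i with
    | zero =>
      intro m
      rcases Nat.eq_zero_or_pos m with rfl | hm
      · exact ⟨1, 0, S.zero_mem, by simp⟩
      · exact ⟨0, e ^ m, hp m hm, by simp⟩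
    | succ i ih =>
      intro m
      obtain ⟨c, s, hs, he⟩ := ih m
      exact ⟨0, br f s, hf s hs, by
        rw [Function.iterate_succ_apply', he, br_add, br_smul, show br f (1 : R) = 0 by simp [br]]
        simp⟩
  have := adjoin_le_span r rfl a ha
  clear ha
  induction this using Submodule.span_induction with
  | mem y hy => obtain ⟨⟨i, m⟩, rfl⟩ := hy; exact key i m
  | zero => exact ⟨0, 0, S.zero_mem, by simp⟩
  | add y z _ _ hy hz =>
    obtain ⟨c, s, hs, rfl⟩ := hy
    obtain ⟨c', s', hs', rfl⟩ := hz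
    exact ⟨c + c', s + s', S.add_mem hs hs', by module⟩
  | smul t y _ hy =>
    obtain ⟨c, s, hs, rfl⟩ := hy
    exact ⟨t * c, t • s, S.smul_mem t hs, by module⟩

end Vale.Agent.P225.Control.Sl2
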